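import Mathlib

/-!
States, purifications, key distillation protocols with public discussion.
-/

noncomputable section

open Matrix
open scoped ComplexOrder Kronecker

namespace Vale.Agent.P372

/-- A measurement: positive semidefinite operators adding up to the identity. -/
def IsPOVM {ι O : Type} [Fintype ι] [DecidableEq ι] [Fintype O] (M : O → Matrix ι ι ℂ) : Prop :=
  (∀ o, (M o).PosSemidef) ∧ ∑ o, M o = 1

/-- A density operator. -/
def IsState {ι : Type} [Fintype ι] (ρ : Matrix ι ι ℂ) : Prop :=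
  ρ.PosSemidef ∧ ρ.trace = 1

/-- A finite convex combination of product states. -/
def IsSeparable {dA dB : ℕ} (ρ : Matrix (Fin dA × Fin dB) (Fin dA × Fin dB) ℂ) : Prop :=
  ∃ (N : ℕ) (p : Fin N → ℝ) (α : Fin N → Matrix (Fin dA) (Fin dA) ℂ)
    (β : Fin N → Matrix (Fin dB) (Fin dB) ℂ),
    (∀ i, 0 ≤ p i) ∧ ∑ i, p i = 1 ∧ (∀ i, IsState (α i)) ∧ (∀ i, IsState (β i)) ∧
    ρ = ∑ i, (p i : ℂ) • (α i ⊗ₖ β i)

/-- The partial transpose in the second factor. -/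
def partialTranspose {A B : Type} (ρ : Matrix (A × B) (A × B) ℂ) : Matrix (A × B) (A × B) ℂ :=
  Matrix.of fun i j => ρ (i.1, j.2) (j.1, i.2)

/-- The product vector `a ⊗ b`. -/
def prodVec {A B : Type} (a : A → ℂ) (b : B → ℂ) : A × B → ℂ :=
  fun i => a i.1 * b i.2

/-- No nonzero product vector is orthogonal to all of the vectors `a l ⊗ b l`. -/
def Unextendible {dA dB N : ℕ} (a : Fin N → Fin dA → ℂ) (b : Fin N → Fin dB → ℂ) : Prop :=
  ∀ x y, (∀ l, (star x ⬝ᵥ a l) * (star y ⬝ᵥ b l) = 0) → x = 0 ∨ y = 0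

/-- The trace norm, the sum of the singular values. -/
def traceNorm {ι : Type} [Fintype ι] [DecidableEq ι] (X : Matrix ι ι ℂ) : ℝ :=
  ∑ i, Real.sqrt ((isHermitian_conjTranspose_mul_self X).eigenvalues i)

/-- `n` copies of a purification. -/
def copies {A B E : Type} (G : Matrix (A × B) E ℂ) (n : ℕ) :
    Matrix ((Fin n → A) × (Fin n → B)) (Fin n → E) ℂ :=
  Matrix.of fun i e => ∏ t, G (i.1 t, i.2 t) (e t)

/-- The unnormalised state left with Eve when `M ⊗ N` is applied to the purification `G`. -/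
def eveOp {A B E : Type} [Fintype A] [Fintype B] (G : Matrix (A × B) E ℂ) (M : Matrix A A ℂ)
    (N : Matrix B B ℂ) : Matrix E E ℂ :=
  (Gᴴ * (M ⊗ₖ N) * G)ᵀ

/-- Eve's part of the final state for the keys `kA`, `kB` and the public messages `u`, `v`. -/
def keyState {dA dB r n ℓ a b s t : ℕ} (G : Matrix (Fin dA × Fin dB) (Fin r) ℂ)
    (MA : Fin a → Matrix (Fin n → Fin dA) (Fin n → Fin dA) ℂ)
    (MB : Fin b → Matrix (Fin n → Fin dB) (Fin n → Fin dB) ℂ)
    (msgB : Fin b → Fin s) (msgA : Fin a → Fin s → Fin t)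
    (keyA : Fin a → Fin s → Fin ℓ → ZMod 2) (keyB : Fin b → Fin t → Fin ℓ → ZMod 2)
    (kA kB : Fin ℓ → ZMod 2) (u : Fin s) (v : Fin t) :
    Matrix (Fin n → Fin r) (Fin n → Fin r) ℂ :=
  ∑ i, ∑ j, if msgB j = u ∧ msgA i u = v ∧ keyA i u = kA ∧ keyB j v = kB
    then eveOp (copies G n) (MA i) (MB j) else 0

/-- A protocol on `n` copies gives `ℓ` key bits with error at most `ε`: both measure their
systems, Bob announces a message, Alice answers, and each computes a key. -/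
def KeyWithError {dA dB r : ℕ} (G : Matrix (Fin dA × Fin dB) (Fin r) ℂ) (n ℓ : ℕ) (ε : ℝ) :
    Prop :=
  ∃ (a b s t : ℕ) (MA : Fin a → Matrix (Fin n → Fin dA) (Fin n → Fin dA) ℂ)
    (MB : Fin b → Matrix (Fin n → Fin dB) (Fin n → Fin dB) ℂ)
    (msgB : Fin b → Fin s) (msgA : Fin a → Fin s → Fin t)
    (keyA : Fin a → Fin s → Fin ℓ → ZMod 2) (keyB : Fin b → Fin t → Fin ℓ → ZMod 2)
    (σ : Fin s → Fin t → Matrix (Fin n → Fin r) (Fin n → Fin r) ℂ),
    IsPOVM MA ∧ IsPOVM MB ∧ (∀ u v, (σ u v).PosSemidef) ∧ ∑ u, ∑ v, (σ u v).trace = 1 ∧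
    ∑ kA, ∑ kB, ∑ u, ∑ v, traceNorm
      (keyState G MA MB msgB msgA keyA keyB kA kB u v
        - if kA = kB then ((2 : ℂ) ^ ℓ)⁻¹ • σ u v else 0) ≤ ε

/-- For every purification there is a positive rate achieved with vanishing error. -/
def HasPositiveKey {dA dB : ℕ} (ρ : Matrix (Fin dA × Fin dB) (Fin dA × Fin dB) ℂ) : Prop :=
  (∃ (r : ℕ) (G : Matrix (Fin dA × Fin dB) (Fin r) ℂ), G * Gᴴ = ρ) ∧
  ∀ (r : ℕ) (G : Matrix (Fin dA × Fin dB) (Fin r) ℂ), G * Gᴴ = ρ →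
    ∃ c : ℝ, 0 < c ∧ ∀ ε : ℝ, 0 < ε →
      ∃ N : ℕ, ∀ n, N ≤ n → ∃ ℓ : ℕ, c * n ≤ ℓ ∧ KeyWithError G n ℓ ε

/-- The five product vectors of the Tiles basis. -/
def tilesA : Fin 5 → Fin 3 → ℂ :=
  ![![1, 0, 0], ![0, 0, 1], ![1, -1, 0], ![0, 1, -1], ![1, 1, 1]]

/-- The five product vectors of the Tiles basis. -/
def tilesB : Fin 5 → Fin 3 → ℂ :=
  ![![1, -1, 0], ![0, 1, -1], ![0, 0, 1], ![1, 0, 0], ![1, 1, 1]]

/-- Squared norms of the five vectors. -/
def tilesW : Fin 5 → ℂ :=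
  ![2, 2, 2, 2, 9]

/-- The normalised projection onto the complement of the five vectors. -/
def tilesState : Matrix (Fin 3 × Fin 3) (Fin 3 × Fin 3) ℂ :=
  (4 : ℂ)⁻¹ • (1 - ∑ l, (tilesW l)⁻¹ •
    vecMulVec (prodVec (tilesA l) (tilesB l)) (star (prodVec (tilesA l) (tilesB l))))

end Vale.Agent.P372
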