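import Mathlib
import Vale.Agent.P372.Defs

/-!
Rank-one decompositions bound the trace norm and behave well under tensor products.
-/

noncomputable section

open Matrix Finset
open scoped ComplexOrder Kronecker MatrixOrder

namespace Vale.Agent.P372

section
variable {ι κ : Type} [Fintype ι] [Fintype κ]

/-- Squared norm of a vector. -/
def vsq (u : ι → ℂ) : ℝ := ∑ i, Complex.normSq (u i)

/-- Norm of a vector. -/
def vn (u : ι → ℂ) : ℝ := Real.sqrt (vsq u)

/-- Squared Frobenius norm of a matrix. -/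
def fsq (A : Matrix ι κ ℂ) : ℝ := ∑ k, vsq fun i => A i k

/-- `X` is a sum of rank-one operators of total norm at most `c`. -/
def Bnd (X : Matrix ι ι ℂ) (c : ℝ) : Prop :=
  ∃ (J : ℕ) (u v : Fin J → ι → ℂ),
    X = ∑ j, vecMulVec (u j) (star (v j)) ∧ ∑ j, vn (u j) * vn (v j) ≤ c

theorem vsq_nonneg (u : ι → ℂ) : 0 ≤ vsq u :=
  Finset.sum_nonneg fun _ _ => Complex.normSq_nonneg _

theorem vn_nonneg (u : ι → ℂ) : 0 ≤ vn u := Real.sqrt_nonneg _

theorem sq_vn (u : ι → ℂ) : vn u ^ 2 = vsq u := Real.sq_sqrt (vsq_nonneg u)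

theorem vn_mul_self (u : ι → ℂ) : vn u * vn u = vsq u := Real.mul_self_sqrt (vsq_nonneg u)

theorem fsq_nonneg (A : Matrix ι κ ℂ) : 0 ≤ fsq A := Finset.sum_nonneg fun _ _ => vsq_nonneg _

theorem dot_self (u : ι → ℂ) : star u ⬝ᵥ u = (vsq u : ℂ) := by
  simp [vsq, dotProduct, Complex.normSq_eq_conj_mul_self]

theorem vn_star (u : ι → ℂ) : vn (star u) = vn u := by
  simp [vn, vsq]

theorem vsq_smul (c : ℂ) (u : ι → ℂ) : vsq (c • u) = Complex.normSq c * vsq u := by
  simp [vsq, Finset.mul_sum]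

theorem vn_smul (c : ℂ) (u : ι → ℂ) : vn (c • u) = ‖c‖ * vn u := by
  rw [vn, vsq_smul, Real.sqrt_mul (Complex.normSq_nonneg c), ← Complex.norm_def]
  rfl

theorem norm_dot_le (u v : ι → ℂ) : ‖star u ⬝ᵥ v‖ ≤ vn u * vn v := by
  refine (norm_sum_le _ _).trans ?_
  simp only [norm_mul, Pi.star_apply, norm_star]
  have h := Finset.sum_mul_sq_le_sq_mul_sq Finset.univ (fun i => ‖u i‖) (fun i => ‖v i‖)
  simp only [Complex.sq_norm] at h
  rw [vn, vn, ← Real.sqrt_mul (vsq_nonneg u)]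
  exact Real.le_sqrt_of_sq_le h

theorem bnd_of {J : Type} [Fintype J] (u v : J → ι → ℂ) :
    Bnd (∑ j, vecMulVec (u j) (star (v j))) (∑ j, vn (u j) * vn (v j)) :=
  ⟨Fintype.card J, fun j => u ((Fintype.equivFin J).symm j),
    fun j => v ((Fintype.equivFin J).symm j),
    ((Fintype.equivFin J).symm.sum_comp fun j => vecMulVec (u j) (star (v j))).symm,
    ((Fintype.equivFin J).symm.sum_comp fun j => vn (u j) * vn (v j)).le⟩

theorem bnd_nonneg {X : Matrix ι ι ℂ} {c : ℝ} (h : Bnd X c) : 0 ≤ c := by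
  obtain ⟨J, u, v, -, hc⟩ := h
  exact (Finset.sum_nonneg fun j _ => mul_nonneg (vn_nonneg _) (vn_nonneg _)).trans hc

theorem bnd_mono {X : Matrix ι ι ℂ} {c c' : ℝ} (h : Bnd X c) (hc : c ≤ c') : Bnd X c' := by
  obtain ⟨J, u, v, hX, hJ⟩ := h
  exact ⟨J, u, v, hX, hJ.trans hc⟩

theorem bnd_zero : Bnd (0 : Matrix ι ι ℂ) 0 :=
  ⟨0, Fin.elim0, Fin.elim0, by simp, by simp⟩

theorem bnd_add {X Y : Matrix ι ι ℂ} {c d : ℝ} (hX : Bnd X c) (hY : Bnd Y d) :
    Bnd (X + Y) (c + d) := by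
  obtain ⟨J, u, v, rfl, hc⟩ := hX
  obtain ⟨K, u', v', rfl, hd⟩ := hY
  have h := bnd_of (Sum.elim u u') (Sum.elim v v')
  simp only [Fintype.sum_sum_type, Sum.elim_inl, Sum.elim_inr] at h
  exact bnd_mono h (add_le_add hc hd)

theorem bnd_sum {J : Type} (s : Finset J) {X : J → Matrix ι ι ℂ} {c : J → ℝ}
    (h : ∀ j ∈ s, Bnd (X j) (c j)) : Bnd (∑ j ∈ s, X j) (∑ j ∈ s, c j) := by
  induction s using Finset.cons_induction with
  | empty => simpa using bnd_zero
  | cons a s ha ih =>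
    rw [Finset.sum_cons, Finset.sum_cons]
    exact bnd_add (h a (Finset.mem_cons_self a s)) (ih fun j hj => h j (Finset.mem_cons_of_mem hj))

theorem bnd_smul {X : Matrix ι ι ℂ} {c : ℝ} (a : ℂ) (h : Bnd X c) : Bnd (a • X) (‖a‖ * c) := by
  obtain ⟨J, u, v, rfl, hc⟩ := h
  refine ⟨J, fun j => a • u j, v, by simp [Finset.smul_sum, smul_vecMulVec], ?_⟩
  simp only [vn_smul, mul_assoc, ← Finset.mul_sum]
  exact mul_le_mul_of_nonneg_left hc (norm_nonneg a)

theorem bnd_neg {X : Matrix ι ι ℂ} {c : ℝ} (h : Bnd X c) : Bnd (-X) c := by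
  simpa using bnd_smul (-1) h

theorem bnd_sub {X Y : Matrix ι ι ℂ} {c d : ℝ} (hX : Bnd X c) (hY : Bnd Y d) :
    Bnd (X - Y) (c + d) := by
  rw [sub_eq_add_neg]
  exact bnd_add hX (bnd_neg hY)

theorem bnd_ite {X : Matrix ι ι ℂ} {c : ℝ} (P : Prop) [Decidable P] (h : Bnd X c) :
    Bnd (if P then X else 0) (if P then c else 0) := by
  split_ifs
  · exact h
  · exact bnd_zero

theorem bnd_transpose {X : Matrix ι ι ℂ} {c : ℝ} (h : Bnd X c) : Bnd Xᵀ c := by
  obtain ⟨J, u, v, rfl, hc⟩ := h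
  refine ⟨J, fun j => star (v j), fun j => star (u j),
    by simp [transpose_sum, transpose_vecMulVec], ?_⟩
  simpa [vn_star, mul_comm] using hc

theorem bnd_reindex {X : Matrix ι ι ℂ} {c : ℝ} (e : κ ≃ ι) (h : Bnd X c) :
    Bnd (X.submatrix e e) c := by
  obtain ⟨J, u, v, rfl, hc⟩ := h
  refine ⟨J, fun j => u j ∘ e, fun j => v j ∘ e, ?_, ?_⟩
  · ext i k
    simp [Matrix.sum_apply, vecMulVec_apply]
  · have : ∀ w : ι → ℂ, vn (w ∘ e) = vn w := fun w => by
      rw [vn, vn, vsq, vsq, ← e.sum_comp]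
      rfl
    simpa [this] using hc

theorem mul_conjTranspose_eq_sum {Q : Type} [Fintype Q] (A B : Matrix ι Q ℂ) :
    A * Bᴴ = ∑ k, vecMulVec (fun i => A i k) (star fun i => B i k) := by
  ext i j
  simp [Matrix.mul_apply, Matrix.sum_apply, vecMulVec_apply]

theorem trace_vecMulVec_star (u : ι → ℂ) : (vecMulVec u (star u)).trace = (vsq u : ℂ) := by
  rw [trace_vecMulVec, dotProduct_comm, dot_self]

theorem trace_mul_conjTranspose_self {Q : Type} [Fintype Q] (A : Matrix ι Q ℂ) :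
    (A * Aᴴ).trace = (fsq A : ℂ) := by
  rw [mul_conjTranspose_eq_sum, trace_sum, fsq, Complex.ofReal_sum]
  exact Finset.sum_congr rfl fun k _ => trace_vecMulVec_star _

theorem bnd_gram {Q : Type} [Fintype Q] (A : Matrix ι Q ℂ) : Bnd (A * Aᴴ) (fsq A) := by
  rw [mul_conjTranspose_eq_sum]
  refine bnd_mono (bnd_of _ _) (le_of_eq ?_)
  simp [fsq, vn_mul_self]

theorem exists_factor [DecidableEq ι] {X : Matrix ι ι ℂ} (h : X.PosSemidef) :
    ∃ R : Matrix ι ι ℂ, X = R * Rᴴ :=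
  CStarAlgebra.nonneg_iff_eq_mul_star_self.1 h.nonneg

theorem bnd_psd [DecidableEq ι] {X : Matrix ι ι ℂ} (h : X.PosSemidef) : Bnd X X.trace.re := by
  obtain ⟨R, rfl⟩ := exists_factor h
  rw [trace_mul_conjTranspose_self]
  simpa using bnd_gram R

theorem vsq_mulVec_le [DecidableEq ι] [DecidableEq κ] {U : Matrix ι κ ℂ}
    (h : U * (Uᴴ * U) = U) (u : ι → ℂ) : vsq (Uᴴ *ᵥ u) ≤ vsq u := by
  have key : (vsq ((1 - U * Uᴴ) *ᵥ u) : ℂ) = (vsq u : ℂ) - (vsq (Uᴴ *ᵥ u) : ℂ) := by
    have hP : (1 - U * Uᴴ)ᴴ * (1 - U * Uᴴ) = 1 - U * Uᴴ := by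
      have h2 : U * Uᴴ * (U * Uᴴ) = U * Uᴴ := by
        calc U * Uᴴ * (U * Uᴴ) = U * (Uᴴ * U) * Uᴴ := by simp only [Matrix.mul_assoc]
          _ = U * Uᴴ := by rw [h]
      rw [conjTranspose_sub, conjTranspose_one, conjTranspose_mul, conjTranspose_conjTranspose,
        Matrix.sub_mul, Matrix.mul_sub, Matrix.mul_sub, h2]
      simp
    rw [← dot_self, ← dot_self, ← dot_self, star_mulVec, ← dotProduct_mulVec, mulVec_mulVec, hP,
      star_mulVec, ← dotProduct_mulVec, conjTranspose_conjTranspose, sub_mulVec, one_mulVec,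
      dotProduct_sub, mulVec_mulVec]
  have := vsq_nonneg ((1 - U * Uᴴ) *ᵥ u)
  have key' := congrArg Complex.re key
  simp at key'
  linarith

theorem traceNorm_le [DecidableEq ι] {X : Matrix ι ι ℂ} {c : ℝ} (h : Bnd X c) :
    traceNorm X ≤ c := by
  obtain ⟨J, u, v, hX, hc⟩ := h
  refine le_trans ?_ hc
  set hH := isHermitian_conjTranspose_mul_self X
  set V : Matrix ι ι ℂ := (hH.eigenvectorUnitary : Matrix ι ι ℂ)
  set s : ι → ℝ := fun i => Real.sqrt (hH.eigenvalues i) with hs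
  have hV : Vᴴ * V = 1 := by
    rw [← star_eq_conjTranspose]
    exact Unitary.coe_star_mul_self _
  have hV' : V * Vᴴ = 1 := by
    rw [← star_eq_conjTranspose]
    exact Unitary.coe_mul_star_self _
  have hspec : Vᴴ * (Xᴴ * X) * V = diagonal fun i => ((hH.eigenvalues i : ℝ) : ℂ) := by
    have := hH.spectral_theorem
    rw [Unitary.conjStarAlgAut_apply] at this
    conv_lhs => rw [this]
    rw [star_eq_conjTranspose]
    change Vᴴ * (V * diagonal (RCLike.ofReal ∘ hH.eigenvalues) * Vᴴ) * V = _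
    calc Vᴴ * (V * diagonal (RCLike.ofReal ∘ hH.eigenvalues) * Vᴴ) * V
        = (Vᴴ * V) * diagonal (RCLike.ofReal ∘ hH.eigenvalues) * (Vᴴ * V) := by
          simp only [Matrix.mul_assoc]
      _ = _ := by rw [hV, Matrix.one_mul, Matrix.mul_one]; rfl
  have hsq : ∀ i, hH.eigenvalues i = s i * s i := fun i =>
    (Real.mul_self_sqrt (eigenvalues_conjTranspose_mul_self_nonneg X i)).symm
  set U : Matrix ι ι ℂ := X * V * diagonal (fun i => (((s i)⁻¹ : ℝ) : ℂ)) with hU
  have hUXV : Uᴴ * X * V = diagonal fun i => ((s i : ℝ) : ℂ) := by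
    rw [hU, conjTranspose_mul, conjTranspose_mul, diagonal_conjTranspose]
    calc diagonal (star fun i => (((s i)⁻¹ : ℝ) : ℂ)) * (Vᴴ * Xᴴ) * X * V
        = diagonal (star fun i => (((s i)⁻¹ : ℝ) : ℂ)) * (Vᴴ * (Xᴴ * X) * V) := by
          simp only [Matrix.mul_assoc]
      _ = _ := by
          rw [hspec, diagonal_mul_diagonal]
          congr 1
          funext i
          simp only [Pi.star_apply, RCLike.star_def, Complex.conj_ofReal, ← Complex.ofReal_mul,
            hsq i]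
          rcases eq_or_ne (s i) 0 with h0 | h0
          · simp [h0]
          · rw [← mul_assoc, inv_mul_cancel₀ h0, one_mul]
  have hUU : U * (Uᴴ * U) = U := by
    have : Uᴴ * U = diagonal (fun i => ((s i * (s i)⁻¹ : ℝ) : ℂ)) := by
      conv_lhs => arg 2; rw [hU]
      rw [← Matrix.mul_assoc, ← Matrix.mul_assoc, hUXV, diagonal_mul_diagonal]
      simp
    rw [this]
    conv_lhs => rw [hU, Matrix.mul_assoc, diagonal_mul_diagonal]
    rw [hU]
    congr 2
    funext i
    rcases eq_or_ne (s i) 0 with h0 | h0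
    · simp [h0]
    · simp [mul_inv_cancel₀ h0]
  have hVV : Vᴴᴴ * (Vᴴ * Vᴴᴴ) = Vᴴᴴ := by rw [conjTranspose_conjTranspose, hV, Matrix.mul_one]
  have htr : (∑ i, (s i : ℂ)) = ∑ j, star (Vᴴ *ᵥ v j) ⬝ᵥ (Uᴴ *ᵥ u j) := by
    have := congrArg Matrix.trace hUXV
    rw [trace_diagonal, hX, Matrix.mul_sum, Finset.sum_mul, trace_sum] at this
    rw [← this]
    refine Finset.sum_congr rfl fun j _ => ?_
    rw [mul_vecMulVec, vecMulVec_mul, trace_vecMulVec, dotProduct_comm, star_mulVec,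
      conjTranspose_conjTranspose]
  calc traceNorm X = ∑ i, s i := rfl
    _ = ‖∑ i, (s i : ℂ)‖ := by
        rw [← Complex.ofReal_sum, Complex.norm_real, Real.norm_eq_abs,
          abs_of_nonneg (Finset.sum_nonneg fun i _ => Real.sqrt_nonneg _)]
    _ ≤ _ := by
        rw [htr]
        refine (norm_sum_le _ _).trans (Finset.sum_le_sum fun j _ => ?_)
        refine (norm_dot_le _ _).trans (le_trans ?_ (le_of_eq (mul_comm _ _)))
        refine mul_le_mul (Real.sqrt_le_sqrt ?_) (Real.sqrt_le_sqrt (vsq_mulVec_le hUU _))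
          (vn_nonneg _) (vn_nonneg _)
        simpa using vsq_mulVec_le (U := V) (by rw [hV, Matrix.mul_one]) (v j)

end

section
variable {I : Type} [Fintype I] {E F Z : Type}

/-- The tensor product of a family of matrices. -/
def piMat (X : I → Matrix E F ℂ) : Matrix (I → E) (I → F) ℂ :=
  Matrix.of fun e f => ∏ i, X i (e i) (f i)

/-- The tensor product of a family of vectors. -/
def piVec (u : I → E → ℂ) : (I → E) → ℂ := fun e => ∏ i, u i (e i)

theorem piMat_mul [DecidableEq I] [Fintype F] (X : I → Matrix E F ℂ) (Y : I → Matrix F Z ℂ) :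
    piMat X * piMat Y = piMat fun i => X i * Y i := by
  ext e g
  simp [piMat, Matrix.mul_apply, Fintype.prod_sum, Finset.prod_mul_distrib]

theorem piMat_conjTranspose (X : I → Matrix E F ℂ) : (piMat X)ᴴ = piMat fun i => (X i)ᴴ := by
  ext e f
  simp [piMat]

theorem piMat_sum [DecidableEq I] {J : I → Type} [∀ i, Fintype (J i)]
    (X : ∀ i, J i → Matrix E F ℂ) :
    piMat (fun i => ∑ j, X i j) = ∑ f : ∀ i, J i, piMat fun i => X i (f i) := by
  ext e g
  simp [piMat, Matrix.sum_apply, Fintype.prod_sum]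

theorem piMat_smul (a : I → ℂ) (X : I → Matrix E F ℂ) :
    piMat (fun i => a i • X i) = (∏ i, a i) • piMat X := by
  ext e g
  simp [piMat, Finset.prod_mul_distrib]

theorem piMat_trace [DecidableEq I] [Fintype E] (X : I → Matrix E E ℂ) :
    (piMat X).trace = ∏ i, (X i).trace := by
  simp [piMat, Matrix.trace, Fintype.prod_sum]

theorem piMat_one [DecidableEq E] : piMat (fun _ : I => (1 : Matrix E E ℂ)) = 1 := by
  ext e g
  simp only [piMat, Matrix.of_apply, Matrix.one_apply]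
  by_cases h : e = g
  · simp [h]
  · rw [if_neg h]
    obtain ⟨i, hi⟩ := Function.ne_iff.1 h
    exact Finset.prod_eq_zero (Finset.mem_univ i) (if_neg hi)

theorem piMat_ite [DecidableEq I] (P : I → Prop) [∀ i, Decidable (P i)] (X : I → Matrix E F ℂ) :
    piMat (fun i => if P i then X i else 0) = if ∀ i, P i then piMat X else 0 := by
  split_ifs with h
  · simp [h]
  · ext e g
    obtain ⟨i, hi⟩ := not_forall.1 h
    simp only [piMat, Matrix.of_apply, Matrix.zero_apply]
    exact Finset.prod_eq_zero (Finset.mem_univ i) (by simp [hi])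

theorem piMat_posSemidef [DecidableEq I] [Fintype E] [DecidableEq E] {X : I → Matrix E E ℂ}
    (h : ∀ i, (X i).PosSemidef) : (piMat X).PosSemidef := by
  choose R hR using fun i => exists_factor (h i)
  rw [funext hR, ← piMat_mul R fun i => (R i)ᴴ, ← piMat_conjTranspose]
  exact posSemidef_self_mul_conjTranspose _

theorem piMat_vecMulVec (u v : I → E → ℂ) :
    piMat (fun i => vecMulVec (u i) (star (v i))) = vecMulVec (piVec u) (star (piVec v)) := by
  ext e g
  simp [piMat, piVec, vecMulVec_apply, Finset.prod_mul_distrib]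

theorem vsq_piVec [DecidableEq I] [Fintype E] (u : I → E → ℂ) :
    vsq (piVec u) = ∏ i, vsq (u i) := by
  simp [vsq, piVec, Fintype.prod_sum, map_prod]

theorem dot_piVec [DecidableEq I] [Fintype E] (u v : I → E → ℂ) :
    star (piVec u) ⬝ᵥ piVec v = ∏ i, star (u i) ⬝ᵥ v i := by
  simp [dotProduct, piVec, Fintype.prod_sum, Finset.prod_mul_distrib]

theorem vn_piVec [DecidableEq I] [Fintype E] (u : I → E → ℂ) :
    vn (piVec u) = ∏ i, vn (u i) := by
  rw [vn, vsq_piVec, Real.sqrt_prod _ fun i _ => vsq_nonneg _]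
  rfl

theorem bnd_pi [DecidableEq I] [Fintype E] {X : I → Matrix E E ℂ} {c : I → ℝ}
    (h : ∀ i, Bnd (X i) (c i)) : Bnd (piMat X) (∏ i, c i) := by
  choose J u v hX hc using h
  rw [funext hX, piMat_sum]
  simp only [piMat_vecMulVec]
  refine bnd_mono (bnd_of _ _) ?_
  simp only [vn_piVec, ← Finset.prod_mul_distrib]
  rw [← Fintype.prod_sum fun i j => vn (u i j) * vn (v i j)]
  exact Finset.prod_le_prod
    (fun i _ => Finset.sum_nonneg fun j _ => mul_nonneg (vn_nonneg _) (vn_nonneg _))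
    fun i _ => hc i

end

end Vale.Agent.P372
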