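import Mathlib
import Vale.Agent.P372.Bnd

/-!
Symmetric anticommuting matrices and a matrix of fermionic operators.
-/

noncomputable section

open Matrix Finset
open scoped ComplexOrder Kronecker MatrixOrder

namespace Vale.Agent.P372

/-- Change the `u`-th bit. -/
def flipBit {g : ℕ} (u : Fin g) (x : Fin g → Bool) : Fin g → Bool :=
  Function.update x u (!(x u))

/-- The sign of the bits below `u`. -/
def lowSign {g : ℕ} (u : Fin g) (x : Fin g → Bool) : ℂ :=
  ∏ v, if v < u ∧ x v then -1 else 1

/-- Jordan–Wigner matrices. -/
def majorana {g : ℕ} (u : Fin g) : Matrix (Fin g → Bool) (Fin g → Bool) ℂ :=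
  Matrix.of fun x y => if y = flipBit u x then lowSign u x else 0

theorem flipBit_flipBit {g : ℕ} (u : Fin g) (x : Fin g → Bool) : flipBit u (flipBit u x) = x := by
  ext v; by_cases h : v = u <;> simp [flipBit, Function.update, h]

theorem flipBit_comm {g : ℕ} (u w : Fin g) (x : Fin g → Bool) :
    flipBit u (flipBit w x) = flipBit w (flipBit u x) := by
  ext v; by_cases h : v = u <;> by_cases h' : v = w <;> simp_all [flipBit, Function.update]

theorem lowSign_flip {g : ℕ} (u w : Fin g) (x : Fin g → Bool) :
    lowSign u (flipBit w x) = (if w < u then -1 else 1) * lowSign u x := by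
  rw [lowSign, lowSign, ← Finset.mul_prod_erase univ _ (mem_univ w),
    ← Finset.mul_prod_erase univ (fun v => if v < u ∧ x v = true then (-1 : ℂ) else 1) (mem_univ w)]
  rw [← mul_assoc, Finset.prod_congr (f := fun v => if v < u ∧ flipBit w x v = true then (-1 : ℂ) else 1)
    (g := fun v => if v < u ∧ x v = true then (-1 : ℂ) else 1) rfl fun v hv => by
      simp [flipBit, Function.update, (Finset.mem_erase.1 hv).1]]
  congr 1
  by_cases h : w < u <;> cases hx : x w <;> simp [flipBit, h, hx]

theorem lowSign_sq {g : ℕ} (u : Fin g) (x : Fin g → Bool) : lowSign u x * lowSign u x = 1 := by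
  rw [lowSign, ← Finset.prod_mul_distrib]
  exact Finset.prod_eq_one fun v _ => by split_ifs <;> norm_num

theorem majorana_symm {g : ℕ} (u : Fin g) : (majorana u)ᵀ = majorana u := by
  ext x y
  simp only [transpose_apply, majorana, Matrix.of_apply]
  by_cases h : y = flipBit u x
  · subst h
    simp [flipBit_flipBit, lowSign_flip]
  · rw [if_neg h, if_neg fun h' => h (by rw [h', flipBit_flipBit])]

theorem majorana_adj {g : ℕ} (u : Fin g) : (majorana u)ᴴ = majorana u := by
  conv_rhs => rw [← majorana_symm u]
  ext x y
  simp [majorana, lowSign, apply_ite (starRingEnd ℂ), map_prod]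

theorem majorana_trace {g : ℕ} (u : Fin g) : (majorana u).trace = 0 := by
  refine Finset.sum_eq_zero fun x _ => ?_
  simp only [Matrix.diag, majorana, Matrix.of_apply]
  refine if_neg fun h => ?_
  have := congrFun h u
  simp [flipBit] at this

theorem majorana_mul {g : ℕ} (u w : Fin g) (x y : Fin g → Bool) :
    (majorana u * majorana w) x y
      = if y = flipBit w (flipBit u x) then lowSign u x * lowSign w (flipBit u x) else 0 := by
  rw [Matrix.mul_apply, Finset.sum_eq_single (flipBit u x)]
  · simp [majorana]
  · intro z _ hz; simp [majorana, hz]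
  · simp

theorem majorana_car {g : ℕ} (u w : Fin g) :
    majorana u * majorana w + majorana w * majorana u = if u = w then (2 : ℂ) • 1 else 0 := by
  ext x y
  rw [Matrix.add_apply, majorana_mul, majorana_mul, flipBit_comm w u, lowSign_flip, lowSign_flip]
  by_cases h : u = w
  · subst h
    simp only [lt_irrefl, if_false, one_mul, lowSign_sq, flipBit_flipBit, if_pos,
      Matrix.smul_apply, Matrix.one_apply, smul_eq_mul]
    by_cases hxy : x = y
    · simp [hxy]; norm_num
    · simp [hxy, Ne.symm hxy]
  · rw [if_neg h]
    rcases lt_or_gt_of_ne h with h' | h'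
    all_goals simp only [h', h'.asymm, if_true, if_false, Matrix.zero_apply]
    all_goals split_ifs <;> ring

/-- Matrices `f a b` with `{f a b, f c d} = 2` at `(a, b) = (d, c)`, and zero otherwise. -/
structure Car (k : ℕ) where
  dim : ℕ
  pos : 0 < dim
  f : Fin k → Fin k → Matrix (Fin dim) (Fin dim) ℂ
  adj : ∀ a b, (f a b)ᴴ = f b a
  symm : ∀ a b, (f a b)ᵀ = f a b
  tr : ∀ a b, (f a b).trace = 0
  car : ∀ a b c d, f a b * f c d + f c d * f a b = if a = d ∧ b = c then (2 : ℂ) • 1 else 0

theorem exists_car (k : ℕ) : Nonempty (Car k) := by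
  set ι := Bool × Fin k × Fin k
  set e := Fintype.equivFin ι
  set Z := Fin (Fintype.card ι) → Bool
  set eZ := Fintype.equivFin Z
  set G : ι → Matrix (Fin (Fintype.card Z)) (Fin (Fintype.card Z)) ℂ :=
    fun i => (majorana (e i)).submatrix eZ.symm eZ.symm with hG
  have hcar : ∀ i j, G i * G j + G j * G i = if i = j then (2 : ℂ) • 1 else 0 := fun i j => by
    rw [hG, submatrix_mul_equiv, submatrix_mul_equiv,
      show ∀ A B : Matrix Z Z ℂ, A.submatrix eZ.symm eZ.symm + B.submatrix eZ.symm eZ.symm
        = (A + B).submatrix eZ.symm eZ.symm from fun A B => rfl, majorana_car]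
    simp only [e.injective.eq_iff]
    split_ifs
    · rw [show ((2 : ℂ) • (1 : Matrix Z Z ℂ)).submatrix eZ.symm eZ.symm
        = (2 : ℂ) • (1 : Matrix Z Z ℂ).submatrix eZ.symm eZ.symm from rfl, submatrix_one_equiv]
    · simp
  refine ⟨⟨Fintype.card Z, Fintype.card_pos, fun a b =>
    (2⁻¹ : ℂ) • (G (true, a, b) + G (true, b, a))
      + (Complex.I / 2) • (G (false, a, b) - G (false, b, a)), ?_, ?_, ?_, ?_⟩⟩
  · intro a b
    simp only [hG, conjTranspose_add, conjTranspose_smul, conjTranspose_sub,
      conjTranspose_submatrix, majorana_adj, star_inv₀, star_ofNat, star_div₀, Complex.star_def,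
      Complex.conj_I]
    module
  · intro a b
    simp only [hG, transpose_add, transpose_smul, transpose_sub, transpose_submatrix,
      majorana_symm]
  · intro a b
    have h : ∀ i, (G i).trace = 0 := fun i => by
      rw [hG, Matrix.trace]
      exact (eZ.symm.sum_comp fun z => majorana (e i) z z).trans (majorana_trace _)
    simp [trace_add, trace_sub, trace_smul, h]
  · intro a b c d
    set S : ι → ι → Matrix (Fin (Fintype.card Z)) (Fin (Fintype.card Z)) ℂ :=
      fun i j => G i * G j + G j * G i with hS
    have e4 : Complex.I / 2 * (Complex.I / 2) = -(4⁻¹ : ℂ) := by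
      rw [div_mul_div_comm, Complex.I_mul_I]; norm_num
    calc _ = (4⁻¹ : ℂ) • (S (true, a, b) (true, c, d) + S (true, a, b) (true, d, c)
          + S (true, b, a) (true, c, d) + S (true, b, a) (true, d, c))
        + (Complex.I / 4) • (S (true, a, b) (false, c, d) - S (true, a, b) (false, d, c)
          + S (true, b, a) (false, c, d) - S (true, b, a) (false, d, c))
        + (Complex.I / 4) • (S (false, a, b) (true, c, d) + S (false, a, b) (true, d, c)
          - S (false, b, a) (true, c, d) - S (false, b, a) (true, d, c))
        + (Complex.I / 2 * (Complex.I / 2)) • (S (false, a, b) (false, c, d)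
          - S (false, a, b) (false, d, c) - S (false, b, a) (false, c, d)
          + S (false, b, a) (false, d, c)) := by
          simp only [hS, smul_add, smul_sub, Matrix.add_mul, Matrix.mul_add, Matrix.sub_mul,
            Matrix.mul_sub, smul_mul_smul_comm]
          module
      _ = _ := by
          have hSc : ∀ (p q : Bool) (a b c d : Fin k),
              S (p, a, b) (q, c, d) = if p = q ∧ a = c ∧ b = d then (2 : ℂ) • 1 else 0 :=
            fun p q a b c d => (hcar _ _).trans (if_congr (by simp [ι]) rfl rfl)
          rw [e4]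
          simp only [hSc, Bool.true_eq_false, Bool.false_eq_true, false_and, true_and, if_false]
          by_cases h1 : a = d <;> by_cases h2 : b = c <;> by_cases h3 : a = c <;>
            by_cases h4 : b = d <;> simp only [h1, h2, h3, h4, and_true, true_and, and_self,
              and_false, false_and, if_true, if_false] <;> simp_all <;> module

end Vale.Agent.P372
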