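import Mathlib

/-!
Random linear codes over the two-element field.
-/

noncomputable section

open Finset

namespace Vale.Agent.P372

/-- Hamming weight. -/
def wt {I : Type} [Fintype I] (z : I → ZMod 2) : ℕ := (univ.filter fun l => z l ≠ 0).card

/-- The linear combination of rows with coefficients `w`. -/
def comb {m L : ℕ} (w : Fin m → ZMod 2) (M : Fin m → Fin L → ZMod 2) : Fin L → ZMod 2 :=
  fun l => ∑ i, w i * M i l

/-- The matrix applied to a vector. -/
def syn {m L : ℕ} (M : Fin m → Fin L → ZMod 2) (z : Fin L → ZMod 2) : Fin m → ZMod 2 :=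
  fun i => ∑ l, M i l * z l

/-- The character of the two-element group. -/
def chi (b : ZMod 2) : ℂ := if b = 0 then 1 else -1

theorem univ_zmod2 : (univ : Finset (ZMod 2)) = {0, 1} := by decide

theorem sum_zmod2 {M : Type*} [AddCommMonoid M] (f : ZMod 2 → M) : ∑ b, f b = f 0 + f 1 := by
  rw [univ_zmod2, Finset.sum_pair (by decide)]

theorem zmod2_cases (b : ZMod 2) : b = 0 ∨ b = 1 := by
  have := mem_univ b
  rw [univ_zmod2] at this
  simpa using this

theorem chi_zero : chi 0 = 1 := rfl

theorem chi_one : chi 1 = -1 := if_neg (by decide)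

theorem chi_add (a b : ZMod 2) : chi (a + b) = chi a * chi b := by
  rcases zmod2_cases a with rfl | rfl <;> rcases zmod2_cases b with rfl | rfl <;>
    simp [chi_zero, chi_one, show (1 : ZMod 2) + 1 = 0 from by decide]

theorem chi_sum {I : Type} (s : Finset I) (f : I → ZMod 2) :
    chi (∑ i ∈ s, f i) = ∏ i ∈ s, chi (f i) := by
  induction s using Finset.cons_induction with
  | empty => simp [chi_zero]
  | cons a s ha ih => rw [Finset.sum_cons, Finset.prod_cons, chi_add, ih]

theorem fourier {r : ℕ} (x : Fin r → ZMod 2) :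
    ∑ w : Fin r → ZMod 2, chi (∑ i, w i * x i) = if x = 0 then (2 : ℂ) ^ r else 0 := by
  simp only [chi_sum]
  rw [← Fintype.prod_sum fun i b => chi (b * x i)]
  have e : ∀ i, ∑ b, chi (b * x i) = if x i = 0 then (2 : ℂ) else 0 := fun i => by
    rcases zmod2_cases (x i) with h | h <;> simp [sum_zmod2, h, chi_zero, chi_one] <;> norm_num
  simp only [e]
  split_ifs with h
  · simp [h]
  · obtain ⟨i, hi⟩ := Function.ne_iff.1 h
    exact Finset.prod_eq_zero (mem_univ i) (if_neg hi)

theorem card_preimage {D C : Type} [AddCommGroup D] [AddCommGroup C] [Fintype D] [Fintype C]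
    [DecidableEq C] (f : D →+ C) (hf : Function.Surjective f) (S : Finset C) :
    (univ.filter fun x => f x ∈ S).card * Fintype.card C = S.card * Fintype.card D := by
  classical
  have hfib : ∀ c, (univ.filter fun x => f x = c).card = (univ.filter fun x => f x = 0).card := by
    intro c
    obtain ⟨x₀, rfl⟩ := hf c
    refine Finset.card_bij (fun x _ => x - x₀) (fun x hx => ?_) (fun _ _ _ _ h => sub_left_inj.1 h)
      (fun y hy => ⟨y + x₀, ?_, add_sub_cancel_right y x₀⟩)
    · simpa [sub_eq_zero] using hx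
    · simpa using hy
  have h1 : (univ.filter fun x => f x ∈ S).card
      = S.card * (univ.filter fun x => f x = 0).card := by
    rw [Finset.card_eq_sum_card_fiberwise (f := f) (t := S) (fun x hx => by simpa using hx),
      Finset.sum_congr rfl fun c hc => ?_, Finset.sum_const, smul_eq_mul]
    rw [← hfib c, Finset.filter_filter]
    exact congrArg Finset.card (Finset.filter_congr fun x _ =>
      ⟨fun h => h.2, fun h => ⟨h ▸ hc, h⟩⟩)
  have h2 : Fintype.card D = Fintype.card C * (univ.filter fun x => f x = 0).card := by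
    rw [← Finset.card_univ, Finset.card_eq_sum_card_fiberwise (f := f) (t := univ)
      (fun x _ => by simp)]
    simp [hfib]
  rw [h1, h2]
  ring

theorem vol_bound (L d : ℕ) {t : ℝ} (ht : 0 < t) (ht1 : t ≤ 1) :
    ((univ.filter fun z : Fin L → ZMod 2 => wt z ≤ d).card : ℝ) * t ^ d ≤ (1 + t) ^ L := by
  have key : ∀ z : Fin L → ZMod 2, t ^ wt z = ∏ l, if z l = 0 then (1 : ℝ) else t := by
    intro z
    rw [Finset.prod_ite, Finset.prod_const_one, one_mul, Finset.prod_const, wt]
  have hsum : ∑ z : Fin L → ZMod 2, t ^ wt z = (1 + t) ^ L := by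
    simp only [key]
    rw [← Fintype.prod_sum fun (_ : Fin L) (b : ZMod 2) => if b = 0 then (1 : ℝ) else t]
    simp [sum_zmod2]
  calc ((univ.filter fun z : Fin L → ZMod 2 => wt z ≤ d).card : ℝ) * t ^ d
      = ∑ z ∈ univ.filter (fun z : Fin L → ZMod 2 => wt z ≤ d), t ^ d := by simp
    _ ≤ ∑ z ∈ univ.filter (fun z : Fin L → ZMod 2 => wt z ≤ d), t ^ wt z :=
        Finset.sum_le_sum fun z hz => pow_le_pow_of_le_one ht.le ht1 (mem_filter.1 hz).2
    _ ≤ ∑ z : Fin L → ZMod 2, t ^ wt z :=
        Finset.sum_le_univ_sum_of_nonneg fun z => by positivity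
    _ = _ := hsum

theorem vol_le (q d : ℕ) :
    ((univ.filter fun z : Fin (64 * q) → ZMod 2 => wt z ≤ d).card : ℝ)
      ≤ 2 ^ (2 * q) * 2 ^ (6 * d) := by
  have h := vol_bound (64 * q) d (t := 1 / 64) (by norm_num) (by norm_num)
  have he : (1 + 1 / 64 : ℝ) ^ 64 ≤ 4 := by norm_num
  rw [pow_mul] at h
  have h' := h.trans (pow_le_pow_left₀ (by positivity) he q)
  rw [div_pow, one_pow, mul_one_div, div_le_iff₀ (by positivity)] at h'
  refine h'.trans (le_of_eq ?_)
  rw [show (4 : ℝ) = 2 ^ 2 by norm_num, show (64 : ℝ) = 2 ^ 6 by norm_num, ← pow_mul, ← pow_mul]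

theorem exists_code (q : ℕ) (hq : 1 ≤ q) :
    ∃ (H : Fin (16 * q) → Fin (64 * q) → ZMod 2) (V : Fin (8 * q) → Fin (64 * q) → ZMod 2),
      (∀ z, syn H z = 0 → wt z ≤ 2 * q → z = 0) ∧
      (∀ wh wv, wt (comb wh H + comb wv V) < q → wh = 0 ∧ wv = 0) := by
  classical
  let D := (Fin (16 * q) → Fin (64 * q) → ZMod 2) × (Fin (8 * q) → Fin (64 * q) → ZMod 2)
  let S1 : (Fin (64 * q) → ZMod 2) → Finset D := fun z => univ.filter fun p => syn p.1 z = 0
  let W := (Fin (16 * q) → ZMod 2) × (Fin (8 * q) → ZMod 2)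
  let low : Finset (Fin (64 * q) → ZMod 2) := univ.filter fun z => wt z ≤ q
  let S2 : W → Finset D := fun w => univ.filter fun p => comb w.1 p.1 + comb w.2 p.2 ∈ low
  let Z : Finset (Fin (64 * q) → ZMod 2) := univ.filter fun z => wt z ≤ 2 * q ∧ z ≠ 0
  let W' : Finset W := univ.filter fun w => w ≠ 0
  have c1 : ∀ z ∈ Z, ((S1 z).card : ℝ) = Fintype.card D / 2 ^ (16 * q) := by
    intro z hz
    obtain ⟨l₀, hl⟩ := Function.ne_iff.1 (mem_filter.1 hz).2.2
    have hl1 : z l₀ = 1 := (zmod2_cases (z l₀)).resolve_left hl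
    let f : D →+ (Fin (16 * q) → ZMod 2) :=
      { toFun := fun p => syn p.1 z
        map_zero' := by ext i; simp [syn]
        map_add' := fun p p' => by
          ext i
          show ∑ l, (p.1 i l + p'.1 i l) * z l = ∑ l, p.1 i l * z l + ∑ l, p'.1 i l * z l
          simp [add_mul, Finset.sum_add_distrib] }
    have hf : Function.Surjective f := fun c => ⟨(fun i l => if l = l₀ then c i else 0, 0), by
      ext i
      simp [f, syn, hl1]⟩
    have h := card_preimage f hf {0}
    simp only [mem_singleton, card_singleton, one_mul] at h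
    rw [eq_div_iff (by positivity)]
    have hc : Fintype.card (Fin (16 * q) → ZMod 2) = 2 ^ (16 * q) := by simp
    rw [hc] at h
    exact_mod_cast h
  have c2 : ∀ w ∈ W', ((S2 w).card : ℝ) = low.card * Fintype.card D / 2 ^ (64 * q) := by
    intro w hw
    let f : D →+ (Fin (64 * q) → ZMod 2) :=
      { toFun := fun p => comb w.1 p.1 + comb w.2 p.2
        map_zero' := by ext i; simp [comb]
        map_add' := fun p p' => by
          ext i
          show ∑ x, w.1 x * (p.1 x i + p'.1 x i) + ∑ x, w.2 x * (p.2 x i + p'.2 x i)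
            = (∑ x, w.1 x * p.1 x i + ∑ x, w.2 x * p.2 x i)
              + (∑ x, w.1 x * p'.1 x i + ∑ x, w.2 x * p'.2 x i)
          simp only [mul_add, Finset.sum_add_distrib]
          ring }
    have hf : Function.Surjective f := by
      intro c
      rcases not_and_or.1 (fun h : w.1 = 0 ∧ w.2 = 0 => (mem_filter.1 hw).2 (Prod.ext h.1 h.2))
        with h | h
      · obtain ⟨i₀, hi⟩ := Function.ne_iff.1 h
        refine ⟨(fun i l => if i = i₀ then c l else 0, 0), ?_⟩
        ext l
        simp [f, comb, (zmod2_cases (w.1 i₀)).resolve_left hi]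
      · obtain ⟨i₀, hi⟩ := Function.ne_iff.1 h
        refine ⟨(0, fun i l => if i = i₀ then c l else 0), ?_⟩
        ext l
        simp [f, comb, (zmod2_cases (w.2 i₀)).resolve_left hi]
    have h := card_preimage f hf low
    have hc : Fintype.card (Fin (64 * q) → ZMod 2) = 2 ^ (64 * q) := by simp
    rw [hc] at h
    rw [eq_div_iff (by positivity)]
    exact_mod_cast h
  have hD : (0 : ℝ) < Fintype.card D := by exact_mod_cast Fintype.card_pos
  have hcard : ((Z.biUnion S1 ∪ W'.biUnion S2).card : ℝ) < Fintype.card D := by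
    have h1 : ((Z.biUnion S1 ∪ W'.biUnion S2).card : ℝ)
        ≤ ∑ z ∈ Z, ((S1 z).card : ℝ) + ∑ w ∈ W', ((S2 w).card : ℝ) := by
      exact_mod_cast (card_union_le _ _).trans (add_le_add card_biUnion_le card_biUnion_le)
    refine h1.trans_lt ?_
    rw [Finset.sum_congr rfl c1, Finset.sum_congr rfl c2, Finset.sum_const, Finset.sum_const,
      nsmul_eq_mul, nsmul_eq_mul]
    have hZ : (Z.card : ℝ) ≤ 2 ^ (14 * q) := by
      refine le_trans ?_ ((vol_le q (2 * q)).trans (le_of_eq ?_))
      · exact Nat.cast_le.2 (card_le_card fun z hz => mem_filter.2 ⟨mem_univ z, (mem_filter.1 hz).2.1⟩)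
      · rw [← pow_add]; ring_nf
    have hlow : (low.card : ℝ) ≤ 2 ^ (8 * q) := (vol_le q q).trans (le_of_eq (by
      rw [← pow_add]; ring_nf))
    have hW : (W'.card : ℝ) ≤ 2 ^ (24 * q) := by
      have : W'.card ≤ 2 ^ (24 * q) := by
        refine (card_le_univ W').trans (le_of_eq ?_)
        simp [W, ← pow_add]
        ring
      exact_mod_cast this
    have e1 : (Z.card : ℝ) * (Fintype.card D / 2 ^ (16 * q)) ≤ Fintype.card D / 4 := by
      have h4 : (4 : ℝ) * 2 ^ (14 * q) ≤ 2 ^ (16 * q) := by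
        rw [show (4 : ℝ) = 2 ^ 2 by norm_num, ← pow_add]
        exact pow_le_pow_right₀ (by norm_num) (by omega)
      rw [mul_div_assoc', div_le_iff₀ (by positivity)]
      have := mul_le_mul_of_nonneg_right hZ hD.le
      have := mul_le_mul_of_nonneg_right h4 hD.le
      linarith
    have e2 : (W'.card : ℝ) * (low.card * Fintype.card D / 2 ^ (64 * q))
        ≤ Fintype.card D / 4 := by
      have h4 : (4 : ℝ) * (2 ^ (24 * q) * 2 ^ (8 * q)) ≤ 2 ^ (64 * q) := by
        rw [show (4 : ℝ) = 2 ^ 2 by norm_num, ← pow_add, ← pow_add]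
        exact pow_le_pow_right₀ (by norm_num) (by omega)
      rw [mul_div_assoc', div_le_iff₀ (by positivity)]
      have := mul_le_mul_of_nonneg_right (mul_le_mul hW hlow (by positivity) (by positivity)) hD.le
      have := mul_le_mul_of_nonneg_right h4 hD.le
      linarith
    linarith
  obtain ⟨p, -, hp⟩ := Finset.exists_mem_notMem_of_card_lt_card
    (s := Z.biUnion S1 ∪ W'.biUnion S2) (t := univ) (by rw [card_univ]; exact_mod_cast hcard)
  simp only [mem_union, mem_biUnion, not_or, not_exists, not_and] at hp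
  refine ⟨p.1, p.2, fun z hz hzw => ?_, fun wh wv hw => ?_⟩
  · by_contra hne
    exact hp.1 z (mem_filter.2 ⟨mem_univ z, hzw, hne⟩) (mem_filter.2 ⟨mem_univ p, hz⟩)
  · by_contra hne
    refine hp.2 (wh, wv) (mem_filter.2 ⟨mem_univ _, fun h => hne (Prod.ext_iff.1 h)⟩)
      (mem_filter.2 ⟨mem_univ p, mem_filter.2 ⟨mem_univ _, hw.le⟩⟩)

end Vale.Agent.P372
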