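import Mathlib
import Vale.Agent.P372.Bnd

/-!
Eve's operators, protocols over arbitrary finite types, transport.
-/

noncomputable section

open Matrix Finset
open scoped ComplexOrder Kronecker MatrixOrder

namespace Vale.Agent.P372

section
variable {A B E : Type} [Fintype A] [Fintype B] [Fintype E] [DecidableEq A] [DecidableEq B]
  [DecidableEq E]

/-- Eve's operator, not transposed. -/
def op (G : Matrix (A × B) E ℂ) (M : Matrix A A ℂ) (N : Matrix B B ℂ) : Matrix E E ℂ :=
  Gᴴ * (M ⊗ₖ N) * G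

theorem op_posSemidef (G : Matrix (A × B) E ℂ) {M : Matrix A A ℂ} {N : Matrix B B ℂ}
    (hM : M.PosSemidef) (hN : N.PosSemidef) : (op G M N).PosSemidef :=
  (hM.kronecker hN).conjTranspose_mul_mul_same G

theorem op_add_left (G : Matrix (A × B) E ℂ) (M M' : Matrix A A ℂ) (N : Matrix B B ℂ) :
    op G (M + M') N = op G M N + op G M' N := by
  simp [op, add_kronecker, Matrix.mul_add, Matrix.add_mul]

theorem op_add_right (G : Matrix (A × B) E ℂ) (M : Matrix A A ℂ) (N N' : Matrix B B ℂ) :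
    op G M (N + N') = op G M N + op G M N' := by
  simp [op, kronecker_add, Matrix.mul_add, Matrix.add_mul]

theorem op_smul_left (G : Matrix (A × B) E ℂ) (c : ℂ) (M : Matrix A A ℂ) (N : Matrix B B ℂ) :
    op G (c • M) N = c • op G M N := by
  simp [op, smul_kronecker]

theorem op_smul_right (G : Matrix (A × B) E ℂ) (c : ℂ) (M : Matrix A A ℂ) (N : Matrix B B ℂ) :
    op G M (c • N) = c • op G M N := by
  simp [op, kronecker_smul]

theorem op_zero_left (G : Matrix (A × B) E ℂ) (N : Matrix B B ℂ) : op G 0 N = 0 := by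
  simp [op]

theorem op_zero_right (G : Matrix (A × B) E ℂ) (M : Matrix A A ℂ) : op G M 0 = 0 := by
  simp [op]

theorem op_sum_left {J : Type} (s : Finset J) (G : Matrix (A × B) E ℂ) (M : J → Matrix A A ℂ)
    (N : Matrix B B ℂ) : op G (∑ j ∈ s, M j) N = ∑ j ∈ s, op G (M j) N := by
  induction s using Finset.cons_induction with
  | empty => simp [op_zero_left]
  | cons a s ha ih => rw [Finset.sum_cons, Finset.sum_cons, op_add_left, ih]

theorem op_sum_right {J : Type} (s : Finset J) (G : Matrix (A × B) E ℂ) (M : Matrix A A ℂ)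
    (N : J → Matrix B B ℂ) : op G M (∑ j ∈ s, N j) = ∑ j ∈ s, op G M (N j) := by
  induction s using Finset.cons_induction with
  | empty => simp [op_zero_right]
  | cons a s ha ih => rw [Finset.sum_cons, Finset.sum_cons, op_add_right, ih]

theorem trace_op_one (G : Matrix (A × B) E ℂ) : (op G 1 1).trace = (fsq G : ℂ) := by
  rw [op, one_kronecker_one, Matrix.mul_one, trace_mul_comm, trace_mul_conjTranspose_self]

theorem sum_op {OA OB : Type} [Fintype OA] [Fintype OB] {MA : OA → Matrix A A ℂ}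
    {MB : OB → Matrix B B ℂ} (hA : IsPOVM MA) (hB : IsPOVM MB) (G : Matrix (A × B) E ℂ) :
    ∑ i, ∑ j, op G (MA i) (MB j) = op G 1 1 := by
  simp only [← op_sum_right, hB.2]
  rw [← op_sum_left, hA.2]

theorem op_submatrix {A' B' E' : Type} [Fintype A'] [Fintype B'] [Fintype E']
    [DecidableEq A'] [DecidableEq B'] (eA : A' ≃ A) (eB : B' ≃ B) (eE : E' ≃ E)
    (G : Matrix (A × B) E ℂ) (M : Matrix A A ℂ) (N : Matrix B B ℂ) :
    op (G.submatrix (eA.prodCongr eB) eE) (M.submatrix eA eA) (N.submatrix eB eB)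
      = (op G M N).submatrix eE eE := by
  have hk : (M.submatrix eA eA) ⊗ₖ (N.submatrix eB eB)
      = (M ⊗ₖ N).submatrix (eA.prodCongr eB) (eA.prodCongr eB) := by
    ext i j
    rfl
  rw [op, op, hk, conjTranspose_submatrix, submatrix_mul_equiv, submatrix_mul_equiv]

end

section
variable {A B E OA OB U W K : Type} [Fintype A] [Fintype B] [Fintype OA] [Fintype OB]
  [DecidableEq U] [DecidableEq W] [DecidableEq K]

/-- Eve's part of the final state, for messages and keys in arbitrary types. -/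
def kState (G : Matrix (A × B) E ℂ) (MA : OA → Matrix A A ℂ) (MB : OB → Matrix B B ℂ)
    (fB : OB → U) (fA : OA → U → W) (kA : OA → U → K) (kB : OB → W → K) (x y : K) (u : U)
    (v : W) : Matrix E E ℂ :=
  ∑ i, ∑ j, if fB j = u ∧ fA i u = v ∧ kA i u = x ∧ kB j v = y then op G (MA i) (MB j) else 0

end

section
variable {A B E : Type} [Fintype A] [Fintype B] [Fintype E] [DecidableEq A] [DecidableEq B]

/-- A protocol achieving `ℓ` key bits with error at most `ε`, certified by rank-one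
decompositions. -/
def Ach (G : Matrix (A × B) E ℂ) (ℓ : ℕ) (ε : ℝ) : Prop :=
  ∃ (a b s t : ℕ) (MA : Fin a → Matrix A A ℂ) (MB : Fin b → Matrix B B ℂ)
    (fB : Fin b → Fin s) (fA : Fin a → Fin s → Fin t)
    (kA : Fin a → Fin s → Fin ℓ → ZMod 2) (kB : Fin b → Fin t → Fin ℓ → ZMod 2)
    (σ : Fin s → Fin t → Matrix E E ℂ)
    (cost : (Fin ℓ → ZMod 2) → (Fin ℓ → ZMod 2) → Fin s → Fin t → ℝ),
    IsPOVM MA ∧ IsPOVM MB ∧ (∀ u v, (σ u v).PosSemidef) ∧ ∑ u, ∑ v, (σ u v).trace = 1 ∧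
    (∀ x y u v, Bnd (kState G MA MB fB fA kA kB x y u v
      - if x = y then ((2 : ℂ) ^ ℓ)⁻¹ • σ u v else 0) (cost x y u v)) ∧
    ∑ x, ∑ y, ∑ u, ∑ v, cost x y u v ≤ ε

theorem ach_of {OA OB U W : Type} [Fintype OA] [Fintype OB] [Fintype U] [Fintype W]
    [DecidableEq U] [DecidableEq W]
    {G : Matrix (A × B) E ℂ} {ℓ : ℕ} {ε : ℝ} {MA : OA → Matrix A A ℂ} {MB : OB → Matrix B B ℂ}
    {fB : OB → U} {fA : OA → U → W} {kA : OA → U → Fin ℓ → ZMod 2}
    {kB : OB → W → Fin ℓ → ZMod 2} {σ : U → W → Matrix E E ℂ}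
    {cost : (Fin ℓ → ZMod 2) → (Fin ℓ → ZMod 2) → U → W → ℝ}
    (hA : IsPOVM MA) (hB : IsPOVM MB) (hσ : ∀ u v, (σ u v).PosSemidef)
    (hσ1 : ∑ u, ∑ v, (σ u v).trace = 1)
    (hc : ∀ x y u v, Bnd (kState G MA MB fB fA kA kB x y u v
      - if x = y then ((2 : ℂ) ^ ℓ)⁻¹ • σ u v else 0) (cost x y u v))
    (hs : ∑ x, ∑ y, ∑ u, ∑ v, cost x y u v ≤ ε) : Ach G ℓ ε := by
  set ea := (Fintype.equivFin OA).symm
  set eb := (Fintype.equivFin OB).symm
  set eu := (Fintype.equivFin U).symm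
  set ew := (Fintype.equivFin W).symm
  refine ⟨_, _, _, _, fun i => MA (ea i), fun j => MB (eb j), fun j => eu.symm (fB (eb j)),
    fun i u => ew.symm (fA (ea i) (eu u)), fun i u => kA (ea i) (eu u),
    fun j v => kB (eb j) (ew v), fun u v => σ (eu u) (ew v),
    fun x y u v => cost x y (eu u) (ew v), ⟨fun i => hA.1 _, ?_⟩, ⟨fun i => hB.1 _, ?_⟩,
    fun u v => hσ _ _, ?_, ?_, ?_⟩
  · rw [ea.sum_comp MA]; exact hA.2
  · rw [eb.sum_comp MB]; exact hB.2
  · rw [← hσ1, ← eu.sum_comp (fun u => ∑ v, (σ u v).trace)]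
    exact Finset.sum_congr rfl fun u _ => ew.sum_comp fun v => (σ (eu u) v).trace
  · intro x y u v
    convert hc x y (eu u) (ew v) using 2
    unfold kState
    rw [← ea.sum_comp fun i => ∑ j, if fB j = eu u ∧ fA i (eu u) = ew v ∧ kA i (eu u) = x ∧
      kB j (ew v) = y then op G (MA i) (MB j) else 0]
    refine Finset.sum_congr rfl fun i _ => ?_
    rw [← eb.sum_comp fun j => if fB j = eu u ∧ fA (ea i) (eu u) = ew v ∧
      kA (ea i) (eu u) = x ∧ kB j (ew v) = y then op G (MA (ea i)) (MB j) else 0]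
    exact Finset.sum_congr rfl fun j _ => by simp only [Equiv.symm_apply_eq]
  · refine le_trans (le_of_eq ?_) hs
    refine Finset.sum_congr rfl fun x _ => Finset.sum_congr rfl fun y _ => ?_
    rw [← eu.sum_comp (fun u => ∑ v, cost x y u v)]
    exact Finset.sum_congr rfl fun u _ => ew.sum_comp fun v => cost x y (eu u) v

theorem ach_reindex [DecidableEq E] {A' B' E' : Type} [Fintype A'] [Fintype B'] [Fintype E']
    [DecidableEq A'] [DecidableEq B'] [DecidableEq E'] (eA : A' ≃ A) (eB : B' ≃ B) (eE : E' ≃ E)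
    {G : Matrix (A × B) E ℂ} {ℓ : ℕ} {ε : ℝ} (h : Ach G ℓ ε) :
    Ach (G.submatrix (eA.prodCongr eB) eE) ℓ ε := by
  obtain ⟨a, b, s, t, MA, MB, fB, fA, kA, kB, σ, cost, hA, hB, hσ, hσ1, hc, hs⟩ := h
  refine ⟨a, b, s, t, fun i => (MA i).submatrix eA eA, fun j => (MB j).submatrix eB eB, fB, fA,
    kA, kB, fun u v => (σ u v).submatrix eE eE, cost, ⟨fun i => (hA.1 i).submatrix _, ?_⟩,
    ⟨fun j => (hB.1 j).submatrix _, ?_⟩, fun u v => (hσ u v).submatrix _, ?_, ?_, hs⟩
  · ext i j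
    have := congrFun (congrFun hA.2 (eA i)) (eA j)
    simpa [Matrix.sum_apply, Matrix.one_apply] using this
  · ext i j
    have := congrFun (congrFun hB.2 (eB i)) (eB j)
    simpa [Matrix.sum_apply, Matrix.one_apply] using this
  · rw [← hσ1]
    refine Finset.sum_congr rfl fun u _ => Finset.sum_congr rfl fun v _ => ?_
    exact eE.sum_comp fun i => σ u v i i
  · intro x y u v
    convert bnd_reindex eE (hc x y u v) using 1
    simp only [kState, op_submatrix]
    split_ifs <;> ext i j <;> simp [Matrix.sum_apply] <;>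
      exact Finset.sum_congr rfl fun k _ => Finset.sum_congr rfl fun l _ => by
        split_ifs <;> rfl

theorem bnd_kronecker {E' : Type} [Fintype E'] {X : Matrix E E ℂ} {Y : Matrix E' E' ℂ} {c d : ℝ}
    (hX : Bnd X c) (hY : Bnd Y d) : Bnd (X ⊗ₖ Y) (c * d) := by
  have hd := bnd_nonneg hY
  obtain ⟨J, u, v, rfl, hc⟩ := hX
  obtain ⟨J', u', v', rfl, hd'⟩ := hY
  have hn : ∀ (a : E → ℂ) (b : E' → ℂ), vn (prodVec a b) = vn a * vn b := by
    intro a b
    rw [vn, vn, vn, ← Real.sqrt_mul (vsq_nonneg a)]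
    congr 1
    simp [vsq, prodVec, Fintype.sum_prod_type, Finset.sum_mul_sum]
  have e : (∑ j, vecMulVec (u j) (star (v j))) ⊗ₖ (∑ j, vecMulVec (u' j) (star (v' j)))
      = ∑ p : Fin J × Fin J',
          vecMulVec (prodVec (u p.1) (u' p.2)) (star (prodVec (v p.1) (v' p.2))) := by
    ext i j
    simp [Matrix.sum_apply, vecMulVec_apply, prodVec, Fintype.sum_prod_type, Finset.sum_mul,
      Finset.mul_sum]
    rw [Finset.sum_comm]
    exact Finset.sum_congr rfl fun k _ => Finset.sum_congr rfl fun l _ => by ring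
  rw [e]
  refine bnd_mono (bnd_of _ _) (le_trans (le_of_eq ?_) (mul_le_mul hc hd' ?_ ?_))
  · rw [Fintype.sum_prod_type, Finset.sum_mul_sum]
    exact Finset.sum_congr rfl fun k _ => Finset.sum_congr rfl fun l _ => by
      simp only [hn]; ring
  · exact Finset.sum_nonneg fun j _ => mul_nonneg (vn_nonneg _) (vn_nonneg _)
  · exact (Finset.sum_nonneg fun j _ => mul_nonneg (vn_nonneg _) (vn_nonneg _)).trans hc

theorem ach_extend [DecidableEq E] {A' B' E' : Type} [Fintype A'] [Fintype B'] [Fintype E']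
    [DecidableEq A'] [DecidableEq B'] [DecidableEq E'] {G : Matrix (A × B) E ℂ} {ℓ : ℕ} {ε : ℝ}
    (h : Ach G ℓ ε) {G' : Matrix (A' × B') E' ℂ} (hG' : fsq G' = 1) :
    Ach (((G ⊗ₖ G').submatrix (Equiv.prodProdProdComm A A' B B') id :
      Matrix ((A × A') × (B × B')) (E × E') ℂ)) ℓ ε := by
  obtain ⟨a, b, s, t, MA, MB, fB, fA, kA, kB, σ, cost, hA, hB, hσ, hσ1, hc, hs⟩ := h
  have hop : ∀ M N, op (((G ⊗ₖ G').submatrix (Equiv.prodProdProdComm A A' B B') id :
      Matrix ((A × A') × (B × B')) (E × E') ℂ)) (M ⊗ₖ 1) (N ⊗ₖ 1)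
        = op G M N ⊗ₖ op G' 1 1 := by
    intro M N
    have hk : ((M ⊗ₖ (1 : Matrix A' A' ℂ)) ⊗ₖ (N ⊗ₖ (1 : Matrix B' B' ℂ)))
        = ((M ⊗ₖ N) ⊗ₖ ((1 : Matrix A' A' ℂ) ⊗ₖ (1 : Matrix B' B' ℂ))).submatrix
            (Equiv.prodProdProdComm A A' B B') (Equiv.prodProdProdComm A A' B B') := by
      ext i j
      show M i.1.1 j.1.1 * (1 : Matrix A' A' ℂ) i.1.2 j.1.2
          * (N i.2.1 j.2.1 * (1 : Matrix B' B' ℂ) i.2.2 j.2.2)
        = M i.1.1 j.1.1 * N i.2.1 j.2.1
          * ((1 : Matrix A' A' ℂ) i.1.2 j.1.2 * (1 : Matrix B' B' ℂ) i.2.2 j.2.2)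
      ring
    rw [op, hk, conjTranspose_submatrix, submatrix_mul_equiv, submatrix_mul_equiv, submatrix_id_id,
      conjTranspose_kronecker, ← mul_kronecker_mul, ← mul_kronecker_mul, op, op]
  have hpov : ∀ {O A A' : Type} [Fintype O] [Fintype A] [Fintype A'] [DecidableEq A]
      [DecidableEq A'] {M : O → Matrix A A ℂ}, IsPOVM M →
      IsPOVM (fun o => M o ⊗ₖ (1 : Matrix A' A' ℂ)) := by
    intro O A A' _ _ _ _ _ M hM
    refine ⟨fun o => (hM.1 o).kronecker PosSemidef.one, ?_⟩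
    ext i j
    have := congrFun (congrFun hM.2 i.1) j.1
    rw [Matrix.sum_apply] at this
    rw [Matrix.sum_apply]
    show ∑ c, M c i.1 j.1 * (1 : Matrix A' A' ℂ) i.2 j.2 = _
    rw [← Finset.sum_mul, this, ← one_kronecker_one]
    rfl
  have hY := op_posSemidef G' (PosSemidef.one (n := A') (R := ℂ)) (PosSemidef.one (n := B'))
  have hb := bnd_psd hY
  rw [trace_op_one, hG'] at hb
  simp only [Complex.ofReal_one, Complex.one_re] at hb
  refine ⟨a, b, s, t, fun i => MA i ⊗ₖ 1, fun j => MB j ⊗ₖ 1, fB, fA, kA, kB,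
    fun u v => σ u v ⊗ₖ op G' 1 1, cost, hpov hA, hpov hB, fun u v => (hσ u v).kronecker hY, ?_,
    ?_, hs⟩
  · simp only [trace_kronecker, trace_op_one, hG']
    simpa using hσ1
  · intro x y u v
    have := bnd_kronecker (hc x y u v) hb
    rw [mul_one] at this
    convert this using 1
    ext i j
    simp only [Matrix.sub_apply]
    show _ = (kState G MA MB fB fA kA kB x y u v
      - if x = y then ((2 : ℂ) ^ ℓ)⁻¹ • σ u v else 0) i.1 j.1 * op G' 1 1 i.2 j.2
    rw [Matrix.sub_apply, sub_mul]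
    congr 1
    · simp only [kState, hop, Matrix.sum_apply, Finset.sum_mul]
      exact Finset.sum_congr rfl fun k _ => Finset.sum_congr rfl fun l _ => by
        split_ifs <;> simp [kroneckerMap_apply]
    · split_ifs <;> simp [mul_assoc]

end

section
variable {A B E : Type} [Fintype A] [Fintype B] [Fintype E] [DecidableEq A] [DecidableEq B]
  [DecidableEq E] {I : Type} [Fintype I] [DecidableEq I]

/-- Copies of a purification indexed by `I`. -/
def piG (G : Matrix (A × B) E ℂ) (I : Type) [Fintype I] :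
    Matrix ((I → A) × (I → B)) (I → E) ℂ :=
  Matrix.of fun i e => ∏ t, G (i.1 t, i.2 t) (e t)

theorem op_pi (G : Matrix (A × B) E ℂ) (P : I → Matrix A A ℂ) (Q : I → Matrix B B ℂ) :
    op (piG G I) (piMat P) (piMat Q) = piMat fun t => op G (P t) (Q t) := by
  have hG : piG G I = (piMat fun _ : I => G).submatrix
      (Equiv.arrowProdEquivProdArrow I (fun _ => A) (fun _ => B)).symm (Equiv.refl _) := by
    ext i e
    rfl
  have hk : piMat P ⊗ₖ piMat Q = (piMat fun t => P t ⊗ₖ Q t).submatrix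
      (Equiv.arrowProdEquivProdArrow I (fun _ => A) (fun _ => B)).symm
      (Equiv.arrowProdEquivProdArrow I (fun _ => A) (fun _ => B)).symm := by
    ext i j
    simp [piMat, Finset.prod_mul_distrib, Equiv.arrowProdEquivProdArrow]
  rw [op, hG, hk, conjTranspose_submatrix, submatrix_mul_equiv, submatrix_mul_equiv,
    Equiv.coe_refl, submatrix_id_id, piMat_conjTranspose, piMat_mul, piMat_mul]
  rfl

theorem fsq_piG (G : Matrix (A × B) E ℂ) (h : fsq G = 1) : fsq (piG G I) = 1 := by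
  have := trace_op_one (piG G I)
  rw [← piMat_one (I := I) (E := A), ← piMat_one (I := I) (E := B), op_pi, piMat_trace] at this
  simpa [trace_op_one, h] using this.symm

theorem povm_pi {O : Type} [Fintype O] {M : O → Matrix A A ℂ} (h : IsPOVM M) :
    IsPOVM fun a : I → O => piMat fun t => M (a t) := by
  refine ⟨fun a => piMat_posSemidef fun t => h.1 _, ?_⟩
  rw [← piMat_sum fun (_ : I) o => M o, h.2, piMat_one]

end

end Vale.Agent.P372
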