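import Mathlib
import Vale.Agent.P372.Ops
import Vale.Agent.P372.Code

/-!
From a block that yields one good bit to many blocks that yield many key bits.
-/

noncomputable section

open Matrix Finset
open scoped ComplexOrder Kronecker

namespace Vale.Agent.P372

section
variable {A B E OA OB U W : Type} [Fintype A] [Fintype B] [Fintype E] [Fintype OA] [Fintype OB]
  [Fintype U] [Fintype W] [DecidableEq A] [DecidableEq B] [DecidableEq E] [DecidableEq U]
  [DecidableEq W]

/-- Eve's state of one block given Alice's bit and the messages. -/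
def blockState (G : Matrix (A × B) E ℂ) (MA : OA → Matrix A A ℂ) (MB : OB → Matrix B B ℂ)
    (fB : OB → U) (fA : OA → U → W) (bit : OA → ZMod 2) (k : ZMod 2) (u : U) (v : W) :
    Matrix E E ℂ :=
  ∑ i, ∑ j, if bit i = k ∧ fB j = u ∧ fA i u = v then op G (MA i) (MB j) else 0

theorem trace_real {X : Matrix E E ℂ} (h : X.PosSemidef) : X.trace = (X.trace.re : ℂ) :=
  Complex.ext rfl (by simpa using (Complex.le_def.1 h.trace_nonneg).2.symm)

theorem blockState_posSemidef {G : Matrix (A × B) E ℂ} {MA : OA → Matrix A A ℂ}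
    {MB : OB → Matrix B B ℂ} (hA : IsPOVM MA) (hB : IsPOVM MB) (fB : OB → U) (fA : OA → U → W)
    (bit : OA → ZMod 2) (k : ZMod 2) (u : U) (v : W) :
    (blockState G MA MB fB fA bit k u v).PosSemidef :=
  posSemidef_sum _ fun i _ => posSemidef_sum _ fun j _ => by
    split_ifs
    · exact op_posSemidef G (hA.1 i) (hB.1 j)
    · exact PosSemidef.zero

theorem sum_blockState (G : Matrix (A × B) E ℂ) {MA : OA → Matrix A A ℂ}
    {MB : OB → Matrix B B ℂ} (hA : IsPOVM MA) (hB : IsPOVM MB) (fB : OB → U) (fA : OA → U → W)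
    (bit : OA → ZMod 2) :
    ∑ u, ∑ v, (blockState G MA MB fB fA bit 0 u v + blockState G MA MB fB fA bit 1 u v)
      = op G 1 1 := by
  rw [← sum_op hA hB G]
  simp only [blockState, ← Finset.sum_add_distrib]
  rw [Finset.sum_congr rfl fun u _ => Finset.sum_comm, Finset.sum_comm]
  refine Finset.sum_congr rfl fun i _ => ?_
  rw [Finset.sum_congr rfl fun u _ => Finset.sum_comm, Finset.sum_comm]
  refine Finset.sum_congr rfl fun j _ => ?_
  rcases zmod2_cases (bit i) with h | h <;> simp [h, ite_and]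

/-- Nearest-codeword decoding in a coset. -/
def decode {m L : ℕ} (H : Fin m → Fin L → ZMod 2) (q : ℕ) (g : Fin L → ZMod 2)
    (c : Fin m → ZMod 2) : Fin L → ZMod 2 :=
  open scoped Classical in
  if h : ∃ z, syn H z = c ∧ wt (z - g) ≤ q then h.choose else 0

theorem decode_eq {m L q : ℕ} {H : Fin m → Fin L → ZMod 2}
    (hH : ∀ z, syn H z = 0 → wt z ≤ 2 * q → z = 0) {g z : Fin L → ZMod 2}
    (hz : wt (z - g) ≤ q) : decode H q g (syn H z) = z := by
  have h : ∃ z', syn H z' = syn H z ∧ wt (z' - g) ≤ q := ⟨z, rfl, hz⟩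
  rw [decode, dif_pos h]
  generalize hz' : h.choose = z'
  obtain ⟨h1, h2⟩ : syn H z' = syn H z ∧ wt (z' - g) ≤ q := hz' ▸ h.choose_spec
  refine sub_eq_zero.1 (hH _ ?_ ?_)
  · ext i
    have := congrFun h1 i
    simp only [syn] at this
    simp [syn, mul_sub, Finset.sum_sub_distrib, this]
  · have hsub : (univ.filter fun l => (z' - z) l ≠ 0)
        ⊆ (univ.filter fun l => (z' - g) l ≠ 0) ∪ univ.filter fun l => (z - g) l ≠ 0 := by
      intro l hl
      simp only [mem_filter, mem_union, mem_univ, true_and, Pi.sub_apply] at hl ⊢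
      by_contra hc
      push Not at hc
      exact hl (by rw [sub_eq_zero.1 hc.1, sub_eq_zero.1 hc.2, sub_self])
    have h3 := (card_le_card hsub).trans (card_union_le _ _)
    simp only [wt] at h2 hz ⊢
    omega

variable {L m ℓ : ℕ}

/-- The joint state of Alice's key, the messages and Eve for `L` blocks. -/
def joint (G : Matrix (A × B) E ℂ) (MA : OA → Matrix A A ℂ) (MB : OB → Matrix B B ℂ)
    (fB : OB → U) (fA : OA → U → W) (bit : OA → ZMod 2) (H : Fin m → Fin L → ZMod 2)
    (V : Fin ℓ → Fin L → ZMod 2) (x : Fin ℓ → ZMod 2) (u : Fin L → U)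
    (v : (Fin L → W) × (Fin m → ZMod 2)) : Matrix (Fin L → E) (Fin L → E) ℂ :=
  ∑ a : Fin L → OA, ∑ b : Fin L → OB,
    if (fun l => fB (b l)) = u ∧
        ((fun l => fA (a l) (u l)), syn H fun l => bit (a l)) = v ∧
        (syn V fun l => bit (a l)) = x
    then op (piG G (Fin L)) (piMat fun l => MA (a l)) (piMat fun l => MB (b l)) else 0

/-- Combination of one block's two states with a sign. -/
def signed (G : Matrix (A × B) E ℂ) (MA : OA → Matrix A A ℂ) (MB : OB → Matrix B B ℂ)
    (fB : OB → U) (fA : OA → U → W) (bit : OA → ZMod 2) (e : ZMod 2) (u : U) (v : W) :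
    Matrix E E ℂ :=
  blockState G MA MB fB fA bit 0 u v + chi e • blockState G MA MB fB fA bit 1 u v

/-- The tensor product of signed block states. -/
def signedPi (G : Matrix (A × B) E ℂ) (MA : OA → Matrix A A ℂ) (MB : OB → Matrix B B ℂ)
    (fB : OB → U) (fA : OA → U → W) (bit : OA → ZMod 2) (H : Fin m → Fin L → ZMod 2)
    (V : Fin ℓ → Fin L → ZMod 2) (wh : Fin m → ZMod 2) (wv : Fin ℓ → ZMod 2) (u : Fin L → U)
    (v : Fin L → W) : Matrix (Fin L → E) (Fin L → E) ℂ :=
  piMat fun l => signed G MA MB fB fA bit ((comb wh H + comb wv V) l) (u l) (v l)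

variable (G : Matrix (A × B) E ℂ) (MA : OA → Matrix A A ℂ) (MB : OB → Matrix B B ℂ)
  (fB : OB → U) (fA : OA → U → W) (bit : OA → ZMod 2) (H : Fin m → Fin L → ZMod 2)
  (V : Fin ℓ → Fin L → ZMod 2)

theorem piMat_blockState (z : Fin L → ZMod 2) (u : Fin L → U) (v : Fin L → W) :
    (piMat fun l => blockState G MA MB fB fA bit (z l) (u l) (v l))
      = ∑ a : Fin L → OA, ∑ b : Fin L → OB,
        if ∀ l, bit (a l) = z l ∧ fB (b l) = u l ∧ fA (a l) (u l) = v l
        then op (piG G (Fin L)) (piMat fun l => MA (a l)) (piMat fun l => MB (b l)) else 0 := by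
  have e1 : ∀ l, blockState G MA MB fB fA bit (z l) (u l) (v l) = ∑ p : OA × OB,
      if bit p.1 = z l ∧ fB p.2 = u l ∧ fA p.1 (u l) = v l
      then op G (MA p.1) (MB p.2) else 0 := fun l => by
    rw [blockState, Fintype.sum_prod_type]
  rw [funext e1, piMat_sum]
  rw [← (Equiv.arrowProdEquivProdArrow (Fin L) (fun _ => OA) (fun _ => OB)).symm.sum_comp,
    Fintype.sum_prod_type]
  refine Finset.sum_congr rfl fun a _ => Finset.sum_congr rfl fun b _ => ?_
  rw [piMat_ite]
  simp only [Equiv.arrowProdEquivProdArrow, Equiv.coe_fn_symm_mk, op_pi]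
  congr 1

theorem joint_eq_sum (x : Fin ℓ → ZMod 2) (u : Fin L → U) (v : Fin L → W) (c : Fin m → ZMod 2) :
    joint G MA MB fB fA bit H V x u (v, c) = ∑ z : Fin L → ZMod 2,
      (if syn H z = c ∧ syn V z = x then (1 : ℂ) else 0) •
        piMat fun l => blockState G MA MB fB fA bit (z l) (u l) (v l) := by
  simp only [piMat_blockState, Finset.smul_sum, joint]
  symm
  rw [Finset.sum_comm]
  refine Finset.sum_congr rfl fun a _ => ?_
  rw [Finset.sum_comm]
  refine Finset.sum_congr rfl fun b _ => ?_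
  rw [Finset.sum_eq_single (fun l => bit (a l)) (fun z _ hz => by
    rw [if_neg (c := ∀ l, _) fun h => hz (funext fun l => (h l).1.symm), smul_zero]) (by simp)]
  simp only [Prod.mk.injEq, funext_iff (f := fun l => fB (b l)),
    funext_iff (f := fun l => fA (a l) (u l))]
  by_cases h : ∀ l, fB (b l) = u l ∧ fA (a l) (u l) = v l
  · rw [if_pos (c := ∀ l, _) fun l => ⟨by first | trivial | rfl, h l⟩]
    by_cases h2 : (syn H fun l => bit (a l)) = c ∧ (syn V fun l => bit (a l)) = x
    · rw [if_pos h2, one_smul, if_pos ⟨fun l => (h l).1, ⟨fun l => (h l).2, h2.1⟩, h2.2⟩]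
    · rw [if_neg h2, zero_smul, if_neg fun hh => h2 ⟨hh.2.1.2, hh.2.2⟩]
  · rw [if_neg (c := ∀ l, _) fun h' => h fun l => (h' l).2, smul_zero,
      if_neg fun hh => h fun l => ⟨hh.1 l, hh.2.1.1 l⟩]

theorem indicator_eq (x : Fin ℓ → ZMod 2) (c : Fin m → ZMod 2) (z : Fin L → ZMod 2) :
    (if syn H z = c ∧ syn V z = x then (1 : ℂ) else 0)
      = ((2 : ℂ) ^ (m + ℓ))⁻¹ * ∑ wh, ∑ wv, chi (∑ i, wh i * c i) * chi (∑ i, wv i * x i)
          * ∏ l, chi ((comb wh H + comb wv V) l * z l) := by
  have hterm : ∀ wh wv, chi (∑ i, wh i * c i) * chi (∑ i, wv i * x i)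
      * ∏ l, chi ((comb wh H + comb wv V) l * z l)
      = chi (∑ i, wh i * (syn H z + c) i) * chi (∑ i, wv i * (syn V z + x) i) := by
    intro wh wv
    have : ∑ l, (comb wh H + comb wv V) l * z l
        = (∑ i, wh i * syn H z i) + ∑ i, wv i * syn V z i := by
      simp only [Pi.add_apply, add_mul, Finset.sum_add_distrib, comb, syn, Finset.sum_mul,
        Finset.mul_sum, mul_assoc]
      rw [Finset.sum_comm]
      congr 1
      rw [Finset.sum_comm]
    rw [← chi_sum, this]
    simp only [Pi.add_apply, mul_add, Finset.sum_add_distrib, chi_add]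
    ring
  simp only [hterm, ← Finset.mul_sum, ← Finset.sum_mul, fourier, add_eq_zero_iff_eq_neg]
  have hneg : ∀ {r : ℕ} (f : Fin r → ZMod 2), -f = f := fun f => funext fun i => by
    rcases zmod2_cases (f i) with h | h <;> simp [h] <;> decide
  simp only [hneg]
  by_cases h1 : syn H z = c <;> by_cases h2 : syn V z = x <;> simp [h1, h2, pow_add]
  field_simp

theorem joint_fourier (x : Fin ℓ → ZMod 2) (u : Fin L → U) (v : Fin L → W) (c : Fin m → ZMod 2) :
    joint G MA MB fB fA bit H V x u (v, c) = ((2 : ℂ) ^ (m + ℓ))⁻¹ • ∑ wh, ∑ wv,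
      (chi (∑ i, wh i * c i) * chi (∑ i, wv i * x i)) •
        signedPi G MA MB fB fA bit H V wh wv u v := by
  rw [joint_eq_sum]
  simp only [indicator_eq, mul_smul, Finset.sum_smul, ← Finset.smul_sum]
  congr 1
  rw [Finset.sum_comm]
  refine Finset.sum_congr rfl fun wh _ => ?_
  simp only [← Finset.smul_sum]
  congr 1
  rw [Finset.sum_comm]
  refine Finset.sum_congr rfl fun wv _ => ?_
  simp only [← Finset.smul_sum]
  congr 1
  simp only [← piMat_smul]
  rw [← piMat_sum fun l k =>
    chi ((comb wh H + comb wv V) l * k) • blockState G MA MB fB fA bit k (u l) (v l)]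
  rw [signedPi]
  congr 1
  funext l
  simp [signed, sum_zmod2, chi_zero]

theorem joint_sum_fourier (u : Fin L → U) (v : Fin L → W) (c : Fin m → ZMod 2) :
    ((2 : ℂ) ^ ℓ)⁻¹ • ∑ x, joint G MA MB fB fA bit H V x u (v, c)
      = ((2 : ℂ) ^ (m + ℓ))⁻¹ •
        ∑ wh, chi (∑ i, wh i * c i) • signedPi G MA MB fB fA bit H V wh 0 u v := by
  have hx : ∀ wv : Fin ℓ → ZMod 2, ∑ x : Fin ℓ → ZMod 2, chi (∑ i, wv i * x i)
      = if wv = 0 then (2 : ℂ) ^ ℓ else 0 := fun wv => by
    rw [← fourier wv]
    simp only [mul_comm]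
  simp only [joint_fourier, ← Finset.smul_sum]
  rw [smul_comm]
  congr 1
  rw [Finset.sum_comm, Finset.smul_sum]
  refine Finset.sum_congr rfl fun wh _ => ?_
  rw [Finset.sum_comm]
  simp only [← Finset.sum_smul, ← Finset.mul_sum, hx, mul_ite, mul_zero, ite_smul, zero_smul,
    Finset.sum_ite_eq', mem_univ, if_true, smul_smul]
  congr 1
  field_simp

variable {G MA MB}

theorem eve_bound (hA : IsPOVM MA) (hB : IsPOVM MB) {cu : U → W → ℝ}
    (hcu : ∀ u v, Bnd (blockState G MA MB fB fA bit 0 u v - blockState G MA MB fB fA bit 1 u v)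
      (cu u v))
    (x : Fin ℓ → ZMod 2) (u : Fin L → U) (v : Fin L → W) (c : Fin m → ZMod 2) :
    Bnd (joint G MA MB fB fA bit H V x u (v, c)
        - ((2 : ℂ) ^ ℓ)⁻¹ • ∑ x', joint G MA MB fB fA bit H V x' u (v, c))
      (((2 : ℝ) ^ (m + ℓ))⁻¹ * ∑ wh, ∑ wv : Fin ℓ → ZMod 2, if wv = 0 then 0 else
        ∏ l, if (comb wh H + comb wv V) l = 0
          then (blockState G MA MB fB fA bit 0 (u l) (v l)
            + blockState G MA MB fB fA bit 1 (u l) (v l)).trace.re
          else cu (u l) (v l)) := by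
  have e1 : joint G MA MB fB fA bit H V x u (v, c)
      - ((2 : ℂ) ^ ℓ)⁻¹ • ∑ x', joint G MA MB fB fA bit H V x' u (v, c)
      = ((2 : ℂ) ^ (m + ℓ))⁻¹ • ∑ wh, ∑ wv : Fin ℓ → ZMod 2, if wv = 0 then 0 else
          (chi (∑ i, wh i * c i) * chi (∑ i, wv i * x i)) •
            signedPi G MA MB fB fA bit H V wh wv u v := by
    rw [joint_fourier, joint_sum_fourier, ← smul_sub, ← Finset.sum_sub_distrib]
    congr 1
    refine Finset.sum_congr rfl fun wh _ => ?_
    rw [← Finset.add_sum_erase _ _ (mem_univ (0 : Fin ℓ → ZMod 2)),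
      ← Finset.add_sum_erase _ _ (mem_univ (0 : Fin ℓ → ZMod 2))]
    simp only [Pi.zero_apply, zero_mul, Finset.sum_const_zero, chi_zero, mul_one, if_true,
      zero_add, add_sub_cancel_left]
    exact Finset.sum_congr rfl fun wv hwv => by rw [if_neg (ne_of_mem_erase hwv)]
  have hb : ∀ e u v, Bnd (signed G MA MB fB fA bit e u v) (if e = 0
      then (blockState G MA MB fB fA bit 0 u v + blockState G MA MB fB fA bit 1 u v).trace.re
      else cu u v) := by
    intro e u v
    rcases zmod2_cases e with rfl | rfl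
    · simp only [signed, chi_zero, one_smul, if_true]
      exact bnd_psd ((blockState_posSemidef hA hB _ _ _ _ _ _).add
        (blockState_posSemidef hA hB _ _ _ _ _ _))
    · simp only [signed, chi_one, neg_smul, one_smul, if_neg (by decide : ¬(1 : ZMod 2) = 0),
        ← sub_eq_add_neg]
      exact hcu u v
  have habs : ∀ b : ZMod 2, ‖chi b‖ = 1 := fun b => by
    rcases zmod2_cases b with rfl | rfl <;> simp [chi_zero, chi_one]
  rw [e1]
  refine bnd_mono (bnd_smul _ (bnd_sum _ fun wh _ => bnd_sum _ fun wv _ =>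
    (?_ : Bnd _ (if wv = 0 then 0 else ∏ l, if (comb wh H + comb wv V) l = 0
      then (blockState G MA MB fB fA bit 0 (u l) (v l)
        + blockState G MA MB fB fA bit 1 (u l) (v l)).trace.re
      else cu (u l) (v l))))) (le_of_eq ?_)
  · split_ifs
    · exact bnd_zero
    · have := bnd_smul (chi (∑ i, wh i * c i) * chi (∑ i, wv i * x i))
        (bnd_pi fun l => hb ((comb wh H + comb wv V) l) (u l) (v l))
      simpa [habs, signedPi] using this
  · simp

omit [Fintype A] [Fintype B] [Fintype E] [Fintype OA] [Fintype OB] [DecidableEq A] [DecidableEq B]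
  [DecidableEq E] [DecidableEq U] [DecidableEq W] in
theorem eve_total (f : ZMod 2 → U → W → ℝ) (h0 : ∀ e u v, 0 ≤ f e u v) {η : ℝ} (hη : 0 ≤ η)
    (hη1 : η ≤ 1) (hf0 : ∑ u, ∑ v, f 0 u v ≤ 1) (hf1 : ∑ u, ∑ v, f 1 u v ≤ η) {q : ℕ}
    (e : (Fin m → ZMod 2) → (Fin ℓ → ZMod 2) → Fin L → ZMod 2)
    (hV : ∀ wh wv, wt (e wh wv) < q → wv = 0) :
    ∑ _x : Fin ℓ → ZMod 2, ∑ u : Fin L → U, ∑ v : (Fin L → W) × (Fin m → ZMod 2),
      ((2 : ℝ) ^ (m + ℓ))⁻¹ * ∑ wh, ∑ wv : Fin ℓ → ZMod 2, (if wv = 0 then 0 else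
        ∏ l, f (e wh wv l) (u l) (v.1 l)) ≤ 2 ^ (m + ℓ) * η ^ q := by
  have hone : ∀ b, ∑ u, ∑ v, f b u v ≤ if b = 0 then 1 else η := by
    intro b
    rcases zmod2_cases b with rfl | rfl
    · simpa using hf0
    · simpa [if_neg (by decide : ¬(1 : ZMod 2) = 0)] using hf1
  have hw : ∀ wh wv, (if wv = 0 then 0 else ∑ u : Fin L → U, ∑ v : Fin L → W,
      ∏ l, f (e wh wv l) (u l) (v l)) ≤ η ^ q := by
    intro wh wv
    split_ifs with h
    · exact pow_nonneg hη q
    · simp only [← Fintype.prod_sum]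
      rw [← Fintype.prod_sum fun l i => ∑ j, f (e wh wv l) i j]
      refine (Finset.prod_le_prod (fun l _ => Finset.sum_nonneg fun i _ =>
        Finset.sum_nonneg fun j _ => h0 (e wh wv l) i j) fun l _ => hone (e wh wv l)).trans ?_
      rw [Finset.prod_ite, Finset.prod_const_one, one_mul, Finset.prod_const]
      exact pow_le_pow_of_le_one hη hη1 (not_lt.1 fun hh => h (hV wh wv hh))
  set g : (Fin m → ZMod 2) → (Fin ℓ → ZMod 2) → (Fin L → U) → (Fin L → W) → ℝ :=
    fun wh wv u v => if wv = 0 then 0 else ∏ l, f (e wh wv l) (u l) (v l) with hg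
  have hgs : ∀ wh wv, ∑ u, ∑ v, g wh wv u v ≤ η ^ q := by
    intro wh wv
    refine le_trans (le_of_eq ?_) (hw wh wv)
    simp only [hg]
    split_ifs <;> simp
  have hswap : ∑ u, ∑ v, ∑ wh, ∑ wv, g wh wv u v = ∑ wh, ∑ wv, ∑ u, ∑ v, g wh wv u v := by
    rw [Finset.sum_congr rfl fun u _ => Finset.sum_comm, Finset.sum_comm]
    refine Finset.sum_congr rfl fun wh _ => ?_
    rw [Finset.sum_congr rfl fun u _ => Finset.sum_comm, Finset.sum_comm]
  calc _ = (2 : ℝ) ^ ℓ * 2 ^ m * ((2 : ℝ) ^ (m + ℓ))⁻¹ * ∑ wh, ∑ wv, ∑ u, ∑ v, g wh wv u v := by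
        simp only [Fintype.sum_prod_type, Finset.sum_const, Finset.card_univ, Fintype.card_fun,
          ZMod.card, Fintype.card_fin, nsmul_eq_mul, Nat.cast_pow, Nat.cast_ofNat, ← Finset.mul_sum]
        rw [← hswap]
        ring
    _ = ∑ wh, ∑ wv, ∑ u, ∑ v, g wh wv u v := by rw [pow_add]; field_simp
    _ ≤ ∑ _wh : Fin m → ZMod 2, ∑ _wv : Fin ℓ → ZMod 2, η ^ q :=
        Finset.sum_le_sum fun wh _ => Finset.sum_le_sum fun wv _ => hgs wh wv
    _ = _ := by simp [pow_add]; ring

omit [Fintype U] [Fintype W] [Fintype A] [Fintype B] [Fintype E] [DecidableEq A] [DecidableEq B]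
  [DecidableEq E] [Fintype OA] [Fintype OB] in
theorem off_collapse {PA PB Q R K : Type} [Fintype PA] [Fintype PB] [Fintype Q] [Fintype R]
    [Fintype K] [DecidableEq Q] [DecidableEq R] [DecidableEq K] (f : PA → PB → ℝ) (fb : PB → Q)
    (fa : PA → Q → R) (ka : PA → Q → K) (kb : PB → R → K) :
    ∑ x, ∑ u, ∑ v, ∑ y, (if y = x then 0 else
      ∑ a, ∑ b, if fb b = u ∧ fa a u = v ∧ ka a u = x ∧ kb b v = y then f a b else 0)
    = ∑ a, ∑ b, if kb b (fa a (fb b)) = ka a (fb b) then 0 else f a b := by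
  have e : ∀ x u v y, (if y = x then (0:ℝ) else
      ∑ a, ∑ b, if fb b = u ∧ fa a u = v ∧ ka a u = x ∧ kb b v = y then f a b else 0)
      = ∑ a, ∑ b, if fb b = u then if fa a u = v then if ka a u = x then if kb b v = y then
        if y = x then 0 else f a b else 0 else 0 else 0 else 0 := by
    intro x u v y
    split_ifs with h
    · simp
    · simp [ite_and]
  simp only [e]
  rw [Finset.sum_congr rfl fun x _ => Finset.sum_congr rfl fun u _ => Finset.sum_congr rfl
    fun v _ => Finset.sum_comm, Finset.sum_congr rfl fun x _ => Finset.sum_congr rfl fun u _ =>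
    Finset.sum_comm, Finset.sum_congr rfl fun x _ => Finset.sum_comm, Finset.sum_comm]
  refine Finset.sum_congr rfl fun a _ => ?_
  rw [Finset.sum_congr rfl fun x _ => Finset.sum_congr rfl fun u _ => Finset.sum_congr rfl
    fun v _ => Finset.sum_comm, Finset.sum_congr rfl fun x _ => Finset.sum_congr rfl fun u _ =>
    Finset.sum_comm, Finset.sum_congr rfl fun x _ => Finset.sum_comm, Finset.sum_comm]
  refine Finset.sum_congr rfl fun b _ => ?_
  rw [Finset.sum_comm, Finset.sum_eq_single (fb b) (fun u _ hu => by simp [Ne.symm hu]) (by simp),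
    Finset.sum_comm, Finset.sum_eq_single (fa a (fb b)) (fun v _ hv => by simp [Ne.symm hv])
      (by simp),
    Finset.sum_eq_single (ka a (fb b)) (fun x _ hx => by simp [Ne.symm hx]) (by simp),
    Finset.sum_eq_single (kb b (fa a (fb b))) (fun y _ hy => by simp [Ne.symm hy]) (by simp)]
  simp

theorem bad_total (hG : fsq G = 1) (hA : IsPOVM MA) (hB : IsPOVM MB) (guess : OB → W → ZMod 2)
    {η : ℝ} (herr : ∑ i, ∑ j, (if guess j (fA i (fB j)) = bit i then 0
      else (op G (MA i) (MB j)).trace.re) ≤ η)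
    {q : ℕ} (hH : ∀ z, syn H z = 0 → wt z ≤ 2 * q → z = 0) :
    ∑ a : Fin L → OA, ∑ b : Fin L → OB,
      (if syn V (decode H q (fun l => guess (b l) (fA (a l) (fB (b l))))
            (syn H fun l => bit (a l))) = (syn V fun l => bit (a l)) then 0
        else (op (piG G (Fin L)) (piMat fun l => MA (a l))
          (piMat fun l => MB (b l))).trace.re)
      ≤ (1 + 63 * η) ^ L / 64 ^ q := by
  set p : OA → OB → ℝ := fun i j => (op G (MA i) (MB j)).trace.re with hp
  have hp0 : ∀ i j, 0 ≤ p i j := fun i j =>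
    (Complex.le_def.1 (op_posSemidef G (hA.1 i) (hB.1 j)).trace_nonneg).1
  set wgt : OA → OB → ℝ := fun i j =>
    p i j * if guess j (fA i (fB j)) = bit i then 1 else 64 with hwgt
  have hw : ∑ i, ∑ j, wgt i j ≤ 1 + 63 * η := by
    have h1 : ∑ i, ∑ j, p i j = 1 := by
      have := congrArg (fun M => M.trace.re) (sum_op hA hB G)
      simp only [trace_sum, Complex.re_sum, trace_op_one, hG] at this
      simpa using this
    have h2 : ∀ i j, wgt i j = p i j
        + 63 * if guess j (fA i (fB j)) = bit i then 0 else p i j := fun i j => by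
      simp only [hwgt]; split_ifs <;> ring
    simp only [h2, Finset.sum_add_distrib, ← Finset.mul_sum, h1]
    linarith
  have hw0 : ∀ i j, 0 ≤ wgt i j := fun i j => mul_nonneg (hp0 i j) (by split_ifs <;> norm_num)
  calc _ ≤ ∑ a : Fin L → OA, ∑ b : Fin L → OB, (∏ l, wgt (a l) (b l)) / 64 ^ q := by
        refine Finset.sum_le_sum fun a _ => Finset.sum_le_sum fun b _ => ?_
        split_ifs with h
        · exact div_nonneg (Finset.prod_nonneg fun l _ => hw0 _ _) (by positivity)
        · have htr : (op (piG G (Fin L)) (piMat fun l => MA (a l))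
              (piMat fun l => MB (b l))).trace.re = ∏ l, p (a l) (b l) := by
            rw [op_pi, piMat_trace,
              Finset.prod_congr rfl fun l _ => trace_real (op_posSemidef G (hA.1 _) (hB.1 _)),
              ← Complex.ofReal_prod, Complex.ofReal_re]
          have hbad : q < wt ((fun l => bit (a l))
              - fun l => guess (b l) (fA (a l) (fB (b l)))) := by
            by_contra hc
            exact h (by rw [decode_eq hH (not_lt.1 hc)])
          rw [htr, le_div_iff₀ (by positivity)]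
          simp only [hwgt, Finset.prod_mul_distrib]
          refine mul_le_mul_of_nonneg_left ?_ (Finset.prod_nonneg fun l _ => hp0 _ _)
          rw [Finset.prod_ite, Finset.prod_const_one, one_mul, Finset.prod_const]
          refine pow_le_pow_right₀ (by norm_num) (hbad.le.trans (card_le_card fun l hl => ?_))
          simp only [mem_filter, mem_univ, true_and, Pi.sub_apply] at hl ⊢
          exact fun h' => hl (by rw [h', sub_self])
    _ = (∑ i, ∑ j, wgt i j) ^ L / 64 ^ q := by
        simp only [← Finset.sum_div, ← Fintype.prod_sum]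
        rw [← Fintype.prod_sum fun (_ : Fin L) i => ∑ j, wgt i j]
        simp
    _ ≤ _ := div_le_div_of_nonneg_right (pow_le_pow_left₀
        (Finset.sum_nonneg fun i _ => Finset.sum_nonneg fun j _ => hw0 i j) hw L) (by positivity)

theorem collapse {Q K M : Type} [Fintype Q] [Fintype K] [DecidableEq Q] [DecidableEq K]
    [AddCommMonoid M] (q₀ : Q) (k₀ : K) (g : Q → K → M) :
    ∑ q, ∑ k, (if q₀ = q ∧ k₀ = k then g q k else 0) = g q₀ k₀ := by
  simp [ite_and]

theorem ach_code (hG : fsq G = 1) (hA : IsPOVM MA) (hB : IsPOVM MB)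
    (guess : OB → W → ZMod 2) {η : ℝ} (hη : 0 ≤ η) (hη1 : η ≤ 1)
    (herr : ∑ i, ∑ j, (if guess j (fA i (fB j)) = bit i then 0
      else (op G (MA i) (MB j)).trace.re) ≤ η)
    {cu : U → W → ℝ}
    (hcu : ∀ u v, Bnd (blockState G MA MB fB fA bit 0 u v - blockState G MA MB fB fA bit 1 u v)
      (cu u v))
    (hcu1 : ∑ u, ∑ v, cu u v ≤ η) {q : ℕ}
    (hH : ∀ z, syn H z = 0 → wt z ≤ 2 * q → z = 0)
    (hV : ∀ wh wv, wt (comb wh H + comb wv V) < q → wh = 0 ∧ wv = 0) :
    Ach (piG G (Fin L)) ℓ (2 * ((1 + 63 * η) ^ L / 64 ^ q) + 2 ^ (m + ℓ) * η ^ q) := by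
  set N : Matrix _ _ ℂ := piG G (Fin L) with hN
  set MA' : (Fin L → OA) → Matrix (Fin L → A) (Fin L → A) ℂ := fun a => piMat fun l => MA (a l)
    with hMA'
  set MB' : (Fin L → OB) → Matrix (Fin L → B) (Fin L → B) ℂ := fun b => piMat fun l => MB (b l)
    with hMB'
  have hA' : IsPOVM MA' := povm_pi hA
  have hB' : IsPOVM MB' := povm_pi hB
  set fB' : (Fin L → OB) → (Fin L → U) := fun b l => fB (b l) with hfB'
  set fA' : (Fin L → OA) → (Fin L → U) → (Fin L → W) × (Fin m → ZMod 2) :=
    fun a u => (fun l => fA (a l) (u l), syn H fun l => bit (a l)) with hfA'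
  set kA : (Fin L → OA) → (Fin L → U) → Fin ℓ → ZMod 2 :=
    fun a _ => syn V fun l => bit (a l) with hkA
  set kB : (Fin L → OB) → (Fin L → W) × (Fin m → ZMod 2) → Fin ℓ → ZMod 2 :=
    fun b v => syn V (decode H q (fun l => guess (b l) (v.1 l)) v.2) with hkB
  set τ := joint G MA MB fB fA bit H V with hτ
  have hτpsd : ∀ x u v, (τ x u v).PosSemidef := fun x u v =>
    posSemidef_sum _ fun a _ => posSemidef_sum _ fun b _ => by
      split_ifs
      · exact op_posSemidef N (hA'.1 a) (hB'.1 b)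
      · exact PosSemidef.zero
  have hkpsd : ∀ x y u v, (kState N MA' MB' fB' fA' kA kB x y u v).PosSemidef := fun x y u v =>
    posSemidef_sum _ fun a _ => posSemidef_sum _ fun b _ => by
      split_ifs
      · exact op_posSemidef N (hA'.1 a) (hB'.1 b)
      · exact PosSemidef.zero
  have hsumk : ∀ x u v, ∑ y, kState N MA' MB' fB' fA' kA kB x y u v = τ x u v := by
    intro x u v
    simp only [kState, hτ, joint]
    rw [Finset.sum_comm]
    refine Finset.sum_congr rfl fun a _ => ?_
    rw [Finset.sum_comm]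
    refine Finset.sum_congr rfl fun b _ => ?_
    by_cases h : fB' b = u ∧ fA' a u = v ∧ kA a u = x
    · refine Eq.trans ?_ (if_pos h).symm
      simp [h.1, h.2.1, h.2.2, hMA', hMB', hN]
    · refine Eq.trans ?_ (if_neg h).symm
      exact Finset.sum_eq_zero fun y _ => if_neg fun h' => h ⟨h'.1, h'.2.1, h'.2.2.1⟩
  set off : (Fin ℓ → ZMod 2) → (Fin L → U) → (Fin L → W) × (Fin m → ZMod 2) → ℝ := fun x u v =>
    ∑ y, if y = x then 0 else (kState N MA' MB' fB' fA' kA kB x y u v).trace.re with hoff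
  set cE : (Fin ℓ → ZMod 2) → (Fin L → U) → (Fin L → W) × (Fin m → ZMod 2) → ℝ :=
    fun _ u v => ((2 : ℝ) ^ (m + ℓ))⁻¹ * ∑ wh, ∑ wv : Fin ℓ → ZMod 2, if wv = 0 then 0 else
      ∏ l, if (comb wh H + comb wv V) l = 0
        then (blockState G MA MB fB fA bit 0 (u l) (v.1 l)
          + blockState G MA MB fB fA bit 1 (u l) (v.1 l)).trace.re
        else cu (u l) (v.1 l) with hcE
  set cost : (Fin ℓ → ZMod 2) → (Fin ℓ → ZMod 2) → (Fin L → U) →
      (Fin L → W) × (Fin m → ZMod 2) → ℝ :=
    fun x y u v => (if y = x then 0 else (kState N MA' MB' fB' fA' kA kB x y u v).trace.re)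
      + if y = x then off x u v + cE x u v else 0 with hcost
  refine ach_of (σ := fun u v => ∑ x, τ x u v) (cost := cost) hA' hB'
    (fun u v => posSemidef_sum _ fun x _ => hτpsd x u v) ?_ (fB := fB') (fA := fA') (kA := kA)
    (kB := kB) ?_ ?_
  · have := congrArg Matrix.trace (sum_op hA' hB' N)
    rw [trace_op_one, hN, fsq_piG G hG, Complex.ofReal_one, trace_sum] at this
    rw [← this]
    simp only [trace_sum, hτ, joint, apply_ite Matrix.trace, trace_zero]
    rw [Finset.sum_congr rfl fun u _ => Finset.sum_congr rfl fun v _ => Finset.sum_comm,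
      Finset.sum_congr rfl fun u _ => Finset.sum_comm, Finset.sum_comm]
    refine Finset.sum_congr rfl fun a _ => ?_
    rw [Finset.sum_congr rfl fun u _ => Finset.sum_congr rfl fun v _ => Finset.sum_comm,
      Finset.sum_congr rfl fun u _ => Finset.sum_comm, Finset.sum_comm]
    refine Finset.sum_congr rfl fun b _ => ?_
    simp [ite_and, hMA', hMB']
  · intro x y u v
    rcases eq_or_ne y x with rfl | h
    · simp only [hcost, if_true, zero_add]
      have hs : kState N MA' MB' fB' fA' kA kB y y u v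
          = τ y u v - ∑ y' ∈ univ.erase y, kState N MA' MB' fB' fA' kA kB y y' u v :=
        eq_sub_of_add_eq ((Finset.add_sum_erase _ (fun y' => kState N MA' MB' fB' fA' kA kB y y' u v)
          (mem_univ y)).trans (hsumk y u v))
      rw [show kState N MA' MB' fB' fA' kA kB y y u v - ((2 : ℂ) ^ ℓ)⁻¹ • ∑ x', τ x' u v
          = -(∑ y' ∈ univ.erase y, kState N MA' MB' fB' fA' kA kB y y' u v)
            + (τ y u v - ((2 : ℂ) ^ ℓ)⁻¹ • ∑ x', τ x' u v) from by rw [hs]; abel]
      refine bnd_add (bnd_mono (bnd_neg (bnd_sum _ fun y' _ => bnd_psd (hkpsd y y' u v)))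
        (le_of_eq ?_)) (eve_bound fB fA bit H V hA hB hcu y u v.1 v.2)
      simp only [hoff]
      rw [← Finset.add_sum_erase _ _ (mem_univ y), if_pos rfl, zero_add]
      exact Finset.sum_congr rfl fun y' hy' => by rw [if_neg (ne_of_mem_erase hy')]
    · simp only [hcost, if_neg h, if_neg (Ne.symm h), sub_zero, add_zero]
      exact bnd_psd (hkpsd x y u v)
  · have hoffsum : ∑ x, ∑ u, ∑ v, off x u v ≤ (1 + 63 * η) ^ L / 64 ^ q := by
      refine le_trans (le_of_eq ?_) (bad_total fB fA bit H V hG hA hB guess herr hH)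
      have htr : ∀ (c : Prop) [Decidable c] (M : Matrix (Fin L → E) (Fin L → E) ℂ),
          (if c then M else 0).trace.re = if c then M.trace.re else 0 := fun c _ M => by
        split_ifs <;> simp
      simp only [hoff, kState, trace_sum, Complex.re_sum, htr]
      exact off_collapse (fun a b => (op N (MA' a) (MB' b)).trace.re) fB' fA' kA kB
    have hf0 : ∑ u, ∑ v, (blockState G MA MB fB fA bit 0 u v
        + blockState G MA MB fB fA bit 1 u v).trace.re ≤ 1 := by
      have := congrArg (fun M => M.trace.re) (sum_blockState G hA hB fB fA bit)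
      simp only [trace_sum, Complex.re_sum, trace_op_one, hG, Complex.ofReal_one,
        Complex.one_re] at this
      exact this.le
    have hEsum : ∑ x, ∑ u, ∑ v, cE x u v ≤ 2 ^ (m + ℓ) * η ^ q :=
      eve_total (fun e u v => if e = 0 then (blockState G MA MB fB fA bit 0 u v
          + blockState G MA MB fB fA bit 1 u v).trace.re else cu u v)
        (fun e u v => by
          split_ifs
          · exact (Complex.le_def.1 ((blockState_posSemidef hA hB _ _ _ _ _ _).add
              (blockState_posSemidef hA hB _ _ _ _ _ _)).trace_nonneg).1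
          · exact bnd_nonneg (hcu u v))
        hη hη1 (by simpa using hf0) (by simpa [if_neg (by decide : ¬(1 : ZMod 2) = 0)] using hcu1)
        (fun wh wv => comb wh H + comb wv V) fun wh wv h => (hV wh wv h).2
    have hsum : ∀ x u v, ∑ y, cost x y u v = 2 * off x u v + cE x u v := by
      intro x u v
      simp only [hcost, Finset.sum_add_distrib, Finset.sum_ite_eq', mem_univ, if_true, hoff]
      ring
    calc ∑ x, ∑ y, ∑ u, ∑ v, cost x y u v
        = ∑ x, ∑ u, ∑ v, (2 * off x u v + cE x u v) := by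
          refine Finset.sum_congr rfl fun x _ => ?_
          rw [Finset.sum_comm]
          refine Finset.sum_congr rfl fun u _ => ?_
          rw [Finset.sum_comm]
          exact Finset.sum_congr rfl fun v _ => hsum x u v
      _ = 2 * (∑ x, ∑ u, ∑ v, off x u v) + ∑ x, ∑ u, ∑ v, cE x u v := by
          simp only [Finset.sum_add_distrib, Finset.mul_sum]
      _ ≤ _ := add_le_add (mul_le_mul_of_nonneg_left hoffsum zero_le_two) hEsum

end

end Vale.Agent.P372
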