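import Mathlib
import Vale.Agent.P372.Bnd

/-!
Many repetitions: Eve's distinguishability and the majority vote.
-/

noncomputable section

open Matrix Finset
open scoped ComplexOrder

namespace Vale.Agent.P372

section
variable {I Z Q E : Type} [Fintype I] [DecidableEq I] [Fintype Z] [Fintype Q] [Fintype E]

theorem bnd_pi_sub {X Y : I → Matrix E E ℂ} {n d : I → ℝ} (hY : ∀ i, Bnd (Y i) (n i))
    (hd : ∀ i, Bnd (X i - Y i) (d i)) :
    Bnd (piMat X - piMat Y) ((∏ i, (n i + d i)) - ∏ i, n i) := by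
  set W : I → Bool → Matrix E E ℂ := fun i b => if b then X i - Y i else Y i with hW
  set c : I → Bool → ℝ := fun i b => if b then d i else n i with hc
  have hX : piMat X = ∑ g : I → Bool, piMat fun i => W i (g i) := by
    rw [← piMat_sum]
    congr 1
    funext i
    simp [hW]
  have hn : ∏ i, (n i + d i) = ∑ g : I → Bool, ∏ i, c i (g i) := by
    rw [← Fintype.prod_sum]
    refine Finset.prod_congr rfl fun i _ => ?_
    simp [hc, add_comm]
  set g₀ : I → Bool := fun _ => false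
  have e1 : piMat X - piMat Y = ∑ g ∈ univ.erase g₀, piMat fun i => W i (g i) := by
    rw [hX, ← Finset.add_sum_erase _ _ (mem_univ g₀)]
    simp [hW, g₀]
  have e2 : ((∏ i, (n i + d i)) - ∏ i, n i) = ∑ g ∈ univ.erase g₀, ∏ i, c i (g i) := by
    rw [hn, ← Finset.add_sum_erase _ _ (mem_univ g₀)]
    simp [hc, g₀]
  rw [e1, e2]
  refine bnd_sum _ fun g _ => bnd_pi fun i => ?_
  cases g i
  · simpa [hW, hc] using hY i
  · simpa [hW, hc] using hd i

theorem vsq_sub (u w : E → ℂ) : vsq (u - w) = vsq u + vsq w - 2 * (star u ⬝ᵥ w).re := by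
  have h : star w ⬝ᵥ u = star (star u ⬝ᵥ w) := by
    simp [dotProduct, mul_comm]
  have := congrArg Complex.re
    (show star (u - w) ⬝ᵥ (u - w) = star u ⬝ᵥ u + star w ⬝ᵥ w - star u ⬝ᵥ w - star w ⬝ᵥ u by
      simp [star_sub, sub_dotProduct, dotProduct_sub]; ring)
  rw [dot_self, dot_self, dot_self, h] at this
  simp at this
  linarith

theorem bnd_vmv_sub (u w : E → ℂ) :
    Bnd (vecMulVec u (star u) - vecMulVec w (star w)) ((vn u + vn w) * vn (u - w)) := by
  have e : vecMulVec u (star u) - vecMulVec w (star w)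
      = vecMulVec u (star (u - w)) + vecMulVec (u - w) (star w) := by
    ext i j
    simp [vecMulVec_apply]
    ring
  rw [e]
  refine bnd_mono (bnd_add ⟨1, fun _ => u, fun _ => u - w, by simp, le_of_eq (by simp; rfl)⟩
    ⟨1, fun _ => u - w, fun _ => w, by simp, le_of_eq (by simp; rfl)⟩) (le_of_eq ?_)
  ring

theorem sum_pi_sum {f : Z → Q → ℂ} :
    ∑ z : I → Z, ∑ k : I → Q, ∏ i, f (z i) (k i) = (∑ z, ∑ k, f z k) ^ Fintype.card I := by
  simp only [← Fintype.prod_sum]
  rw [← Fintype.prod_sum fun (_ : I) z => ∑ k, f z k]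
  simp

theorem sum_pi_sum_real {f : Z → Q → ℝ} :
    ∑ z : I → Z, ∑ k : I → Q, ∏ i, f (z i) (k i) = (∑ z, ∑ k, f z k) ^ Fintype.card I := by
  simp only [← Fintype.prod_sum]
  rw [← Fintype.prod_sum fun (_ : I) z => ∑ k, f z k]
  simp

theorem rep_bound (w0 w1 : Z → Matrix E E ℂ) (B0 B1 : Z → Matrix E Q ℂ) {d0 d1 : Z → ℝ}
    {N D P : ℝ} (h0 : ∀ z, Bnd (w0 z - B0 z * (B0 z)ᴴ) (d0 z))
    (h1 : ∀ z, Bnd (w1 z - B1 z * (B1 z)ᴴ) (d1 z))
    (hN0 : ∑ z, fsq (B0 z) = N) (hN1 : ∑ z, fsq (B1 z) = N)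
    (hd0 : ∑ z, d0 z ≤ D) (hd1 : ∑ z, d1 z ≤ D)
    (hP : ∑ z, ∑ k, (star fun i => B0 z i k) ⬝ᵥ (fun i => B1 z i k) = (P : ℂ)) :
    ∃ c : (I → Z) → ℝ,
      (∀ f, Bnd ((piMat fun i => w0 (f i)) - piMat fun i => w1 (f i)) (c f)) ∧
      ∑ f, c f ≤ 2 * ((N + D) ^ Fintype.card I - N ^ Fintype.card I)
        + Real.sqrt (4 * N ^ Fintype.card I)
          * Real.sqrt (2 * N ^ Fintype.card I - 2 * P ^ Fintype.card I) := by
  set T := Fintype.card I
  set col : (Z → Matrix E Q ℂ) → (I → Z) → (I → Q) → (I → E) → ℂ :=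
    fun B f k => piVec fun i => fun e => B (f i) e (k i) with hcol
  have hgram : ∀ (B : Z → Matrix E Q ℂ) (f : I → Z),
      (piMat fun i => B (f i) * (B (f i))ᴴ) = ∑ k, vecMulVec (col B f k) (star (col B f k)) := by
    intro B f
    simp only [mul_conjTranspose_eq_sum, piMat_sum, piMat_vecMulVec, hcol]
  set cd : (Z → Matrix E Q ℂ) → (Z → ℝ) → (I → Z) → ℝ := fun B d f =>
    (∏ i, (fsq (B (f i)) + d (f i))) - ∏ i, fsq (B (f i)) with hcd
  set u := col B0
  set w := col B1
  refine ⟨fun f => cd B0 d0 f + (∑ k, (vn (u f k) + vn (w f k)) * vn (u f k - w f k))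
    + cd B1 d1 f, fun f => ?_, ?_⟩
  · have e : (piMat fun i => w0 (f i)) - (piMat fun i => w1 (f i))
        = ((piMat fun i => w0 (f i)) - piMat fun i => B0 (f i) * (B0 (f i))ᴴ)
          + (∑ k, (vecMulVec (u f k) (star (u f k)) - vecMulVec (w f k) (star (w f k))))
          + -((piMat fun i => w1 (f i)) - piMat fun i => B1 (f i) * (B1 (f i))ᴴ) := by
      rw [Finset.sum_sub_distrib, ← hgram, ← hgram]
      abel
    rw [e]
    exact bnd_add (bnd_add (bnd_pi_sub (fun i => bnd_gram _) fun i => h0 _)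
      (bnd_sum _ fun k _ => bnd_vmv_sub _ _))
      (bnd_neg (bnd_pi_sub (fun i => bnd_gram _) fun i => h1 _))
  · have hcd' : ∀ (B : Z → Matrix E Q ℂ) (d : Z → ℝ), (∀ z, 0 ≤ d z) → ∑ z, fsq (B z) = N →
        ∑ z, d z ≤ D → ∑ f : I → Z, cd B d f ≤ (N + D) ^ T - N ^ T := by
      intro B d hd hN hD
      simp only [hcd, Finset.sum_sub_distrib]
      rw [← Fintype.prod_sum fun (_ : I) z => fsq (B z) + d z,
        ← Fintype.prod_sum fun (_ : I) z => fsq (B z)]
      simp only [Finset.sum_add_distrib, hN, Finset.prod_const, Finset.card_univ]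
      have h0' : 0 ≤ N + ∑ z, d z := add_nonneg
        (hN ▸ Finset.sum_nonneg fun z _ => fsq_nonneg _) (Finset.sum_nonneg fun z _ => hd z)
      linarith [pow_le_pow_left₀ h0' (by linarith : N + ∑ z, d z ≤ N + D) T]
    have ha := hcd' B0 d0 (fun z => bnd_nonneg (h0 z)) hN0 hd0
    have hb := hcd' B1 d1 (fun z => bnd_nonneg (h1 z)) hN1 hd1
    have hvu : ∀ (B : Z → Matrix E Q ℂ), ∑ z, fsq (B z) = N →
        ∑ p : (I → Z) × (I → Q), vsq (col B p.1 p.2) = N ^ T := by
      intro B hN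
      rw [Fintype.sum_prod_type, ← hN]
      simp only [hcol, vsq_piVec]
      exact sum_pi_sum_real (f := fun z k => vsq fun e => B z e k)
    have hdot : ∑ p : (I → Z) × (I → Q), star (u p.1 p.2) ⬝ᵥ w p.1 p.2 = ((P : ℂ)) ^ T := by
      rw [Fintype.sum_prod_type, ← hP]
      simp only [u, w, hcol, dot_piVec]
      exact sum_pi_sum (f := fun z k => (star fun e => B0 z e k) ⬝ᵥ fun e => B1 z e k)
    have hcross : ∑ f, ∑ k, (vn (u f k) + vn (w f k)) * vn (u f k - w f k)
        ≤ Real.sqrt (4 * N ^ T) * Real.sqrt (2 * N ^ T - 2 * P ^ T) := by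
      rw [← Fintype.sum_prod_type']
      refine (Real.sum_mul_le_sqrt_mul_sqrt _ _ _).trans (mul_le_mul (Real.sqrt_le_sqrt ?_)
        (Real.sqrt_le_sqrt (le_of_eq ?_)) (Real.sqrt_nonneg _) (Real.sqrt_nonneg _))
      · calc ∑ p : (I → Z) × (I → Q), (vn (u p.1 p.2) + vn (w p.1 p.2)) ^ 2
            ≤ ∑ p : (I → Z) × (I → Q), 2 * (vsq (u p.1 p.2) + vsq (w p.1 p.2)) :=
              Finset.sum_le_sum fun p _ => by
                rw [← sq_vn, ← sq_vn]; exact add_sq_le
          _ = _ := by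
              rw [← Finset.mul_sum, Finset.sum_add_distrib, hvu B0 hN0, hvu B1 hN1]; ring
      · simp only [sq_vn, vsq_sub, Finset.sum_sub_distrib, Finset.sum_add_distrib, ← Finset.mul_sum]
        rw [hvu B0 hN0, hvu B1 hN1, ← Complex.re_sum, hdot, ← Complex.ofReal_pow,
          Complex.ofReal_re]
        ring
    simp only [Finset.sum_add_distrib]
    linarith

end

section
variable {O : Type} [Fintype O]

theorem moment_two (T : ℕ) (p h : O → ℝ) (hp1 : ∑ o, p o = 1) (hh : ∑ o, p o * h o = 0) :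
    (∑ f : Fin T → O, (∏ i, p (f i)) * ∑ i, h (f i)) = 0 ∧
    ∑ f : Fin T → O, (∏ i, p (f i)) * (∑ i, h (f i)) ^ 2 = T * ∑ o, p o * h o ^ 2 := by
  induction T with
  | zero => simp
  | succ T ih =>
    obtain ⟨ih1, ih2⟩ := ih
    have hone : ∑ f : Fin T → O, ∏ i, p (f i) = 1 := by
      rw [← Fintype.prod_sum fun (_ : Fin T) o => p o]
      simp [hp1]
    constructor
    · rw [← (Fin.consEquiv fun _ => O).sum_comp, Fintype.sum_prod_type]
      simp only [Fin.consEquiv_apply, Fin.prod_univ_succ, Fin.sum_univ_succ, Fin.cons_zero,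
        Fin.cons_succ, mul_add, Finset.sum_add_distrib]
      rw [Finset.sum_congr rfl fun o _ => show ∑ f : Fin T → O, p o * (∏ i, p (f i)) * h o
          = p o * h o from by rw [← Finset.sum_mul, ← Finset.mul_sum, hone, mul_one],
        Finset.sum_congr rfl fun o _ => show ∑ f : Fin T → O,
          p o * (∏ i, p (f i)) * ∑ i, h (f i) = 0 from by
            simp only [mul_assoc, ← Finset.mul_sum, ih1, mul_zero]]
      simp [hh]
    · rw [← (Fin.consEquiv fun _ => O).sum_comp, Fintype.sum_prod_type]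
      simp only [Fin.consEquiv_apply, Fin.prod_univ_succ, Fin.sum_univ_succ, Fin.cons_zero,
        Fin.cons_succ]
      have e : ∀ o, ∑ f : Fin T → O, p o * (∏ i, p (f i)) * (h o + ∑ i, h (f i)) ^ 2
          = p o * h o ^ 2 + p o * (T * ∑ o, p o * h o ^ 2) := by
        intro o
        calc ∑ f : Fin T → O, p o * (∏ i, p (f i)) * (h o + ∑ i, h (f i)) ^ 2
            = ∑ f : Fin T → O, ((∏ i, p (f i)) * (p o * h o ^ 2)
              + 2 * p o * h o * ((∏ i, p (f i)) * ∑ i, h (f i))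
              + p o * ((∏ i, p (f i)) * (∑ i, h (f i)) ^ 2)) :=
              Finset.sum_congr rfl fun f _ => by ring
          _ = _ := by
              rw [Finset.sum_add_distrib, Finset.sum_add_distrib, ← Finset.sum_mul, hone,
                ← Finset.mul_sum, ih1, ← Finset.mul_sum, ih2]
              ring
      simp only [e, Finset.sum_add_distrib, ← Finset.sum_mul, hp1]
      push_cast
      ring

theorem vote_bound (T : ℕ) (p g : O → ℝ) (hp : ∀ o, 0 ≤ p o) (hp1 : ∑ o, p o = 1) {μ : ℝ}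
    (hμ : ∑ o, p o * g o = μ) (hμ0 : 0 < μ) (hT : 1 ≤ T) :
    ∑ f : Fin T → O, (if ∑ i, g (f i) ≤ 0 then ∏ i, p (f i) else 0)
      ≤ (T * ∑ o, p o * g o ^ 2) / ((T : ℝ) * μ) ^ 2 := by
  have hT' : (0 : ℝ) < T := by exact_mod_cast hT
  set h : O → ℝ := fun o => g o - μ with hh
  have hh0 : ∑ o, p o * h o = 0 := by
    simp only [hh, mul_sub, Finset.sum_sub_distrib, ← Finset.sum_mul, hμ, hp1]
    ring
  have hvar : ∑ o, p o * h o ^ 2 ≤ ∑ o, p o * g o ^ 2 := by
    have e : ∀ o, p o * h o ^ 2 = p o * g o ^ 2 - 2 * μ * (p o * g o) + μ ^ 2 * p o :=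
      fun o => by simp only [hh]; ring
    simp only [e, Finset.sum_add_distrib, Finset.sum_sub_distrib, ← Finset.mul_sum, hμ, hp1]
    nlinarith [sq_nonneg μ]
  rw [le_div_iff₀ (by positivity), Finset.sum_mul]
  calc ∑ f : Fin T → O, (if ∑ i, g (f i) ≤ 0 then ∏ i, p (f i) else 0) * ((T : ℝ) * μ) ^ 2
      ≤ ∑ f : Fin T → O, (∏ i, p (f i)) * (∑ i, h (f i)) ^ 2 := by
        refine Finset.sum_le_sum fun f _ => ?_
        have hpf := Finset.prod_nonneg fun i (_ : i ∈ (univ : Finset (Fin T))) => hp (f i)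
        split_ifs with hf
        · refine mul_le_mul_of_nonneg_left ?_ hpf
          have hs : ∑ i, h (f i) = (∑ i, g (f i)) - T * μ := by
            simp [hh, Finset.sum_sub_distrib]
          rw [hs]
          have := mul_pos hT' hμ0
          nlinarith
        · rw [zero_mul]; exact mul_nonneg hpf (sq_nonneg _)
    _ ≤ _ := by
        rw [(moment_two T p h hp1 hh0).2]
        exact mul_le_mul_of_nonneg_left hvar hT'.le

end

end Vale.Agent.P372
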