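import Mathlib
import Vale.Agent.P372.Compose
import Vale.Agent.P372.Rep

/-!
A rare flag on Bob's side that Eve cannot resolve gives secret key.
-/

noncomputable section

open Matrix Finset
open scoped ComplexOrder Kronecker MatrixOrder

namespace Vale.Agent.P372

/-- The sign attached to a bit. -/
def sgn (x : ZMod 2) : ℝ := if x = 0 then 1 else -1

theorem sgn_zero : sgn 0 = 1 := rfl

theorem sgn_one : sgn 1 = -1 := if_neg (by decide)

theorem sgn_add (a b : ZMod 2) : sgn (a + b) = sgn a * sgn b := by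
  rcases zmod2_cases a with rfl | rfl <;> rcases zmod2_cases b with rfl | rfl <;>
    simp [sgn_zero, sgn_one, show (1 : ZMod 2) + 1 = 0 from by decide]

theorem exists_scale {ι : Type} [Fintype ι] [DecidableEq ι] {X : Matrix ι ι ℂ}
    (hX : X.IsHermitian) :
    ∃ ε : ℝ, 0 < ε ∧ ∀ t : ℝ, |t| ≤ ε → (1 + (t : ℂ) • X).PosSemidef := by
  set S : ℝ := 1 + ∑ i, |hX.eigenvalues i| with hS
  have hS0 : 0 < S := by
    have := Finset.sum_nonneg fun i (_ : i ∈ univ) => abs_nonneg (hX.eigenvalues i)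
    linarith
  refine ⟨1 / S, by positivity, fun t ht => ?_⟩
  set U : Matrix ι ι ℂ := (hX.eigenvectorUnitary : Matrix ι ι ℂ) with hU
  have hUU : U * Uᴴ = 1 := by
    rw [← star_eq_conjTranspose]; exact Unitary.coe_mul_star_self _
  have e : 1 + (t : ℂ) • X
      = U * diagonal (fun i => ((1 + t * hX.eigenvalues i : ℝ) : ℂ)) * Uᴴ := by
    have := hX.spectral_theorem
    rw [Unitary.conjStarAlgAut_apply] at this
    conv_lhs => rw [this, ← hUU]
    rw [show (diagonal fun i => ((1 + t * hX.eigenvalues i : ℝ) : ℂ))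
      = 1 + (t : ℂ) • diagonal (RCLike.ofReal ∘ hX.eigenvalues) from by
        ext i j
        rcases eq_or_ne i j with rfl | h
        · simp
        · simp [h]]
    rw [Matrix.mul_add, Matrix.add_mul, Matrix.mul_one, Matrix.mul_smul, Matrix.smul_mul,
      star_eq_conjTranspose]
  rw [e]
  refine (posSemidef_diagonal_iff.2 fun i => Complex.zero_le_real.2 ?_).mul_mul_conjTranspose_same U
  have h1 : |hX.eigenvalues i| ≤ S := by
    have := Finset.single_le_sum (fun i (_ : i ∈ univ) => abs_nonneg (hX.eigenvalues i)) (mem_univ i)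
    linarith
  have h2 : |t * hX.eigenvalues i| ≤ 1 := by
    rw [abs_mul]
    calc |t| * |hX.eigenvalues i| ≤ 1 / S * S := mul_le_mul ht h1 (abs_nonneg _) (by positivity)
      _ = 1 := by field_simp
  linarith [(abs_le.1 h2).1]

theorem exists_factorisation {ι κ μ : Type} [Fintype ι] [Fintype κ] [Fintype μ] [DecidableEq ι]
    [DecidableEq κ] [DecidableEq μ] (L : Matrix μ κ ℂ) (G : Matrix ι κ ℂ)
    (h : ∀ v, L *ᵥ v = 0 → G *ᵥ v = 0) : ∃ N : Matrix ι μ ℂ, G = N * L := by
  set f := Matrix.toLin' L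
  set g := Matrix.toLin' G
  have hle : LinearMap.ker f ≤ LinearMap.ker g := fun v hv => h v hv
  obtain ⟨φ, hφ⟩ := LinearMap.exists_extend
    (((LinearMap.ker f).liftQ g hle).comp f.quotKerEquivRange.symm.toLinearMap)
  refine ⟨LinearMap.toMatrix' φ, ?_⟩
  apply Matrix.toLin'.injective
  rw [Matrix.toLin'_mul, Matrix.toLin'_toMatrix']
  refine LinearMap.ext fun v => ?_
  have := LinearMap.congr_fun hφ ⟨f v, LinearMap.mem_range_self f v⟩
  simp [LinearMap.quotKerEquivRange_symm_apply_image] at this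
  exact this.symm

section
variable {A B E : Type} [Fintype A] [Fintype B] [Fintype E] [DecidableEq A] [DecidableEq B]
  [DecidableEq E]

/-- Alice's effect for one copy. -/
def effA (X : Matrix A A ℂ) (x : ZMod 2) : Matrix A A ℂ :=
  (1 / 2 : ℂ) • (1 + (sgn x : ℂ) • X)

/-- Bob's effect for one copy: rejected, accepted, or flagged. -/
def effB (Q F : Matrix B B ℂ) (s : ℝ) : Option Bool → Matrix B B ℂ
  | none => 1 - (Q + (s : ℂ) • F)
  | some false => Q
  | some true => (s : ℂ) • F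

/-- Eve's state of one copy given Alice's bit and the messages of that copy. -/
def copyState (G : Matrix (A × B) E ℂ) (X : Matrix A A ℂ) (Q F : Matrix B B ℂ) (s : ℝ)
    (k : ZMod 2) (z : Bool × Option (ZMod 2)) : Matrix E E ℂ :=
  ∑ x, ∑ y, if y.isSome = z.1 ∧ (if z.1 then some (x + k) else none) = z.2
    then op G (effA X x) (effB Q F s y) else 0

theorem blockState_pi (G : Matrix (A × B) E ℂ) (X : Matrix A A ℂ) (Q F : Matrix B B ℂ) (s : ℝ)
    (T : ℕ) (k : ZMod 2) (u : Fin T → Bool) (v : Fin T → Option (ZMod 2)) :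
    blockState (piG G (Fin T))
      (fun a : ZMod 2 × (Fin T → ZMod 2) => (1 / 2 : ℂ) • piMat fun i => effA X (a.2 i))
      (fun b : Fin T → Option Bool => piMat fun i => effB Q F s (b i))
      (fun b i => (b i).isSome) (fun a u i => if u i then some (a.2 i + a.1) else none)
      Prod.fst k u v
    = (1 / 2 : ℂ) • piMat fun i => copyState G X Q F s k (u i, v i) := by
  rw [blockState, Fintype.sum_prod_type, Finset.sum_eq_single k
    (fun K _ hK => Finset.sum_eq_zero fun x _ => Finset.sum_eq_zero fun b _ =>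
      if_neg fun h => hK h.1) (by simp)]
  have e1 : ∀ i, copyState G X Q F s k (u i, v i) = ∑ p : ZMod 2 × Option Bool,
      if p.2.isSome = u i ∧ (if u i then some (p.1 + k) else none) = v i
      then op G (effA X p.1) (effB Q F s p.2) else 0 := fun i => by
    rw [copyState, Fintype.sum_prod_type]
  rw [funext e1, piMat_sum,
    ← (Equiv.arrowProdEquivProdArrow (Fin T) (fun _ => ZMod 2) (fun _ => Option Bool)).symm.sum_comp,
    Fintype.sum_prod_type]
  simp only [Finset.smul_sum]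
  refine Finset.sum_congr rfl fun x _ => Finset.sum_congr rfl fun b _ => ?_
  rw [piMat_ite, smul_ite, smul_zero]
  split_ifs with h1 h2 h2
  · simp only [Equiv.arrowProdEquivProdArrow, Equiv.coe_fn_symm_mk, op_smul_left, op_pi]
  · exact absurd (by simpa [funext_iff, forall_and, Equiv.arrowProdEquivProdArrow] using h1) h2
  · exact absurd (by simpa [funext_iff, forall_and, Equiv.arrowProdEquivProdArrow] using h2) h1
  · rfl

theorem op_neg_left (G : Matrix (A × B) E ℂ) (M : Matrix A A ℂ) (N : Matrix B B ℂ) :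
    op G (-M) N = -op G M N := by
  simpa using op_smul_left G (-1) M N

theorem effA_add (X : Matrix A A ℂ) : effA X 0 + effA X 1 = 1 := by
  simp only [effA, sgn_zero, sgn_one]
  push_cast
  module

theorem povm_effA {X : Matrix A A ℂ} (hX1 : ∀ x, (1 + (sgn x : ℂ) • X).PosSemidef) :
    IsPOVM (effA X) := by
  refine ⟨fun x => (hX1 x).smul (by norm_num [Complex.le_def]), ?_⟩
  simp only [sum_zmod2, effA, sgn_zero, sgn_one]
  push_cast
  module

theorem copy_approx {G : Matrix (A × B) E ℂ} (hG : fsq G = 1) {X : Matrix A A ℂ}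
    {Q F : Matrix B B ℂ} (hX : X.IsHermitian) (hQ : Q.PosSemidef) (hF : F.PosSemidef)
    (hinv : op G X Q = 0)
    (hker : ∀ v, ((1 : Matrix A A ℂ) ⊗ₖ Q * G) *ᵥ v = 0 → G *ᵥ v = 0) :
    ∃ a b : ℝ, 0 ≤ a ∧ 0 ≤ b ∧ ∀ s : ℝ, 0 ≤ s → (1 - (Q + (s : ℂ) • F)).PosSemidef →
      ∃ (B0 B1 : Bool × Option (ZMod 2) → Matrix E (A × B) ℂ)
        (d0 d1 : Bool × Option (ZMod 2) → ℝ),
      (∀ z, Bnd (copyState G X Q F s 0 z - B0 z * (B0 z)ᴴ) (d0 z)) ∧
      (∀ z, Bnd (copyState G X Q F s 1 z - B1 z * (B1 z)ᴴ) (d1 z)) ∧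
      (∑ z, fsq (B0 z) = 1 + a * s ^ 2) ∧ (∑ z, fsq (B1 z) = 1 + a * s ^ 2) ∧
      (∑ z, d0 z ≤ a * s ^ 2) ∧ (∑ z, d1 z ≤ a * s ^ 2) ∧
      ∑ z, ∑ k, (star fun i => B0 z i k) ⬝ᵥ (fun i => B1 z i k)
        = ((1 + a * s ^ 2 - b * s ^ 2 : ℝ) : ℂ) := by
  obtain ⟨R, hR⟩ := exists_factor hQ
  set L : Matrix (A × B) E ℂ := ((1 : Matrix A A ℂ) ⊗ₖ Rᴴ) * G with hL
  have hLL : op G 1 Q = Lᴴ * L := by
    rw [op, hL, conjTranspose_mul, conjTranspose_kronecker, conjTranspose_one,
      conjTranspose_conjTranspose]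
    rw [show (1 : Matrix A A ℂ) ⊗ₖ Q = ((1 : Matrix A A ℂ) ⊗ₖ R) * ((1 : Matrix A A ℂ) ⊗ₖ Rᴴ) by
      rw [← mul_kronecker_mul, Matrix.one_mul, hR]]
    simp only [Matrix.mul_assoc]
  obtain ⟨Nm, hN⟩ := exists_factorisation L G fun v hv => hker v (by
    rw [show (1 : Matrix A A ℂ) ⊗ₖ Q * G = ((1 : Matrix A A ℂ) ⊗ₖ R) * L by
      rw [hL, ← Matrix.mul_assoc, ← mul_kronecker_mul, Matrix.one_mul, hR],
      ← mulVec_mulVec, hv, mulVec_zero])
  set H : Matrix (A × B) (A × B) ℂ := Nmᴴ * ((1 : Matrix A A ℂ) ⊗ₖ F) * Nm with hH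
  set W : Matrix (A × B) (A × B) ℂ := Nmᴴ * (X ⊗ₖ F) * Nm with hW
  have hop : ∀ M : Matrix A A ℂ, op G M F = Lᴴ * (Nmᴴ * (M ⊗ₖ F) * Nm) * L := by
    intro M
    rw [op]
    conv_lhs => rw [hN]
    rw [conjTranspose_mul]
    simp only [Matrix.mul_assoc]
  set K : ZMod 2 → Matrix (A × B) (A × B) ℂ := fun x => H + (sgn x : ℂ) • W with hK
  have hKH : ∀ x, (K x)ᴴ = K x := by
    intro x
    have hH' : Hᴴ = H := by
      rw [hH, conjTranspose_mul, conjTranspose_mul, conjTranspose_conjTranspose,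
        conjTranspose_kronecker, conjTranspose_one, hF.1.eq, Matrix.mul_assoc]
    have hW' : Wᴴ = W := by
      rw [hW, conjTranspose_mul, conjTranspose_mul, conjTranspose_conjTranspose,
        conjTranspose_kronecker, hX.eq, hF.1.eq, Matrix.mul_assoc]
    simp [hK, hH', hW']
  set M : ZMod 2 → Matrix E (A × B) ℂ := fun x => Lᴴ * K x with hM
  refine ⟨(fsq (M 0) + fsq (M 1)) / 8, fsq (M 0 - M 1) / 8,
    div_nonneg (add_nonneg (fsq_nonneg _) (fsq_nonneg _)) (by norm_num),
    div_nonneg (fsq_nonneg _) (by norm_num), fun s hs hR1 => ?_⟩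
  obtain ⟨R1, hR1'⟩ := exists_factor hR1
  set c : ℂ := (((Real.sqrt 2)⁻¹ : ℝ) : ℂ) with hc
  have hcs : (starRingEnd ℂ) c = c := Complex.conj_ofReal _
  have hcc : c * c = 1 / 2 := by
    rw [hc, ← Complex.ofReal_mul, ← mul_inv, Real.mul_self_sqrt (by norm_num)]
    norm_num
  set Bx : ZMod 2 → Matrix E (A × B) ℂ := fun x => c • (Lᴴ + ((s / 2 : ℝ) : ℂ) • M x) with hBx
  set rej : Matrix E (A × B) ℂ := Gᴴ * ((1 : Matrix A A ℂ) ⊗ₖ R1) with hrej
  set BB : ZMod 2 → Bool × Option (ZMod 2) → Matrix E (A × B) ℂ := fun k z =>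
    match z with
    | (false, none) => rej
    | (true, some m) => Bx (m + k)
    | _ => 0 with hBB
  set dd : ZMod 2 → Bool × Option (ZMod 2) → ℝ := fun k z =>
    match z with
    | (true, some m) => s ^ 2 / 8 * fsq (M (m + k))
    | _ => 0 with hdd
  have heff : effB Q F s (some false) + effB Q F s (some true) = Q + (s : ℂ) • F := rfl
  have hacc : ∀ x, op G (effA X x) (Q + (s : ℂ) • F)
      = Bx x * (Bx x)ᴴ - ((s ^ 2 / 8 : ℝ) : ℂ) • (M x * (M x)ᴴ) := by
    intro x
    have h1 : op G (effA X x) (Q + (s : ℂ) • F)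
        = (1 / 2 : ℂ) • (Lᴴ * L + (s : ℂ) • (Lᴴ * K x * L)) := by
      have h1F : op G 1 F = Lᴴ * H * L := hop 1
      have hXF : op G X F = Lᴴ * W * L := hop X
      simp only [effA, hK, op_smul_left, op_add_left, op_add_right, op_smul_right, hLL, hinv,
        h1F, hXF, smul_zero, add_zero, Matrix.mul_add, Matrix.add_mul, Matrix.mul_smul,
        Matrix.smul_mul, smul_add, smul_smul]
      module
    have e1 : Lᴴ * (Lᴴ * K x)ᴴ = Lᴴ * K x * L := by
      rw [Matrix.conjTranspose_mul Lᴴ (K x), hKH, conjTranspose_conjTranspose, ← Matrix.mul_assoc]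
    rw [h1]
    simp only [hBx, hM, conjTranspose_smul, conjTranspose_add, RCLike.star_def, hcs,
      Complex.conj_ofReal, Matrix.smul_mul, Matrix.mul_smul, smul_smul, hcc, Matrix.add_mul,
      Matrix.mul_add, conjTranspose_conjTranspose, e1]
    push_cast
    have hc2 : c ^ 2 = 1 / 2 := by rw [pow_two]; exact hcc
    match_scalars <;> ring_nf <;> simp only [hc2] <;> ring
  have hcopy : ∀ k z, Bnd (copyState G X Q F s k z - BB k z * (BB k z)ᴴ) (dd k z) := by
    intro k z
    obtain ⟨_ | _, _ | m⟩ := z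
    · have : copyState G X Q F s k (false, none) = rej * rejᴴ := by
        simp only [copyState, Fintype.sum_option, Fintype.sum_bool, Option.isSome_none,
          Option.isSome_some, Bool.false_eq_true, if_false, and_self, if_true, reduceCtorEq,
          false_and, add_zero]
        rw [← op_sum_left, show ∑ x, effA X x = 1 from (sum_zmod2 _).trans (effA_add X)]
        rw [op, effB, hR1', hrej, conjTranspose_mul, conjTranspose_kronecker, conjTranspose_one,
          conjTranspose_conjTranspose]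
        rw [show (1 : Matrix A A ℂ) ⊗ₖ (R1 * R1ᴴ)
          = ((1 : Matrix A A ℂ) ⊗ₖ R1) * ((1 : Matrix A A ℂ) ⊗ₖ R1ᴴ) by
          rw [← mul_kronecker_mul, Matrix.one_mul]]
        simp only [Matrix.mul_assoc]
      simpa [hBB, hdd, this] using bnd_zero
    · have : copyState G X Q F s k (false, some m) = 0 := by
        simp [copyState]
      simpa [hBB, hdd, this] using bnd_zero
    · have : copyState G X Q F s k (true, none) = 0 := by
        simp [copyState]
      simpa [hBB, hdd, this] using bnd_zero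
    · have : copyState G X Q F s k (true, some m) = op G (effA X (m + k)) (Q + (s : ℂ) • F) := by
        have hm : ∀ x : ZMod 2, x + k = m ↔ x = m + k := fun x => by
          rcases zmod2_cases x with rfl | rfl <;> rcases zmod2_cases k with rfl | rfl <;>
            rcases zmod2_cases m with rfl | rfl <;> decide
        simp only [copyState, Fintype.sum_option, Fintype.sum_bool, Option.isSome_none,
          Option.isSome_some, Bool.false_eq_true, false_and, if_false, zero_add, if_true,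
          true_and, Option.some.injEq, hm]
        simp [Finset.sum_add_distrib, op_add_right, add_comm, effB]
      rw [this, hacc]
      simp only [hBB, hdd]
      rw [sub_sub_cancel_left]
      have := bnd_neg (bnd_smul ((s ^ 2 / 8 : ℝ) : ℂ) (bnd_gram (M (m + k))))
      rw [Complex.norm_real, Real.norm_of_nonneg (by positivity)] at this
      exact this
  have hsum : ∀ (f : Bool × Option (ZMod 2) → ℂ), ∑ z, f z
      = f (false, none) + f (false, some 0) + f (false, some 1)
        + (f (true, none) + f (true, some 0) + f (true, some 1)) := by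
    intro f
    rw [Fintype.sum_prod_type, Fintype.sum_bool, Fintype.sum_option, Fintype.sum_option,
      sum_zmod2, sum_zmod2]
    ring
  have hsumR : ∀ (f : Bool × Option (ZMod 2) → ℝ), ∑ z, f z
      = f (false, none) + f (false, some 0) + f (false, some 1)
        + (f (true, none) + f (true, some 0) + f (true, some 1)) := by
    intro f
    rw [Fintype.sum_prod_type, Fintype.sum_bool, Fintype.sum_option, Fintype.sum_option,
      sum_zmod2, sum_zmod2]
    ring
  have hnorm : fsq rej + fsq (Bx 0) + fsq (Bx 1)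
      = 1 + (fsq (M 0) + fsq (M 1)) / 8 * s ^ 2 := by
    have ht : (op G 1 (1 - (Q + (s : ℂ) • F))).trace + (op G (effA X 0) (Q + (s : ℂ) • F)).trace
        + (op G (effA X 1) (Q + (s : ℂ) • F)).trace = 1 := by
      rw [add_assoc, ← trace_add, ← trace_add, ← op_add_left]
      rw [effA_add]
      rw [← op_add_right, sub_add_cancel, trace_op_one, hG, Complex.ofReal_one]
    have hr : op G 1 (1 - (Q + (s : ℂ) • F)) = rej * rejᴴ := by
      rw [op, hR1', hrej, conjTranspose_mul, conjTranspose_kronecker, conjTranspose_one,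
        conjTranspose_conjTranspose]
      rw [show (1 : Matrix A A ℂ) ⊗ₖ (R1 * R1ᴴ)
        = ((1 : Matrix A A ℂ) ⊗ₖ R1) * ((1 : Matrix A A ℂ) ⊗ₖ R1ᴴ) by
        rw [← mul_kronecker_mul, Matrix.one_mul]]
      simp only [Matrix.mul_assoc]
    simp only [hr, hacc, trace_sub, trace_smul, trace_mul_conjTranspose_self, smul_eq_mul] at ht
    have := congrArg Complex.re ht
    simp only [Complex.add_re, Complex.sub_re, Complex.ofReal_re, Complex.mul_re,
      Complex.ofReal_im, mul_zero, sub_zero, Complex.one_re] at this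
    linarith
  have hd : ∀ k, ∑ z, dd k z ≤ (fsq (M 0) + fsq (M 1)) / 8 * s ^ 2 := by
    intro k
    rw [hsumR]
    rcases zmod2_cases k with rfl | rfl <;>
      simp [hdd, show (1 : ZMod 2) + 1 = 0 from by decide] <;> linarith
  have hn : ∀ k, ∑ z, fsq (BB k z) = 1 + (fsq (M 0) + fsq (M 1)) / 8 * s ^ 2 := by
    intro k
    rw [← hnorm, hsumR]
    have h0 : fsq (0 : Matrix E (A × B) ℂ) = 0 := by simp [fsq, vsq]
    rcases zmod2_cases k with rfl | rfl <;>
      simp [hBB, h0, show (1 : ZMod 2) + 1 = 0 from by decide] <;> ring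
  refine ⟨BB 0, BB 1, dd 0, dd 1, hcopy 0, hcopy 1, hn 0, hn 1, hd 0, hd 1, ?_⟩
  have hin : ∀ P Q : Matrix E (A × B) ℂ, ∑ k, (star fun i => P i k) ⬝ᵥ (fun i => Q i k)
      = (Q * Pᴴ).trace := by
    intro P Q
    simp only [mul_conjTranspose_eq_sum, trace_sum, trace_vecMulVec]
    exact Finset.sum_congr rfl fun k _ => dotProduct_comm _ _
  simp only [hin]
  rw [hsum]
  simp only [hBB, show (0 : ZMod 2) + 0 = 0 from rfl, show (1 : ZMod 2) + 1 = 0 from by decide,
    add_zero, zero_add, Matrix.zero_mul, trace_zero]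
  have hdiff : ((Bx 0 - Bx 1) * (Bx 0 - Bx 1)ᴴ).trace
      = ((fsq (M 0 - M 1) / 8 * s ^ 2 : ℝ) : ℂ) := by
    have e : Bx 0 - Bx 1 = (c * ((s / 2 : ℝ) : ℂ)) • (M 0 - M 1) := by
      simp only [hBx]
      module
    rw [e, conjTranspose_smul, Matrix.smul_mul, Matrix.mul_smul, smul_smul, trace_smul,
      trace_mul_conjTranspose_self, smul_eq_mul, RCLike.star_def, map_mul, hcs, Complex.conj_ofReal,
      show c * ((s / 2 : ℝ) : ℂ) * (c * ((s / 2 : ℝ) : ℂ))
        = c * c * (((s / 2 : ℝ) : ℂ) * ((s / 2 : ℝ) : ℂ)) by ring, hcc]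
    push_cast
    ring
  simp only [conjTranspose_sub, Matrix.sub_mul, Matrix.mul_sub, trace_sub] at hdiff
  have hnc := congrArg Complex.ofReal hnorm
  push_cast at hnc
  simp only [trace_mul_conjTranspose_self] at hdiff ⊢
  push_cast at hdiff ⊢
  linear_combination hnc - hdiff

theorem pow_sub_pow_le {a b : ℝ} (hb : 0 ≤ b) (hab : b ≤ a) (ha : 1 ≤ a) (T : ℕ) :
    a ^ T - b ^ T ≤ T * (a - b) * a ^ T := by
  induction T with
  | zero => simp
  | succ T ih =>
    have h1 : b ^ T ≤ a ^ (T + 1) :=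
      (pow_le_pow_left₀ hb hab T).trans (pow_le_pow_right₀ ha (Nat.le_succ T))
    have h2 := mul_le_mul_of_nonneg_left h1 (sub_nonneg.2 hab)
    have h3 := mul_le_mul_of_nonneg_left ih (zero_le_one.trans ha)
    rw [pow_succ, pow_succ] at *
    push_cast
    linarith

theorem bob_error {G : Matrix (A × B) E ℂ} (hG : fsq G = 1) {X : Matrix A A ℂ}
    {Q F : Matrix B B ℂ} {s : ℝ} (hpA : IsPOVM (effA X)) (hpB : IsPOVM (effB Q F s)) (hs0 : 0 < s)
    (hC : 0 < (op G X F).trace.re) {T : ℕ} (hT : 0 < T) {η : ℝ}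
    (hbound : (op G 1 F).trace.re ≤ η * ((op G X F).trace.re ^ 2 * ((T : ℝ) * s))) :
    ∑ a : ZMod 2 × (Fin T → ZMod 2), ∑ b : Fin T → Option Bool,
      (if (if 0 < ∑ i, (if b i = some true
              then ((if (b i).isSome then some (a.2 i + a.1) else none)).elim 0 sgn else 0)
            then (0 : ZMod 2) else 1) = a.1 then 0
        else (op (piG G (Fin T)) ((1 / 2 : ℂ) • piMat fun i => effA X (a.2 i))
          (piMat fun i => effB Q F s (b i))).trace.re) ≤ η := by
  set C := (op G X F).trace.re with hCdef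
  set f₀ := (op G 1 F).trace.re with hf₀
  set p : ZMod 2 × Option Bool → ℝ :=
    fun o => (op G (effA X o.1) (effB Q F s o.2)).trace.re with hp
  set g : ZMod 2 × Option Bool → ℝ := fun o => if o.2 = some true then sgn o.1 else 0 with hg
  have hp0 : ∀ o, 0 ≤ p o := fun o =>
    (Complex.le_def.1 (op_posSemidef G (hpA.1 _) (hpB.1 _)).trace_nonneg).1
  have hp1 : ∑ o, p o = 1 := by
    have := congrArg (fun M => M.trace.re) (sum_op hpA hpB G)
    simp only [trace_sum, Complex.re_sum, trace_op_one, hG, Complex.ofReal_one,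
      Complex.one_re] at this
    rw [Fintype.sum_prod_type]
    exact this
  have hμ : ∑ o, p o * g o = s * C := by
    rw [Fintype.sum_prod_type, sum_zmod2]
    simp [hp, hg, Fintype.sum_option, effA, effB, sgn_zero, sgn_one, op_smul_left, op_add_left,
      op_smul_right, op_neg_left, Complex.mul_re, hCdef, -Complex.coe_smul]
    ring
  have hg2 : ∑ o, p o * g o ^ 2 = s * f₀ := by
    rw [Fintype.sum_prod_type, sum_zmod2]
    simp [hp, hg, Fintype.sum_option, effA, effB, sgn_zero, sgn_one, op_smul_left, op_add_left,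
      op_smul_right, op_neg_left, Complex.mul_re, hf₀, -Complex.coe_smul]
    ring
  have hvote := vote_bound T p g hp0 hp1 hμ (mul_pos hs0 hC) hT
  rw [hg2] at hvote
  have hT' : (0 : ℝ) < T := by exact_mod_cast hT
  have hb : (T : ℝ) * (s * f₀) / ((T : ℝ) * (s * C)) ^ 2 ≤ η := by
    rw [div_le_iff₀ (by positivity)]
    have := mul_le_mul_of_nonneg_left hbound (mul_pos hT' hs0).le
    linarith
  refine le_trans ?_ (hvote.trans hb)
  rw [Fintype.sum_prod_type, sum_zmod2]
  have hK : ∀ (K : ZMod 2) (x : Fin T → ZMod 2) (y : Fin T → Option Bool),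
      (if (if 0 < ∑ i, (if y i = some true
              then ((if (y i).isSome then some (x i + K) else none)).elim 0 sgn else 0)
            then (0 : ZMod 2) else 1) = K then 0
        else (op (piG G (Fin T)) ((1 / 2 : ℂ) • piMat fun i => effA X (x i))
          (piMat fun i => effB Q F s (y i))).trace.re)
      ≤ 1 / 2 * if ∑ i, g (x i, y i) ≤ 0 then ∏ i, p (x i, y i) else 0 := by
    intro K x y
    have htr : (op (piG G (Fin T)) ((1 / 2 : ℂ) • piMat fun i => effA X (x i))
        (piMat fun i => effB Q F s (y i))).trace.re = 1 / 2 * ∏ i, p (x i, y i) := by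
      rw [op_smul_left, op_pi, trace_smul, piMat_trace,
        Finset.prod_congr rfl fun i _ => trace_real (op_posSemidef G (hpA.1 _) (hpB.1 _)),
        ← Complex.ofReal_prod, smul_eq_mul, show (1 / 2 : ℂ) = ((1 / 2 : ℝ) : ℂ) by norm_num,
        ← Complex.ofReal_mul, Complex.ofReal_re]
    have hscore : (∑ i, (if y i = some true
        then ((if (y i).isSome then some (x i + K) else none)).elim 0 sgn else 0))
        = sgn K * ∑ i, g (x i, y i) := by
      rw [Finset.mul_sum]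
      refine Finset.sum_congr rfl fun i _ => ?_
      simp only [hg]
      split_ifs with h1 h2
      · simp [sgn_add, mul_comm]
      · simp [h1] at h2
      · simp
    have hprod : 0 ≤ ∏ i, p (x i, y i) := Finset.prod_nonneg fun i _ => hp0 _
    rw [htr, hscore]
    rcases zmod2_cases K with rfl | rfl
    · simp only [sgn_zero, one_mul]
      split_ifs with h1 h2 h3 h4 h5 <;> first | exact le_rfl | linarith | simp_all
    · simp only [sgn_one, neg_mul, one_mul]
      split_ifs with h1 h2 h3 h4 h5 <;> first | exact le_rfl | linarith | simp_all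
  refine le_trans (add_le_add (Finset.sum_le_sum fun x _ => Finset.sum_le_sum fun y _ => hK 0 x y)
    (Finset.sum_le_sum fun x _ => Finset.sum_le_sum fun y _ => hK 1 x y)) (le_of_eq ?_)
  rw [← (Equiv.arrowProdEquivProdArrow (Fin T) (fun _ => ZMod 2)
    (fun _ => Option Bool)).symm.sum_comp, Fintype.sum_prod_type, ← Finset.sum_add_distrib]
  refine Finset.sum_congr rfl fun x _ => ?_
  rw [← Finset.sum_add_distrib]
  refine Finset.sum_congr rfl fun y _ => ?_
  rw [show ∀ r : ℝ, 1 / 2 * r + 1 / 2 * r = r from fun r => by ring]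
  exact if_congr Iff.rfl rfl rfl

theorem eve_arith {a b s η c : ℝ} {j T : ℕ} (ha : 0 ≤ a) (hb : 0 ≤ b) (hη : 0 < η)
    (hj2 : 2 ≤ (j : ℝ)) (hjb : b ≤ j) (hs0 : 0 < s) (hs2 : s ≤ 1 / 2)
    (hsdef : s = 1 / (j : ℝ) ^ 2) (hTs2 : (T : ℝ) * s ^ 2 = 1 / j)
    (hja : 2 * a * Real.exp (2 * a) / η ≤ j)
    (hjη : 8 * b * Real.exp (2 * a) ^ 2 / η ^ 2 ≤ j)
    (hc : c ≤ 2 * ((1 + a * s ^ 2 + a * s ^ 2) ^ T - (1 + a * s ^ 2) ^ T)
      + Real.sqrt (4 * (1 + a * s ^ 2) ^ T)
        * Real.sqrt (2 * (1 + a * s ^ 2) ^ T - 2 * (1 + a * s ^ 2 - b * s ^ 2) ^ T)) :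
    1 / 2 * c ≤ η := by
  have hj0 : (0 : ℝ) < j := by linarith
  set M := Real.exp (2 * a) with hM
  set N : ℝ := 1 + a * s ^ 2 with hN
  have has : 0 ≤ a * s ^ 2 := by positivity
  have hbs : b * s ^ 2 ≤ 1 := by
    have h1 : b * s ≤ 1 := by
      rw [hsdef, mul_one_div, div_le_one (by positivity)]
      nlinarith
    calc b * s ^ 2 = b * s * s := by ring
      _ ≤ 1 * 1 := mul_le_mul h1 (by linarith) hs0.le zero_le_one
      _ = 1 := one_mul 1
  have hMb : (N + a * s ^ 2) ^ T ≤ M := by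
    refine (pow_le_pow_left₀ (by positivity)
      (show N + a * s ^ 2 ≤ Real.exp (2 * a * s ^ 2) by
        have := Real.add_one_le_exp (2 * a * s ^ 2)
        linarith) T).trans ?_
    rw [← Real.exp_nat_mul, hM, Real.exp_le_exp, show (T : ℝ) * (2 * a * s ^ 2)
      = 2 * a * ((T : ℝ) * s ^ 2) by ring, hTs2, mul_one_div, div_le_iff₀ hj0]
    nlinarith
  have hNM : N ^ T ≤ M := (pow_le_pow_left₀ (by positivity) (by linarith) T).trans hMb
  have h1 : (N + a * s ^ 2) ^ T - N ^ T ≤ η / 2 := by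
    refine (pow_sub_pow_le (by positivity) (by linarith) (by linarith) T).trans ?_
    calc (T : ℝ) * (N + a * s ^ 2 - N) * (N + a * s ^ 2) ^ T
        ≤ (T : ℝ) * (N + a * s ^ 2 - N) * M := mul_le_mul_of_nonneg_left hMb (by
          rw [add_sub_cancel_left]; positivity)
      _ = a * M / j := by
        rw [add_sub_cancel_left, show (T : ℝ) * (a * s ^ 2) = a * ((T : ℝ) * s ^ 2) by ring,
          hTs2]
        ring
      _ ≤ η / 2 := by
        rw [div_le_iff₀ hη] at hja
        rw [div_le_iff₀ hj0]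
        linarith
  have h2 : N ^ T - (N - b * s ^ 2) ^ T ≤ b * M / j := by
    refine (pow_sub_pow_le (by linarith) (by linarith [mul_nonneg hb (sq_nonneg s)])
      (by linarith) T).trans ?_
    calc (T : ℝ) * (N - (N - b * s ^ 2)) * N ^ T
        ≤ (T : ℝ) * (N - (N - b * s ^ 2)) * M := mul_le_mul_of_nonneg_left hNM (by
          rw [sub_sub_cancel]; positivity)
      _ = b * M / j := by
        rw [sub_sub_cancel, show (T : ℝ) * (b * s ^ 2) = b * ((T : ℝ) * s ^ 2) by ring, hTs2]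
        ring
  have h3 : Real.sqrt (4 * N ^ T) * Real.sqrt (2 * N ^ T - 2 * (N - b * s ^ 2) ^ T) ≤ η := by
    rw [← Real.sqrt_mul (by positivity)]
    refine (Real.sqrt_le_left hη.le).2 ?_
    have h4 : 0 ≤ N ^ T - (N - b * s ^ 2) ^ T := sub_nonneg.2
      (pow_le_pow_left₀ (by linarith) (by linarith [mul_nonneg hb (sq_nonneg s)]) T)
    calc 4 * N ^ T * (2 * N ^ T - 2 * (N - b * s ^ 2) ^ T)
        ≤ 4 * M * (2 * (b * M / j)) := mul_le_mul (by linarith) (by linarith) (by linarith)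
          (by positivity)
      _ = 8 * b * M ^ 2 / j := by ring
      _ ≤ η ^ 2 := by
        rw [div_le_iff₀ (by positivity)] at hjη
        rw [div_le_iff₀ hj0]
        linarith
  linarith

theorem block_exists {G : Matrix (A × B) E ℂ} (hG : fsq G = 1) {X : Matrix A A ℂ}
    {Q F : Matrix B B ℂ} (hX : X.IsHermitian) (hQ : Q.PosSemidef) (hF : F.PosSemidef)
    (hX1 : ∀ x, (1 + (sgn x : ℂ) • X).PosSemidef)
    (hQ1 : ((1 / 2 : ℂ) • (1 : Matrix B B ℂ) - Q).PosSemidef) (hF1 : (1 - F).PosSemidef)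
    (hinv : op G X Q = 0)
    (hker : ∀ v, ((1 : Matrix A A ℂ) ⊗ₖ Q * G) *ᵥ v = 0 → G *ᵥ v = 0)
    (hC : 0 < (op G X F).trace.re) {η : ℝ} (hη : 0 < η) :
    ∃ T : ℕ, 0 < T ∧ ∀ (L m ℓ q : ℕ) (H : Fin m → Fin L → ZMod 2) (V : Fin ℓ → Fin L → ZMod 2),
      η ≤ 1 → (∀ z, syn H z = 0 → wt z ≤ 2 * q → z = 0) →
      (∀ wh wv, wt (comb wh H + comb wv V) < q → wh = 0 ∧ wv = 0) →
      Ach (piG (piG G (Fin T)) (Fin L)) ℓ
        (2 * ((1 + 63 * η) ^ L / 64 ^ q) + 2 ^ (m + ℓ) * η ^ q) := by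
  obtain ⟨a, b, ha, hb, happ⟩ := copy_approx hG hX hQ hF hinv hker
  set C := (op G X F).trace.re with hCdef
  set f₀ := (op G 1 F).trace.re with hf₀
  have hf0 : 0 ≤ f₀ :=
    (Complex.le_def.1 (op_posSemidef G PosSemidef.one hF).trace_nonneg).1
  set M := Real.exp (2 * a) with hM
  obtain ⟨j, hj⟩ := exists_nat_ge (max (max 2 b)
    (max (f₀ / (C ^ 2 * η)) (max (2 * a * M / η) (8 * b * M ^ 2 / η ^ 2))))
  simp only [max_le_iff] at hj
  obtain ⟨⟨hj2, hjb⟩, hjf, hja, hjη⟩ := hj
  have hj0 : (0 : ℝ) < j := by linarith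
  set s : ℝ := 1 / (j : ℝ) ^ 2 with hsdef
  set T : ℕ := j ^ 3 with hTdef
  have hTs : (T : ℝ) * s = j := by
    rw [hsdef, hTdef]; push_cast; field_simp
  have hTs2 : (T : ℝ) * s ^ 2 = 1 / j := by
    rw [hsdef, hTdef]; push_cast; field_simp
  have hs0 : 0 < s := by positivity
  have hs2 : s ≤ 1 / 2 := by
    rw [hsdef, div_le_div_iff₀ (by positivity) two_pos]
    nlinarith
  have hT : 0 < T := pow_pos (by exact_mod_cast hj0) 3
  have hR1 : (1 - (Q + (s : ℂ) • F)).PosSemidef := by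
    have e : 1 - (Q + (s : ℂ) • F) = ((1 / 2 : ℂ) • (1 : Matrix B B ℂ) - Q)
        + ((((1 / 2 - s : ℝ)) : ℂ) • (1 : Matrix B B ℂ) + (s : ℂ) • (1 - F)) := by
      push_cast; module
    rw [e]
    exact hQ1.add ((PosSemidef.one.smul (Complex.zero_le_real.2 (by linarith))).add
      (hF1.smul (Complex.zero_le_real.2 hs0.le)))
  refine ⟨T, hT, fun L m ℓ q H V hη1 hH hV => ?_⟩
  set MA : ZMod 2 × (Fin T → ZMod 2) → Matrix (Fin T → A) (Fin T → A) ℂ :=
    fun p => (1 / 2 : ℂ) • piMat fun i => effA X (p.2 i) with hMA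
  set MB : (Fin T → Option Bool) → Matrix (Fin T → B) (Fin T → B) ℂ :=
    fun p => piMat fun i => effB Q F s (p i) with hMB
  have hpA : IsPOVM (effA X) := povm_effA hX1
  have hpB : IsPOVM (effB Q F s) := by
    refine ⟨fun y => ?_, ?_⟩
    · rcases y with _ | _ | _
      · exact hR1
      · exact hQ
      · exact hF.smul (Complex.zero_le_real.2 hs0.le)
    · simp [Fintype.sum_option, effB]
      abel
  have hA : IsPOVM MA := by
    refine ⟨fun p => (piMat_posSemidef fun i => hpA.1 _).smul (by norm_num [Complex.le_def]), ?_⟩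
    have h := (povm_pi (I := Fin T) hpA).2
    simp only [hMA, Fintype.sum_prod_type, ← Finset.smul_sum, h]
    rw [sum_zmod2]
    module
  have hB : IsPOVM MB := povm_pi hpB
  set guess : (Fin T → Option Bool) → (Fin T → Option (ZMod 2)) → ZMod 2 := fun y v =>
    if 0 < ∑ i, (if y i = some true then (v i).elim 0 sgn else 0) then 0 else 1 with hguess
  obtain ⟨B0, B1, d0, d1, hb0, hb1, hn0, hn1, hd0, hd1, hP⟩ := happ s hs0.le hR1
  obtain ⟨cf, hcf, hcfsum⟩ := rep_bound (I := Fin T) _ _ B0 B1 hb0 hb1 hn0 hn1 hd0 hd1 hP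
  refine ach_code (fun b i => (b i).isSome)
    (fun p u i => if u i then some (p.2 i + p.1) else none) Prod.fst H V (fsq_piG G hG) hA hB
    guess hη.le hη1 ?_ (cu := fun u v => 1 / 2 * cf fun i => (u i, v i)) ?_ ?_ hH hV
  · refine bob_error hG hpA hpB hs0 hC hT ?_
    rw [← hf₀, ← hCdef, hTs]
    rw [div_le_iff₀ (by positivity)] at hjf
    linarith
  · intro u v
    rw [hMA, hMB, blockState_pi, blockState_pi, ← smul_sub]
    have := bnd_smul (1 / 2 : ℂ) (hcf fun i => (u i, v i))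
    simpa using this
  · have e : ∑ u : Fin T → Bool, ∑ v : Fin T → Option (ZMod 2),
        1 / 2 * cf (fun i => (u i, v i)) = 1 / 2 * ∑ f, cf f := by
      rw [← (Equiv.arrowProdEquivProdArrow (Fin T) (fun _ => Bool)
        (fun _ => Option (ZMod 2))).symm.sum_comp, Fintype.sum_prod_type, Finset.mul_sum]
      refine Finset.sum_congr rfl fun u _ => ?_
      rw [Finset.mul_sum]
      rfl
    rw [e]
    rw [Fintype.card_fin] at hcfsum
    exact eve_arith ha hb hη hj2 hjb hs0 hs2 hsdef hTs2 hja hjη hcfsum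

theorem keys_exist {G : Matrix (A × B) E ℂ} (hG : fsq G = 1) {X : Matrix A A ℂ}
    {Q F : Matrix B B ℂ} (hX : X.IsHermitian) (hQ : Q.PosSemidef) (hF : F.PosSemidef)
    (hX1 : ∀ x, (1 + (sgn x : ℂ) • X).PosSemidef)
    (hQ1 : ((1 / 2 : ℂ) • (1 : Matrix B B ℂ) - Q).PosSemidef) (hF1 : (1 - F).PosSemidef)
    (hinv : op G X Q = 0)
    (hker : ∀ v, ((1 : Matrix A A ℂ) ⊗ₖ Q * G) *ᵥ v = 0 → G *ᵥ v = 0)
    (hC : 0 < (op G X F).trace.re) :
    ∃ c : ℝ, 0 < c ∧ ∀ ε : ℝ, 0 < ε →
      ∃ N : ℕ, ∀ n, N ≤ n → ∃ ℓ : ℕ, c * n ≤ ℓ ∧ Ach (piG G (Fin n)) ℓ ε := by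
  obtain ⟨T, hT, hblock⟩ := block_exists hG hX hQ hF hX1 hQ1 hF1 hinv hker hC
    (η := 1 / 2 ^ 26) (by norm_num)
  refine ⟨1 / (16 * T), by positivity, fun ε hε => ?_⟩
  obtain ⟨q₀, hq₀⟩ := exists_pow_lt_of_lt_one (x := ε / 3) (by positivity)
    (y := (1 / 4 : ℝ)) (by norm_num)
  refine ⟨64 * T * (q₀ + 1), fun n hn => ?_⟩
  set q := n / (64 * T) with hqdef
  have hq : q₀ + 1 ≤ q := (Nat.le_div_iff_mul_le (by positivity)).2 (by linarith)
  refine ⟨8 * q, ?_, ?_⟩
  · have h1 : n < 64 * T * (q + 1) := by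
      have := Nat.lt_div_mul_add (a := n) (show 0 < 64 * T by positivity)
      rw [← hqdef] at this
      linarith
    have h2 : (n : ℝ) ≤ 64 * T * (q + 1) := by exact_mod_cast h1.le
    have h3 : (1 : ℝ) ≤ q := by exact_mod_cast (Nat.succ_le_of_lt (by omega : 0 < q))
    rw [div_mul_eq_mul_div, one_mul, div_le_iff₀ (by positivity)]
    push_cast
    have := mul_le_mul_of_nonneg_left h3 (by positivity : (0 : ℝ) ≤ T)
    nlinarith
  · obtain ⟨H, V, hH, hV⟩ := exists_code q (by omega)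
    have h := hblock (64 * q) (16 * q) (8 * q) q H V (by norm_num) hH hV
    have herr : 2 * ((1 + 63 * (1 / 2 ^ 26 : ℝ)) ^ (64 * q) / 64 ^ q)
        + 2 ^ (16 * q + 8 * q) * (1 / 2 ^ 26 : ℝ) ^ q ≤ ε := by
      have e1 : (1 + 63 * (1 / 2 ^ 26 : ℝ)) ^ (64 * q) / 64 ^ q ≤ (1 / 4 : ℝ) ^ q := by
        rw [pow_mul, ← div_pow]
        refine pow_le_pow_left₀ (by positivity) ?_ q
        rw [div_le_iff₀ (by norm_num)]
        calc (1 + 63 * (1 / 2 ^ 26 : ℝ)) ^ 64 ≤ (1 + 1 / 64) ^ 64 :=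
              pow_le_pow_left₀ (by positivity) (by norm_num) 64
          _ ≤ _ := by norm_num
      have e2 : (2 : ℝ) ^ (16 * q + 8 * q) * (1 / 2 ^ 26 : ℝ) ^ q = (1 / 4 : ℝ) ^ q := by
        rw [show 16 * q + 8 * q = 24 * q by ring, pow_mul, ← mul_pow]
        norm_num
      have e3 : (1 / 4 : ℝ) ^ q ≤ (1 / 4 : ℝ) ^ q₀ :=
        pow_le_pow_of_le_one (by norm_num) (by norm_num) (by omega)
      linarith
    have hle : 64 * q * T ≤ n := by
      have := Nat.div_mul_le_self n (64 * T)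
      rw [← hqdef] at this
      linarith
    set e : (Fin (64 * q) × Fin T) ⊕ Fin (n - 64 * q * T) ≃ Fin n :=
      (Equiv.sumCongr finProdFinEquiv (Equiv.refl _)).trans
        (finSumFinEquiv.trans (finCongr (by omega))) with he
    obtain ⟨a', b', s', t', MA, MB, fB, fA, kA, kB, σ, cost, h1, h2, h3, h4, h5, h6⟩ := h
    have hmono : Ach (piG (piG G (Fin T)) (Fin (64 * q))) (8 * q) ε :=
      ⟨a', b', s', t', MA, MB, fB, fA, kA, kB, σ, cost, h1, h2, h3, h4, h5, h6.trans herr⟩
    have hext := ach_extend hmono (G' := piG G (Fin (n - 64 * q * T))) (fsq_piG G hG)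
    let sp : ∀ (α : Type), (Fin n → α) ≃
        (Fin (64 * q) → Fin T → α) × (Fin (n - 64 * q * T) → α) := fun α =>
      (Equiv.arrowCongr e.symm (Equiv.refl α)).trans ((Equiv.sumArrowEquivProdArrow _ _ α).trans
        ((Equiv.curry _ _ α).prodCongr (Equiv.refl _)))
    have := ach_reindex (sp A) (sp B) (sp E) hext
    convert this using 1
    ext i x
    simp only [piG, Matrix.of_apply, submatrix_apply, id_eq, kroneckerMap_apply]
    rw [← e.prod_comp, Fintype.prod_sum_type, Fintype.prod_prod_type]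
    rfl

end

end Vale.Agent.P372
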