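import Mathlib
import Vale.Agent.P372.Flag

/-!
The general criterion.
-/

noncomputable section

open Matrix Finset
open scoped ComplexOrder Kronecker

namespace Vale.Agent.P372

section
variable {D E : Type} [Fintype D] [Fintype E] [DecidableEq D] [DecidableEq E]

theorem cancel_left {G : Matrix D E ℂ} {F : Type} [Fintype F] [DecidableEq F] {Z : Matrix D F ℂ}
    (h : G * Gᴴ * Z = 0) : Gᴴ * Z = 0 := by
  refine conjTranspose_mul_self_eq_zero.1 ?_
  rw [conjTranspose_mul, conjTranspose_conjTranspose, Matrix.mul_assoc, ← Matrix.mul_assoc G, h,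
    Matrix.mul_zero]

theorem sandwich_zero {G : Matrix D E ℂ} {M : Matrix D D ℂ} (hM : Mᴴ = M)
    (h : G * Gᴴ * M * (G * Gᴴ) = 0) : Gᴴ * M * G = 0 := by
  have h1 : Gᴴ * (M * (G * Gᴴ)) = 0 := cancel_left (by rw [← Matrix.mul_assoc, h])
  have h2 : G * Gᴴ * (M * G) = 0 := by
    have := congrArg conjTranspose h1
    simpa [conjTranspose_mul, hM, Matrix.mul_assoc] using this
  rw [Matrix.mul_assoc]
  exact cancel_left h2

theorem mem_range_of_factor (G : Matrix D E ℂ) (w : E → ℂ) : ∃ v, (G * Gᴴ) *ᵥ v = G *ᵥ w := by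
  have hle : LinearMap.range (G * Gᴴ).mulVecLin ≤ LinearMap.range G.mulVecLin := by
    rw [Matrix.mulVecLin_mul]
    exact LinearMap.range_comp_le_range _ _
  have heq := Submodule.eq_of_le_of_finrank_eq hle (rank_self_mul_conjTranspose G)
  have : G *ᵥ w ∈ LinearMap.range (G * Gᴴ).mulVecLin := heq ▸ ⟨w, rfl⟩
  exact this

end

theorem ach_to_key {dA dB r : ℕ} {G : Matrix (Fin dA × Fin dB) (Fin r) ℂ} {n ℓ : ℕ} {ε : ℝ}
    (h : Ach (piG G (Fin n)) ℓ ε) : KeyWithError G n ℓ ε := by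
  obtain ⟨a, b, s, t, MA, MB, fB, fA, kA, kB, σ, cost, hA, hB, hσ, hσ1, hc, hs⟩ := h
  refine ⟨a, b, s, t, MA, MB, fB, fA, kA, kB, fun u v => (σ u v)ᵀ, hA, hB,
    fun u v => (hσ u v).transpose, by simpa using hσ1, ?_⟩
  refine le_trans (Finset.sum_le_sum fun x _ => Finset.sum_le_sum fun y _ =>
    Finset.sum_le_sum fun u _ => Finset.sum_le_sum fun v _ => traceNorm_le ?_) hs
  convert bnd_transpose (hc x y u v) using 1
  simp only [keyState, kState, transpose_sub, transpose_sum]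
  congr 1
  · exact Finset.sum_congr rfl fun i _ => Finset.sum_congr rfl fun j _ => by
      split_ifs
      · rfl
      · simp
  · split_ifs <;> simp

theorem criterion {dA dB : ℕ} {ρ : Matrix (Fin dA × Fin dB) (Fin dA × Fin dB) ℂ} (hρ : IsState ρ)
    {X : Matrix (Fin dA) (Fin dA) ℂ} {Q : Matrix (Fin dB) (Fin dB) ℂ} (hX : X.IsHermitian)
    (hQ : Q.PosSemidef) (hinv : ρ * (X ⊗ₖ Q) * ρ = 0)
    (hker : ∀ v, ((1 : Matrix (Fin dA) (Fin dA) ℂ) ⊗ₖ Q) *ᵥ (ρ *ᵥ v) = 0 → ρ *ᵥ v = 0)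
    (hY : ∃ Y : Matrix (Fin dB) (Fin dB) ℂ, Y.IsHermitian ∧ (ρ * (X ⊗ₖ Y)).trace.re ≠ 0) :
    HasPositiveKey ρ := by
  obtain ⟨Y, hYh, hYne⟩ := hY
  constructor
  · obtain ⟨R, hR⟩ := exists_factor hρ.1
    refine ⟨dA * dB, R.submatrix (Equiv.refl _) finProdFinEquiv.symm, ?_⟩
    rw [conjTranspose_submatrix, submatrix_mul_equiv, ← hR]
    simp
  intro r G hG
  have hG1 : fsq G = 1 := by
    have := trace_mul_conjTranspose_self G
    rw [hG, hρ.2] at this
    exact_mod_cast this.symm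
  have htr : ∀ M N, (op G M N).trace = (ρ * (M ⊗ₖ N)).trace := fun M N => by
    rw [op, trace_mul_cycle, hG]
  obtain ⟨ε₁, hε₁, hY1⟩ := exists_scale hYh
  obtain ⟨F₀, hF₀, hC₀⟩ : ∃ F : Matrix (Fin dB) (Fin dB) ℂ, F.PosSemidef ∧
      (op G X F).trace.re ≠ 0 := by
    by_cases h1 : (op G X 1).trace.re = 0
    · refine ⟨1 + (ε₁ : ℂ) • Y, hY1 ε₁ (abs_of_pos hε₁).le, ?_⟩
      rw [op_add_right, op_smul_right, trace_add, trace_smul, Complex.add_re, h1, zero_add,
        smul_eq_mul, Complex.re_ofReal_mul, htr]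
      exact mul_ne_zero hε₁.ne' hYne
    · exact ⟨1, PosSemidef.one, h1⟩
  obtain ⟨ε₂, hε₂, hF1⟩ := exists_scale hF₀.1
  obtain ⟨ε₃, hε₃, hQ1⟩ := exists_scale hQ.1
  obtain ⟨ε₄, hε₄, hX1⟩ := exists_scale hX
  set C₀ := (op G X F₀).trace.re with hC₀def
  set σ : ℝ := if 0 < C₀ then ε₄ else -ε₄ with hσdef
  obtain ⟨c, hc, hkeys⟩ := keys_exist hG1 (X := (σ : ℂ) • X) (Q := ((ε₃ / 2 : ℝ) : ℂ) • Q)
    (F := (ε₂ : ℂ) • F₀) (hX.smul (Complex.conj_ofReal σ)) (hQ.smul (Complex.zero_le_real.2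
      (by positivity))) (hF₀.smul (Complex.zero_le_real.2 hε₂.le))
    (fun x => by
      rw [smul_smul, ← Complex.ofReal_mul]
      refine hX1 _ ?_
      rw [abs_mul]
      have : |sgn x| = 1 := by rcases zmod2_cases x with rfl | rfl <;> simp [sgn_zero, sgn_one]
      rw [this, one_mul, hσdef]
      split_ifs <;> simp [abs_of_pos hε₄])
    (by
      have h := (hQ1 (-ε₃) (by simp [abs_of_pos hε₃])).smul
        (show (0 : ℂ) ≤ (1 / 2 : ℂ) by norm_num [Complex.le_def])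
      convert h using 1
      push_cast
      module)
    (by
      have h := hF1 (-ε₂) (by simp [abs_of_pos hε₂])
      convert h using 1
      push_cast
      module)
    (by
      have hM : (X ⊗ₖ Q)ᴴ = X ⊗ₖ Q := by rw [conjTranspose_kronecker, hX.eq, hQ.1.eq]
      rw [op_smul_left, op_smul_right]
      simp [op, sandwich_zero hM (by rw [hG]; exact hinv)])
    (fun v hv => by
      obtain ⟨w, hw⟩ := mem_range_of_factor G v
      rw [hG] at hw
      rw [← hw]
      refine hker w ?_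
      rw [hw]
      rw [kronecker_smul, Matrix.smul_mul, smul_mulVec, smul_eq_zero] at hv
      rw [mulVec_mulVec]
      refine hv.resolve_left ?_
      exact_mod_cast (by positivity : (ε₃ / 2 : ℝ) ≠ 0))
    (by
      have e : (op G ((σ : ℂ) • X) ((ε₂ : ℂ) • F₀)).trace.re = σ * (ε₂ * C₀) := by
        simp [op_smul_left, op_smul_right, hC₀def, Complex.mul_re, -Complex.coe_smul]
        ring
      rw [e, hσdef]
      split_ifs with h
      · positivity
      · rw [neg_mul, ← mul_neg, ← mul_neg]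
        have : 0 < -C₀ := neg_pos.2 (lt_of_le_of_ne (not_lt.1 h) hC₀)
        positivity)
  refine ⟨c, hc, fun ε hε => ?_⟩
  obtain ⟨N, hN⟩ := hkeys ε hε
  refine ⟨N, fun n hn => ?_⟩
  obtain ⟨ℓ, hℓ, hach⟩ := hN n hn
  exact ⟨ℓ, hℓ, ach_to_key hach⟩

end Vale.Agent.P372
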