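import Mathlib
import Vale.Agent.P372.Compose

/-!
One block of advantage distillation by announced parity.
-/

noncomputable section

open Matrix Finset
open scoped ComplexOrder Kronecker

namespace Vale.Agent.P372

section
variable {A B E : Type} [Fintype A] [Fintype B] [Fintype E] [DecidableEq A] [DecidableEq B]
  [DecidableEq E]

/-- Alice's contribution of one copy to the announced parity. -/
def accBit (c : Bool) (o : Option (ZMod 2)) : ZMod 2 := if c then o.getD 0 else 0

/-- The public record of one copy. -/
def record (o : Option (ZMod 2) × Option (ZMod 2)) : Bool × Bool :=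
  (o.2.isSome, o.2.isSome && o.1.isSome)

/-- Eve's signed state of one copy given its public record. -/
def parityOp (G : Matrix (A × B) E ℂ) (α : Option (ZMod 2) → Matrix A A ℂ)
    (β : Option (ZMod 2) → Matrix B B ℂ) (z : Bool × Bool) : Matrix E E ℂ :=
  ∑ o : Option (ZMod 2) × Option (ZMod 2),
    if record o = z then chi (accBit z.2 o.1) • op G (α o.1) (β o.2) else 0

theorem norm_chi (b : ZMod 2) : ‖chi b‖ = 1 := by
  rcases zmod2_cases b with rfl | rfl <;> simp [chi_zero, chi_one]

theorem bnd_parityOp {G : Matrix (A × B) E ℂ} {α : Option (ZMod 2) → Matrix A A ℂ}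
    {β : Option (ZMod 2) → Matrix B B ℂ} (hα : IsPOVM α) (hβ : IsPOVM β)
    {p : Option (ZMod 2) → Option (ZMod 2) → ℝ}
    (hp : ∀ x y, (op G (α x) (β y)).trace.re = p x y) {γ : ℝ}
    (hγ : Bnd (op G (α (some 0)) (β (some 0)) - op G (α (some 1)) (β (some 1)))
      (p (some 0) (some 0) + p (some 1) (some 1) - γ))
    (z : Bool × Bool) :
    Bnd (parityOp G α β z)
      ((∑ o : Option (ZMod 2) × Option (ZMod 2), if record o = z then p o.1 o.2 else 0)
        - if z = (true, true) then γ else 0) := by
  have hb : ∀ x y, Bnd (op G (α x) (β y)) (p x y) := fun x y => by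
    rw [← hp]
    exact bnd_psd (op_posSemidef G (hα.1 x) (hβ.1 y))
  by_cases hz : z = (true, true)
  · subst hz
    have e : parityOp G α β (true, true)
        = (op G (α (some 0)) (β (some 0)) - op G (α (some 1)) (β (some 1)))
          + (op G (α (some 0)) (β (some 1)) - op G (α (some 1)) (β (some 0))) := by
      simp [parityOp, record, accBit, Fintype.sum_prod_type, Fintype.sum_option, sum_zmod2,
        chi_zero, chi_one]
      abel
    rw [e, if_pos rfl]
    refine bnd_mono (bnd_add hγ (bnd_sub (hb _ _) (hb _ _))) (le_of_eq ?_)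
    simp [record, Fintype.sum_prod_type, Fintype.sum_option, sum_zmod2]
    ring
  · rw [if_neg hz, sub_zero]
    refine bnd_sum _ fun o _ => bnd_ite _ ?_
    simpa [norm_chi] using bnd_smul (chi (accBit z.2 o.1)) (hb o.1 o.2)

theorem parity_indicator (S r k : ZMod 2) :
    ((if k + S = r then (1 : ℂ) else 0) - if k + 1 + S = r then 1 else 0)
      = chi (r + k) * chi S := by
  rcases zmod2_cases S with rfl | rfl <;> rcases zmod2_cases r with rfl | rfl <;>
    rcases zmod2_cases k with rfl | rfl <;>
    simp [chi_zero, chi_one, show (1 : ZMod 2) + 1 = 0 from by decide]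

theorem marginal_pi {O : Type} [Fintype O] {T : ℕ} {p : O → ℝ} (hp : ∑ o, p o = 1) (g : O → ℝ)
    (t : Fin T) : ∑ f : Fin T → O, (∏ i, p (f i)) * g (f t) = ∑ o, p o * g o := by
  have e : ∀ f : Fin T → O, (∏ i, p (f i)) * g (f t)
      = ∏ i, p (f i) * if i = t then g (f i) else 1 := fun f => by
    rw [Finset.prod_mul_distrib, Finset.prod_ite_eq']
    simp
  simp only [e]
  rw [← Fintype.prod_sum fun i o => p o * if i = t then g o else 1]
  rw [Finset.prod_eq_single t (fun i _ hi => by simp [hi, hp]) (by simp)]
  simp

omit [Fintype E] [DecidableEq A] [DecidableEq B] [DecidableEq E] in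
theorem parityOp_pi {T : ℕ} (G : Matrix (A × B) E ℂ) (α : Option (ZMod 2) → Matrix A A ℂ)
    (β : Option (ZMod 2) → Matrix B B ℂ) (u acc : Fin T → Bool) :
    (piMat fun t => parityOp G α β (u t, acc t))
      = ∑ x : Fin T → Option (ZMod 2), ∑ y : Fin T → Option (ZMod 2),
          if ∀ t, record (x t, y t) = (u t, acc t) then
            (∏ t, chi (accBit (acc t) (x t))) • piMat fun t => op G (α (x t)) (β (y t))
          else 0 := by
  simp only [parityOp]
  rw [piMat_sum, ← (Equiv.arrowProdEquivProdArrow (Fin T) (fun _ => Option (ZMod 2))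
    (fun _ => Option (ZMod 2))).symm.sum_comp, Fintype.sum_prod_type]
  refine Finset.sum_congr rfl fun x _ => Finset.sum_congr rfl fun y _ => ?_
  rw [piMat_ite, piMat_smul]
  simp only [Equiv.arrowProdEquivProdArrow, Equiv.coe_fn_symm_mk]
  congr

/-- Alice's message: the copies kept by both and the masked parity on them. -/
def parityMsg {T : ℕ} (a : ZMod 2 × (Fin T → Option (ZMod 2))) (u : Fin T → Bool) :
    (Fin T → Bool) × ZMod 2 :=
  (fun t => u t && (a.2 t).isSome, a.1 + ∑ t, accBit (u t && (a.2 t).isSome) (a.2 t))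

/-- Bob's guess for Alice's bit. -/
def parityGuess {T : ℕ} (y : Fin T → Option (ZMod 2)) (v : (Fin T → Bool) × ZMod 2) : ZMod 2 :=
  v.2 + ∑ t, accBit (v.1 t) (y t)

theorem parity_block {G : Matrix (A × B) E ℂ} (hG : fsq G = 1)
    {α : Option (ZMod 2) → Matrix A A ℂ} {β : Option (ZMod 2) → Matrix B B ℂ}
    (hα : IsPOVM α) (hβ : IsPOVM β) {p : Option (ZMod 2) → Option (ZMod 2) → ℝ}
    (hp : ∀ x y, (op G (α x) (β y)).trace.re = p x y) {γ δ : ℝ}
    (hγ : Bnd (op G (α (some 0)) (β (some 0)) - op G (α (some 1)) (β (some 1)))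
      (p (some 0) (some 0) + p (some 1) (some 1) - γ))
    (hδ : p (some 0) (some 1) + p (some 1) (some 0) ≤ δ) (T : ℕ) {η : ℝ} (hη : 0 ≤ η)
    (hη1 : η ≤ 1) (hbob : T * δ ≤ η) (heve : (1 - γ) ^ T ≤ η)
    {L m ℓ q : ℕ} {H : Fin m → Fin L → ZMod 2} {V : Fin ℓ → Fin L → ZMod 2}
    (hH : ∀ z, syn H z = 0 → wt z ≤ 2 * q → z = 0)
    (hV : ∀ wh wv, wt (comb wh H + comb wv V) < q → wh = 0 ∧ wv = 0) :
    Ach (piG (piG G (Fin T)) (Fin L)) ℓ
      (2 * ((1 + 63 * η) ^ L / 64 ^ q) + 2 ^ (m + ℓ) * η ^ q) := by
  set MA : ZMod 2 × (Fin T → Option (ZMod 2)) → Matrix (Fin T → A) (Fin T → A) ℂ :=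
    fun a => (1 / 2 : ℂ) • piMat fun t => α (a.2 t) with hMA
  set MB : (Fin T → Option (ZMod 2)) → Matrix (Fin T → B) (Fin T → B) ℂ :=
    fun y => piMat fun t => β (y t) with hMB
  set fB : (Fin T → Option (ZMod 2)) → Fin T → Bool := fun y t => (y t).isSome with hfB
  have hA : IsPOVM MA := by
    refine ⟨fun a => (piMat_posSemidef fun t => hα.1 _).smul (by norm_num [Complex.le_def]), ?_⟩
    simp only [hMA, Fintype.sum_prod_type, ← Finset.smul_sum, (povm_pi (I := Fin T) hα).2]
    rw [sum_zmod2]
    module
  have hB : IsPOVM MB := povm_pi hβ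
  set P : Option (ZMod 2) × Option (ZMod 2) → ℝ := fun o => p o.1 o.2 with hP
  have hP0 : ∀ o, 0 ≤ P o := fun o => by
    simp only [hP, ← hp]
    exact (Complex.le_def.1 (op_posSemidef G (hα.1 _) (hβ.1 _)).trace_nonneg).1
  have hP1 : ∑ o, P o = 1 := by
    have := congrArg (fun M => M.trace.re) (sum_op hα hβ G)
    simp only [trace_sum, Complex.re_sum, trace_op_one, hG, Complex.ofReal_one,
      Complex.one_re, hp] at this
    rw [Fintype.sum_prod_type]
    exact this
  set c : Bool × Bool → ℝ := fun z =>
    (∑ o : Option (ZMod 2) × Option (ZMod 2), if record o = z then P o else 0)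
      - if z = (true, true) then γ else 0 with hc
  have hbc : ∀ z, Bnd (parityOp G α β z) (c z) := bnd_parityOp hα hβ hp hγ
  have hcsum : ∑ z, c z = 1 - γ := by
    simp only [hc, Finset.sum_sub_distrib]
    rw [Finset.sum_comm]
    simp [hP1]
  refine ach_code fB parityMsg Prod.fst H V (fsq_piG G hG) hA hB parityGuess hη hη1 ?_
    (cu := fun u v => 1 / 2 * ∏ t, c (u t, v.1 t)) ?_ ?_ hH hV
  · set w : Option (ZMod 2) × Option (ZMod 2) → ℝ :=
      fun o => if o = (some 0, some 1) ∨ o = (some 1, some 0) then 1 else 0 with hw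
    have hw0 : ∀ o, 0 ≤ w o := fun o => by simp only [hw]; split_ifs <;> norm_num
    have hterm : ∀ a y, (if parityGuess y (parityMsg a (fB y)) = a.1 then 0
          else (op (piG G (Fin T)) (MA a) (MB y)).trace.re)
        ≤ 1 / 2 * ((∏ t, P (a.2 t, y t)) * ∑ t, w (a.2 t, y t)) := by
      intro a y
      have hprod : 0 ≤ ∏ t, P (a.2 t, y t) := Finset.prod_nonneg fun t _ => hP0 _
      split_ifs with h
      · exact mul_nonneg (by norm_num) (mul_nonneg hprod (Finset.sum_nonneg fun t _ => hw0 _))
      · have htr : (op (piG G (Fin T)) (MA a) (MB y)).trace.re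
            = 1 / 2 * ∏ t, P (a.2 t, y t) := by
          rw [hMA, hMB, op_smul_left, op_pi, trace_smul, piMat_trace,
            Finset.prod_congr rfl fun t _ => trace_real (op_posSemidef G (hα.1 _) (hβ.1 _)),
            ← Complex.ofReal_prod, smul_eq_mul, show (1 / 2 : ℂ) = ((1 / 2 : ℝ) : ℂ) by norm_num,
            ← Complex.ofReal_mul, Complex.ofReal_re]
          simp only [hP, hp]
        rw [htr]
        refine mul_le_mul_of_nonneg_left (le_mul_of_one_le_right hprod ?_) (by norm_num)
        obtain ⟨t, ht⟩ : ∃ t, w (a.2 t, y t) = 1 := by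
          by_contra hne
          push Not at hne
          refine h ?_
          have key : ∀ t, accBit (fB y t && (a.2 t).isSome) (y t)
              = accBit (fB y t && (a.2 t).isSome) (a.2 t) := by
            intro t
            have := hne t
            revert this
            simp only [hw, hfB, accBit]
            generalize a.2 t = x
            generalize y t = z
            rcases x with _ | x <;> rcases z with _ | z <;>
              first
              | (simp; done)
              | (rcases zmod2_cases x with rfl | rfl <;> rcases zmod2_cases z with rfl | rfl <;>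
                  simp)
          simp only [parityGuess, parityMsg, Finset.sum_congr rfl fun t _ => key t]
          rw [add_assoc, CharTwo.add_self_eq_zero, add_zero]
        exact ht.symm.le.trans
          (Finset.single_le_sum (f := fun t => w (a.2 t, y t)) (fun t _ => hw0 _) (mem_univ t))
    refine le_trans (Finset.sum_le_sum fun a _ => Finset.sum_le_sum fun y _ => hterm a y) ?_
    rw [Fintype.sum_prod_type, sum_zmod2]
    have hS : ∑ x : Fin T → Option (ZMod 2), ∑ y : Fin T → Option (ZMod 2),
        (∏ t, P (x t, y t)) * ∑ t, w (x t, y t)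
        = T * (p (some 0) (some 1) + p (some 1) (some 0)) := by
      rw [← Fintype.sum_prod_type', ← (Equiv.arrowProdEquivProdArrow (Fin T)
        (fun _ => Option (ZMod 2)) (fun _ => Option (ZMod 2))).sum_comp]
      simp only [Equiv.arrowProdEquivProdArrow, Equiv.coe_fn_mk, Finset.mul_sum]
      rw [Finset.sum_comm, Finset.sum_congr rfl fun t _ => marginal_pi hP1 w t]
      simp [hP, hw, Fintype.sum_prod_type, Fintype.sum_option, sum_zmod2]
      ring
    simp only [← Finset.mul_sum, hS]
    have := mul_le_mul_of_nonneg_left hδ (Nat.cast_nonneg (α := ℝ) T)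
    linarith
  · intro u v
    obtain ⟨acc, r⟩ := v
    have e : blockState (piG G (Fin T)) MA MB fB parityMsg Prod.fst 0 u (acc, r)
        - blockState (piG G (Fin T)) MA MB fB parityMsg Prod.fst 1 u (acc, r)
        = (1 / 2 * chi r) • piMat fun t => parityOp G α β (u t, acc t) := by
      have hk : ∀ k : ZMod 2, blockState (piG G (Fin T)) MA MB fB parityMsg Prod.fst k u (acc, r)
          = ∑ x : Fin T → Option (ZMod 2), ∑ y : Fin T → Option (ZMod 2),
              if ∀ t, record (x t, y t) = (u t, acc t) then
                ((1 / 2 : ℂ) * if k + ∑ t, accBit (acc t) (x t) = r then 1 else 0)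
                  • piMat fun t => op G (α (x t)) (β (y t))
              else 0 := by
        intro k
        rw [blockState, Fintype.sum_prod_type, Finset.sum_eq_single k
          (fun K _ hK => Finset.sum_eq_zero fun x _ => Finset.sum_eq_zero fun b _ =>
            if_neg fun h => hK h.1) (by simp)]
        refine Finset.sum_congr rfl fun x _ => Finset.sum_congr rfl fun y _ => ?_
        have hop : op (piG G (Fin T)) (MA (k, x)) (MB y)
            = (1 / 2 : ℂ) • piMat fun t => op G (α (x t)) (β (y t)) := by
          rw [hMA, hMB, op_smul_left, op_pi]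
        rw [hop]
        by_cases hrec : ∀ t, record (x t, y t) = (u t, acc t)
        · rw [if_pos hrec]
          have hu : fB y = u := funext fun t => congrArg Prod.fst (hrec t)
          have hacc : (fun t => u t && (x t).isSome) = acc := funext fun t => by
            have h1 := congrArg Prod.snd (hrec t)
            have h2 := congrArg Prod.fst (hrec t)
            simp only [record] at h1 h2
            rw [← h2]; exact h1
          have hmsg : parityMsg (k, x) u = (acc, k + ∑ t, accBit (acc t) (x t)) := by
            simp only [parityMsg]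
            rw [← hacc]
          simp only [hu, hmsg, Prod.mk.injEq, true_and]
          split_ifs <;> simp
        · rw [if_neg hrec]
          refine if_neg fun h => hrec fun t => ?_
          have h1 := congrFun h.2.1 t
          have h2 := congrFun (congrArg Prod.fst h.2.2) t
          simp only [hfB, parityMsg] at h1 h2
          simp only [record]
          rw [h1, h2]
      rw [hk 0, hk 1, ← Finset.sum_sub_distrib, parityOp_pi]
      rw [Finset.smul_sum]
      refine Finset.sum_congr rfl fun x _ => ?_
      rw [← Finset.sum_sub_distrib, Finset.smul_sum]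
      refine Finset.sum_congr rfl fun y _ => ?_
      by_cases h : ∀ t, record (x t, y t) = (u t, acc t)
      · rw [if_pos h, if_pos h, if_pos h, ← sub_smul, ← mul_sub, smul_smul]
        congr 1
        have := parity_indicator (∑ t, accBit (acc t) (x t)) r 0
        simp only [zero_add, add_zero] at this
        rw [zero_add, this, chi_sum, mul_assoc]
      · rw [if_neg h, if_neg h, if_neg h]
        simp
    rw [e]
    have hb := bnd_smul (1 / 2 * chi r) (bnd_pi fun t => hbc (u t, acc t))
    simpa [norm_chi] using hb
  · refine le_trans (le_of_eq ?_) heve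
    simp only [Fintype.sum_prod_type, sum_zmod2 (fun _ => _)]
    rw [show ((1 : ℝ) - γ) ^ T = ∑ f : Fin T → Bool × Bool, ∏ t, c (f t) by
      rw [← Fintype.prod_sum fun (_ : Fin T) z => c z]; simp [hcsum]]
    rw [← (Equiv.arrowProdEquivProdArrow (Fin T) (fun _ => Bool) (fun _ => Bool)).symm.sum_comp,
      Fintype.sum_prod_type]
    refine Finset.sum_congr rfl fun u _ => Finset.sum_congr rfl fun v _ => ?_
    simp only [Equiv.arrowProdEquivProdArrow, Equiv.coe_fn_symm_mk]
    ring
end

end Vale.Agent.P372
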