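import Mathlib
import Vale.Agent.P372.Main
import Vale.Agent.P372.Parity

/-!
Advantage distillation from two correlated outcomes that Eve cannot tell apart well.
-/

noncomputable section

open Matrix Finset
open scoped ComplexOrder Kronecker MatrixOrder

namespace Vale.Agent.P372

section
variable {ι Q : Type} [Fintype ι] [Fintype Q]

theorem eq_zero_of_fsq {C : Matrix ι Q ℂ} (h : fsq C = 0) : C = 0 := by
  have := trace_mul_conjTranspose_self C
  rw [h, Complex.ofReal_zero] at this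
  exact trace_mul_conjTranspose_self_eq_zero_iff.1 this

theorem fsq_add (C D : Matrix ι Q ℂ) :
    fsq (C + D) = fsq C + fsq D + 2 * (Cᴴ * D).trace.re := by
  have h := congrArg Complex.re (trace_mul_conjTranspose_self (C + D))
  simp only [conjTranspose_add, Matrix.add_mul, Matrix.mul_add, trace_add,
    trace_mul_conjTranspose_self, Complex.add_re, Complex.ofReal_re] at h
  have h1 : (D * Cᴴ).trace.re = (Cᴴ * D).trace.re := by rw [trace_mul_comm]
  have h2 : (C * Dᴴ).trace.re = (Cᴴ * D).trace.re := by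
    rw [← h1, show C * Dᴴ = (D * Cᴴ)ᴴ by simp, trace_conjTranspose]
    simp
  linarith

theorem fsq_neg (C : Matrix ι Q ℂ) : fsq (-C) = fsq C := by
  simp [fsq, vsq]

theorem bnd_cross (X Y : Matrix ι Q ℂ) :
    Bnd (X * Yᴴ) (Real.sqrt (fsq X) * Real.sqrt (fsq Y)) := by
  rw [mul_conjTranspose_eq_sum]
  refine bnd_mono (bnd_of _ _) ((Real.sum_mul_le_sqrt_mul_sqrt _ _ _).trans (le_of_eq ?_))
  simp [fsq, sq_vn]

theorem exists_phase (t : ℂ) : ∃ ω : ℂ, ω * star ω = 1 ∧ (ω * t).re = ‖t‖ := by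
  rcases eq_or_ne t 0 with rfl | h
  · exact ⟨1, by simp, by simp⟩
  · have hn : (‖t‖ : ℂ) ≠ 0 := by exact_mod_cast norm_ne_zero_iff.2 h
    refine ⟨star t / ‖t‖, ?_, ?_⟩
    · simp only [RCLike.star_def, map_div₀, Complex.conj_ofReal, Complex.conj_conj]
      rw [div_mul_div_comm, mul_comm (starRingEnd ℂ t), Complex.mul_conj', div_eq_one_iff_eq
        (mul_ne_zero hn hn)]
      ring
    · rw [div_mul_eq_mul_div, RCLike.star_def, Complex.conj_mul', pow_two,
        mul_div_assoc, div_self hn, mul_one, Complex.ofReal_re]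

theorem bnd_gram_sub {C D : Matrix ι Q ℂ} (hS : 0 < fsq C + fsq D) :
    Bnd (C * Cᴴ - D * Dᴴ)
      (fsq C + fsq D - 2 * ‖(Cᴴ * D).trace‖ ^ 2 / (fsq C + fsq D)) := by
  obtain ⟨ω, hω, hωt⟩ := exists_phase (Cᴴ * D).trace
  set z := ‖(Cᴴ * D).trace‖ with hz
  set S := fsq C + fsq D with hSdef
  set D' := ω • D with hD'
  have hDD : D' * D'ᴴ = D * Dᴴ := by
    rw [hD', conjTranspose_smul, Matrix.smul_mul, Matrix.mul_smul, smul_smul, hω, one_smul]
  have hfD : fsq D' = fsq D := by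
    have h1 := trace_mul_conjTranspose_self D'
    rw [hDD, trace_mul_conjTranspose_self] at h1
    exact_mod_cast h1.symm
  have hre : (Cᴴ * D').trace.re = z := by
    rw [hD', Matrix.mul_smul, trace_smul, smul_eq_mul, hωt]
  have hX : fsq (C + D') = S + 2 * z := by rw [fsq_add, hfD, hre]
  have hY : fsq (C - D') = S - 2 * z := by
    rw [sub_eq_add_neg, fsq_add, fsq_neg, hfD, Matrix.mul_neg, trace_neg, Complex.neg_re, hre]
    ring
  have e : C * Cᴴ - D * Dᴴ
      = (1 / 2 : ℂ) • ((C + D') * (C - D')ᴴ + (C - D') * (C + D')ᴴ) := by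
    rw [← hDD]
    simp only [conjTranspose_sub, conjTranspose_add, Matrix.add_mul, Matrix.sub_mul,
      Matrix.mul_add, Matrix.mul_sub]
    module
  rw [e]
  refine bnd_mono (bnd_smul _ (bnd_add (bnd_cross _ _) (bnd_cross _ _))) ?_
  have h0 := fsq_nonneg (C - D')
  rw [hY] at h0
  rw [hX, hY, mul_comm (Real.sqrt (S - 2 * z)), norm_div, norm_one, Complex.norm_ofNat]
  have hz0 : 0 ≤ z := norm_nonneg _
  have hpos : 0 ≤ S - 2 * z ^ 2 / S := by
    rw [sub_nonneg, div_le_iff₀ hS]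
    nlinarith
  have hkey : Real.sqrt (S + 2 * z) * Real.sqrt (S - 2 * z) ≤ S - 2 * z ^ 2 / S := by
    rw [← Real.sqrt_mul (by linarith)]
    refine (Real.sqrt_le_left hpos).2 ?_
    have h1 : (S - 2 * z ^ 2 / S) ^ 2 = (S + 2 * z) * (S - 2 * z) + 4 * z ^ 4 / S ^ 2 := by
      field_simp
      ring
    rw [h1]
    exact le_add_of_nonneg_right (by positivity)
  linarith

end

section
variable {A B E : Type} [Fintype A] [Fintype B] [Fintype E] [DecidableEq A] [DecidableEq B]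
  [DecidableEq E]

theorem ach_curry {I J : Type} [Fintype I] [DecidableEq I] [Fintype J] [DecidableEq J]
    {G : Matrix (A × B) E ℂ} {ℓ : ℕ} {ε : ℝ} (h : Ach (piG (piG G J) I) ℓ ε) :
    Ach (piG G (I × J)) ℓ ε := by
  have := ach_reindex (Equiv.curry I J A) (Equiv.curry I J B) (Equiv.curry I J E) h
  convert this using 1
  ext i x
  simp only [piG, Matrix.of_apply, submatrix_apply]
  rw [Fintype.prod_prod_type]
  rfl

theorem ach_pad {I : Type} [Fintype I] [DecidableEq I] {G : Matrix (A × B) E ℂ} (hG : fsq G = 1)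
    {ℓ n : ℕ} {ε : ℝ} (hn : Fintype.card I ≤ n) (h : Ach (piG G I) ℓ ε) :
    Ach (piG G (Fin n)) ℓ ε := by
  set e : I ⊕ Fin (n - Fintype.card I) ≃ Fin n :=
    (Equiv.sumCongr (Fintype.equivFin I) (Equiv.refl _)).trans
      (finSumFinEquiv.trans (finCongr (by omega))) with he
  have hext := ach_extend h (G' := piG G (Fin (n - Fintype.card I))) (fsq_piG G hG)
  let sp : ∀ (α : Type), (Fin n → α) ≃ (I → α) × (Fin (n - Fintype.card I) → α) := fun α =>
    (Equiv.arrowCongr e.symm (Equiv.refl α)).trans (Equiv.sumArrowEquivProdArrow _ _ α)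
  have := ach_reindex (sp A) (sp B) (sp E) hext
  convert this using 1
  ext i x
  simp only [piG, Matrix.of_apply, submatrix_apply, id_eq, kroneckerMap_apply]
  rw [← e.prod_comp, Fintype.prod_sum_type]
  rfl

theorem keys_of_block {G : Matrix (A × B) E ℂ} (hG : fsq G = 1) {T N : ℕ} (hT : 0 < T)
    (hN : 0 < N)
    (hblock : ∀ (L m ℓ q : ℕ) (H : Fin m → Fin L → ZMod 2) (V : Fin ℓ → Fin L → ZMod 2),
      (∀ z, syn H z = 0 → wt z ≤ 2 * q → z = 0) →
      (∀ wh wv, wt (comb wh H + comb wv V) < q → wh = 0 ∧ wv = 0) →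
      Ach (piG (piG (piG G (Fin N)) (Fin T)) (Fin L)) ℓ
        (2 * ((1 + 63 * (1 / 2 ^ 26 : ℝ)) ^ L / 64 ^ q)
          + 2 ^ (m + ℓ) * (1 / 2 ^ 26 : ℝ) ^ q)) :
    ∃ c : ℝ, 0 < c ∧ ∀ ε : ℝ, 0 < ε →
      ∃ n₀ : ℕ, ∀ n, n₀ ≤ n → ∃ ℓ : ℕ, c * n ≤ ℓ ∧ Ach (piG G (Fin n)) ℓ ε := by
  set M := T * N with hMdef
  have hM : 0 < M := Nat.mul_pos hT hN
  refine ⟨1 / (16 * M), by positivity, fun ε hε => ?_⟩
  obtain ⟨q₀, hq₀⟩ := exists_pow_lt_of_lt_one (x := ε / 3) (by positivity)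
    (y := (1 / 4 : ℝ)) (by norm_num)
  refine ⟨64 * M * (q₀ + 1), fun n hn => ?_⟩
  set q := n / (64 * M) with hqdef
  have hq : q₀ + 1 ≤ q := (Nat.le_div_iff_mul_le (by positivity)).2 (by linarith)
  refine ⟨8 * q, ?_, ?_⟩
  · have h1 : n < 64 * M * (q + 1) := by
      have := Nat.lt_div_mul_add (a := n) (show 0 < 64 * M by positivity)
      rw [← hqdef] at this
      linarith
    have h2 : (n : ℝ) ≤ 64 * M * (q + 1) := by exact_mod_cast h1.le
    have h3 : (1 : ℝ) ≤ q := by exact_mod_cast (Nat.succ_le_of_lt (by omega : 0 < q))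
    rw [div_mul_eq_mul_div, one_mul, div_le_iff₀ (by positivity)]
    push_cast
    have := mul_le_mul_of_nonneg_left h3 (by positivity : (0 : ℝ) ≤ M)
    nlinarith
  · obtain ⟨H, V, hH, hV⟩ := exists_code q (by omega)
    have h := hblock (64 * q) (16 * q) (8 * q) q H V hH hV
    have herr : 2 * ((1 + 63 * (1 / 2 ^ 26 : ℝ)) ^ (64 * q) / 64 ^ q)
        + 2 ^ (16 * q + 8 * q) * (1 / 2 ^ 26 : ℝ) ^ q ≤ ε := by
      have e1 : (1 + 63 * (1 / 2 ^ 26 : ℝ)) ^ (64 * q) / 64 ^ q ≤ (1 / 4 : ℝ) ^ q := by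
        rw [pow_mul, ← div_pow]
        refine pow_le_pow_left₀ (by positivity) ?_ q
        rw [div_le_iff₀ (by norm_num)]
        calc (1 + 63 * (1 / 2 ^ 26 : ℝ)) ^ 64 ≤ (1 + 1 / 64) ^ 64 :=
              pow_le_pow_left₀ (by positivity) (by norm_num) 64
          _ ≤ _ := by norm_num
      have e2 : (2 : ℝ) ^ (16 * q + 8 * q) * (1 / 2 ^ 26 : ℝ) ^ q = (1 / 4 : ℝ) ^ q := by
        rw [show 16 * q + 8 * q = 24 * q by ring, pow_mul, ← mul_pow]
        norm_num
      have e3 : (1 / 4 : ℝ) ^ q ≤ (1 / 4 : ℝ) ^ q₀ :=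
        pow_le_pow_of_le_one (by norm_num) (by norm_num) (by omega)
      linarith
    have hflat := ach_curry (ach_curry h)
    refine ach_pad hG ?_ ?_ (I := (Fin (64 * q) × Fin T) × Fin N)
    · simp only [Fintype.card_prod, Fintype.card_fin]
      have := Nat.div_mul_le_self n (64 * M)
      rw [← hqdef, hMdef] at this
      linarith
    · obtain ⟨a', b', s', t', MA, MB, fB, fA, kA, kB, σ, cost, h1, h2, h3, h4, h5, h6⟩ := hflat
      exact ⟨a', b', s', t', MA, MB, fB, fA, kA, kB, σ, cost, h1, h2, h3, h4, h5, h6.trans herr⟩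

/-- The outcomes kept in a coarse-grained measurement, completed by a rejection. -/
def coarse (M : ZMod 2 → Matrix A A ℂ) : Option (ZMod 2) → Matrix A A ℂ :=
  fun o => o.elim (1 - ∑ x, M x) M

theorem povm_coarse {M : ZMod 2 → Matrix A A ℂ} (h0 : ∀ x, (M x).PosSemidef)
    (h1 : (1 - ∑ x, M x).PosSemidef) : IsPOVM (coarse M) := by
  refine ⟨fun o => ?_, ?_⟩
  · cases o
    · exact h1
    · exact h0 _
  · simp [Fintype.sum_option, coarse]

theorem coarse_pi {M : ZMod 2 → Matrix A A ℂ} (h0 : ∀ x, (M x).PosSemidef)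
    (h1 : (1 - ∑ x, M x).PosSemidef) {N : ℕ} (hN : 0 < N) :
    IsPOVM (coarse fun x => piMat fun _ : Fin N => M x) := by
  have hp := povm_pi (I := Fin N) (povm_coarse h0 h1)
  refine povm_coarse (fun x => piMat_posSemidef fun _ => h0 x) ?_
  set S : Finset (Fin N → Option (ZMod 2)) := univ.image fun x _ => some x with hS
  have hinj : Function.Injective fun (x : ZMod 2) (_ : Fin N) => some x := fun x y hxy =>
    Option.some_injective _ (congrFun hxy ⟨0, hN⟩)
  have hsum : ∑ f ∈ S, (piMat fun t => coarse M (f t)) = ∑ x, piMat fun _ : Fin N => M x := by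
    rw [hS, Finset.sum_image fun x _ y _ h => hinj h]
    rfl
  rw [show (1 : Matrix (Fin N → A) (Fin N → A) ℂ) - ∑ x, (piMat fun _ : Fin N => M x)
      = ∑ f ∈ univ \ S, piMat fun t => coarse M (f t) by
    rw [← hsum, ← hp.2, ← Finset.sum_sdiff (subset_univ S)]
    abel]
  exact posSemidef_sum _ fun f _ => hp.1 f

end

section
variable {A B E K K' : Type} [Fintype A] [Fintype B] [Fintype E] [DecidableEq A] [DecidableEq B]
  [DecidableEq E] [Fintype K] [Fintype K'] [DecidableEq K] [DecidableEq K']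

/-- Eve's amplitudes for the effects `aᴴ a` and `bᴴ b`. -/
def amp (G : Matrix (A × B) E ℂ) (a : Matrix K A ℂ) (b : Matrix K' B ℂ) : Matrix E (K × K') ℂ :=
  Gᴴ * (a ⊗ₖ b)ᴴ

theorem amp_mul_self (G : Matrix (A × B) E ℂ) (a : Matrix K A ℂ) (b : Matrix K' B ℂ) :
    amp G a b * (amp G a b)ᴴ = op G (aᴴ * a) (bᴴ * b) := by
  rw [amp, op, conjTranspose_mul, conjTranspose_conjTranspose, conjTranspose_conjTranspose,
    conjTranspose_kronecker, mul_kronecker_mul]
  simp only [Matrix.mul_assoc]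

theorem fsq_amp (G : Matrix (A × B) E ℂ) (a : Matrix K A ℂ) (b : Matrix K' B ℂ) :
    fsq (amp G a b) = (op G (aᴴ * a) (bᴴ * b)).trace.re := by
  rw [← amp_mul_self, trace_mul_conjTranspose_self, Complex.ofReal_re]

theorem amp_smul (G : Matrix (A × B) E ℂ) (s t : ℝ) (a : Matrix K A ℂ) (b : Matrix K' B ℂ) :
    amp G ((s : ℂ) • a) ((t : ℂ) • b) = ((s * t : ℝ) : ℂ) • amp G a b := by
  simp [amp, smul_kronecker, kronecker_smul, smul_smul, conjTranspose_smul, mul_comm,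
    -Complex.coe_smul]

theorem distill_balanced {G : Matrix (A × B) E ℂ} (hG : fsq G = 1)
    {a : ZMod 2 → Matrix K A ℂ} {b : ZMod 2 → Matrix K' B ℂ}
    (ha : (1 - ∑ x, (a x)ᴴ * a x).PosSemidef) (hb : (1 - ∑ y, (b y)ᴴ * b y).PosSemidef)
    {W : Matrix (K × K') (K × K') ℂ} (hW : (1 - W * Wᴴ).PosSemidef) {P s p01 p10 : ℝ}
    (hP : P = ‖(amp G (a 0) (b 0) * W * (amp G (a 1) (b 1))ᴴ).trace‖)
    (h00 : (op G ((a 0)ᴴ * a 0) ((b 0)ᴴ * b 0)).trace.re = s)
    (h11 : (op G ((a 1)ᴴ * a 1) ((b 1)ᴴ * b 1)).trace.re = s)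
    (h01 : (op G ((a 0)ᴴ * a 0) ((b 1)ᴴ * b 1)).trace.re = p01)
    (h10 : (op G ((a 1)ᴴ * a 1) ((b 0)ᴴ * b 0)).trace.re = p10)
    (hlt01 : s * p01 < P ^ 2) (hlt10 : s * p10 < P ^ 2) :
    ∃ c : ℝ, 0 < c ∧ ∀ ε : ℝ, 0 < ε →
      ∃ n₀ : ℕ, ∀ n, n₀ ≤ n → ∃ ℓ : ℕ, c * n ≤ ℓ ∧ Ach (piG G (Fin n)) ℓ ε := by
  set Aeff : ZMod 2 → Matrix A A ℂ := fun x => (a x)ᴴ * a x with hAeff
  set Beff : ZMod 2 → Matrix B B ℂ := fun y => (b y)ᴴ * b y with hBeff
  have hA0 : ∀ x, (Aeff x).PosSemidef := fun x => posSemidef_conjTranspose_mul_self _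
  have hB0 : ∀ y, (Beff y).PosSemidef := fun y => posSemidef_conjTranspose_mul_self _
  set p : ZMod 2 → ZMod 2 → ℝ := fun x y => (op G (Aeff x) (Beff y)).trace.re with hp
  have hp0 : ∀ x y, 0 ≤ p x y := fun x y =>
    (Complex.le_def.1 (op_posSemidef G (hA0 x) (hB0 y)).trace_nonneg).1
  obtain ⟨R, hR⟩ := exists_factor hW
  set C0 : Matrix E ((K × K') ⊕ (K × K')) ℂ :=
    fromCols (amp G (a 0) (b 0) * W) (amp G (a 0) (b 0) * R) with hC0
  set C1 : Matrix E ((K × K') ⊕ (K × K')) ℂ := fromCols (amp G (a 1) (b 1)) 0 with hC1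
  have hg0 : C0 * C0ᴴ = op G (Aeff 0) (Beff 0) := by
    rw [hC0, conjTranspose_fromCols_eq_fromRows_conjTranspose, fromCols_mul_fromRows,
      ← amp_mul_self, conjTranspose_mul, conjTranspose_mul]
    generalize amp G (a 0) (b 0) = C
    calc C * W * (Wᴴ * Cᴴ) + C * R * (Rᴴ * Cᴴ) = C * (W * Wᴴ + R * Rᴴ) * Cᴴ := by
          simp only [Matrix.mul_add, Matrix.add_mul, Matrix.mul_assoc]
      _ = _ := by rw [← hR, add_sub_cancel, Matrix.mul_one]
  have hg1 : C1 * C1ᴴ = op G (Aeff 1) (Beff 1) := by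
    rw [hC1, conjTranspose_fromCols_eq_fromRows_conjTranspose, fromCols_mul_fromRows,
      Matrix.zero_mul, add_zero, amp_mul_self]
  have hov : ‖(C0ᴴ * C1).trace‖ = P := by
    rw [trace_mul_comm, hC0, hC1, conjTranspose_fromCols_eq_fromRows_conjTranspose,
      fromCols_mul_fromRows, Matrix.zero_mul, add_zero, hP,
      show amp G (a 1) (b 1) * (amp G (a 0) (b 0) * W)ᴴ
        = (amp G (a 0) (b 0) * W * (amp G (a 1) (b 1))ᴴ)ᴴ by simp,
      trace_conjTranspose, norm_star]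
  have hs : 0 < s := by
    rcases (h00 ▸ hp0 0 0 : 0 ≤ s).lt_or_eq with h | h
    · exact h
    · exfalso
      have hz : amp G (a 1) (b 1) = 0 :=
        eq_zero_of_fsq (by rw [fsq_amp, h11, ← h])
      rw [hP, hz] at hlt01
      simp [← h] at hlt01
  have hP2 : 0 < P ^ 2 := lt_of_le_of_lt (mul_nonneg hs.le (h01 ▸ hp0 0 1)) hlt01
  set η : ℝ := 1 / 2 ^ 26 with hη
  have hη0 : 0 < η := by positivity
  obtain ⟨j, hj⟩ := exists_pow_lt_of_lt_one hη0 (Real.exp_lt_one_iff.2 (by norm_num : (-1:ℝ) < 0))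
  set r : ℝ := max (s * p01 / P ^ 2) (s * p10 / P ^ 2) with hr
  have hr0 : 0 ≤ r := le_max_of_le_left (div_nonneg (mul_nonneg hs.le (h01 ▸ hp0 0 1)) hP2.le)
  have hr1 : r < 1 := max_lt ((div_lt_one hP2).2 hlt01) ((div_lt_one hP2).2 hlt10)
  obtain ⟨N, hN⟩ := exists_pow_lt_of_lt_one (x := η / (4 * (j + 1))) (by positivity) hr1
  set M := N + 1 with hM
  have hrM : r ^ M ≤ η / (4 * (j + 1)) :=
    (pow_le_pow_of_le_one hr0 hr1.le (Nat.le_succ N)).trans hN.le
  set G' := piG G (Fin M) with hG'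
  set α := coarse fun x => piMat fun _ : Fin M => Aeff x with hαdef
  set β := coarse fun y => piMat fun _ : Fin M => Beff y with hβdef
  have hα : IsPOVM α := coarse_pi hA0 ha (Nat.succ_pos N)
  have hβ : IsPOVM β := coarse_pi hB0 hb (Nat.succ_pos N)
  have hop : ∀ x y, op G' (α (some x)) (β (some y))
      = piMat fun _ : Fin M => op G (Aeff x) (Beff y) := fun x y => op_pi G _ _
  have htr : ∀ x y, (op G' (α (some x)) (β (some y))).trace.re = p x y ^ M := by
    intro x y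
    rw [hop, piMat_trace, Finset.prod_congr rfl fun _ _ =>
      trace_real (op_posSemidef G (hA0 x) (hB0 y)), ← Complex.ofReal_prod, Complex.ofReal_re]
    simp [hp]
  set D0 : Matrix (Fin M → E) (Fin M → (K × K') ⊕ (K × K')) ℂ :=
    piMat fun _ : Fin M => C0 with hD0
  set D1 : Matrix (Fin M → E) (Fin M → (K × K') ⊕ (K × K')) ℂ :=
    piMat fun _ : Fin M => C1 with hD1
  have hd0 : D0 * D0ᴴ = op G' (α (some 0)) (β (some 0)) := by
    rw [hop, hD0, piMat_conjTranspose, piMat_mul, hg0]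
  have hd1 : D1 * D1ᴴ = op G' (α (some 1)) (β (some 1)) := by
    rw [hop, hD1, piMat_conjTranspose, piMat_mul, hg1]
  have hf0 : fsq D0 = s ^ M := by
    have := congrArg (fun X => X.trace.re) hd0
    simp only [trace_mul_conjTranspose_self, Complex.ofReal_re, htr] at this
    rw [this]
    simp only [hp, hAeff, hBeff, h00]
  have hf1 : fsq D1 = s ^ M := by
    have := congrArg (fun X => X.trace.re) hd1
    simp only [trace_mul_conjTranspose_self, Complex.ofReal_re, htr] at this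
    rw [this]
    simp only [hp, hAeff, hBeff, h11]
  have hovM : ‖(D0ᴴ * D1).trace‖ = P ^ M := by
    rw [hD0, hD1, piMat_conjTranspose, piMat_mul, piMat_trace]
    simp [hov]
  set γ : ℝ := (P ^ 2) ^ M / s ^ M with hγ
  have hγ0 : 0 < γ := div_pos (pow_pos hP2 M) (pow_pos hs M)
  have hbg : Bnd (op G' (α (some 0)) (β (some 0)) - op G' (α (some 1)) (β (some 1)))
      (s ^ M + s ^ M - γ) := by
    have := bnd_gram_sub (C := D0) (D := D1) (by rw [hf0, hf1]; positivity)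
    rw [hd0, hd1, hf0, hf1, hovM] at this
    refine bnd_mono this (le_of_eq ?_)
    rw [hγ]
    field_simp
    ring
  have hγ1 : γ ≤ 1 := by
    have h1 := bnd_nonneg hbg
    have h2 : s ^ M + s ^ M ≤ 1 := by
      have := congrArg (fun X => X.trace.re) (sum_op hα hβ G')
      simp only [trace_op_one, hG', fsq_piG G hG, Complex.ofReal_one, trace_add, Complex.add_re,
        Complex.one_re, Fintype.sum_option, sum_zmod2] at this
      have h0 : ∀ x y, 0 ≤ (op G' (α x) (β y)).trace.re := fun x y =>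
        (Complex.le_def.1 (op_posSemidef G' (hα.1 x) (hβ.1 y)).trace_nonneg).1
      have e00 : (op G' (α (some 0)) (β (some 0))).trace.re = s ^ M := by
        rw [htr]; simp only [hp, hAeff, hBeff, h00]
      have e11 : (op G' (α (some 1)) (β (some 1))).trace.re = s ^ M := by
        rw [htr]; simp only [hp, hAeff, hBeff, h11]
      have := h0 none none
      have := h0 none (some 0)
      have := h0 none (some 1)
      have := h0 (some 0) none
      have := h0 (some 0) (some 1)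
      have := h0 (some 1) none
      have := h0 (some 1) (some 0)
      rw [hG'] at *
      linarith
    linarith
  set T : ℕ := ⌈((j : ℝ) + 1) / γ⌉₊ with hTdef
  have hT : 0 < T := Nat.ceil_pos.2 (by positivity)
  have hTlo : ((j : ℝ) + 1) / γ ≤ T := Nat.le_ceil _
  have hThi : (T : ℝ) ≤ ((j : ℝ) + 1) / γ + 1 := (Nat.ceil_lt_add_one (by positivity)).le
  set δ : ℝ := p01 ^ M + p10 ^ M with hδ
  have hδγ : δ / γ ≤ η / (2 * (j + 1)) := by
    have key : ∀ {x : ℝ}, 0 ≤ x → s * x / P ^ 2 ≤ r → x ^ M / γ ≤ η / (4 * (j + 1)) := by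
      intro x hx hxr
      refine le_trans (le_of_eq ?_) ((pow_le_pow_left₀ (by positivity) hxr M).trans hrM)
      rw [hγ, div_pow, mul_pow, div_div_eq_mul_div, mul_comm (x ^ M)]
    rw [hδ, add_div]
    refine (add_le_add (key (h01 ▸ hp0 0 1) (le_max_left _ _))
      (key (h10 ▸ hp0 1 0) (le_max_right _ _))).trans (le_of_eq ?_)
    field_simp
    ring
  have hδ0 : 0 ≤ δ := add_nonneg (pow_nonneg (h01 ▸ hp0 0 1) M) (pow_nonneg (h10 ▸ hp0 1 0) M)
  have heve : (1 - γ) ^ T ≤ η := by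
    refine ((pow_le_pow_left₀ (by linarith) (Real.one_sub_le_exp_neg γ) T).trans ?_).trans hj.le
    rw [← Real.exp_nat_mul, ← Real.exp_nat_mul, Real.exp_le_exp]
    rw [div_le_iff₀ hγ0] at hTlo
    linarith
  have hbob : (T : ℝ) * δ ≤ η := by
    have h1 : δ ≤ δ / γ := le_div_self hδ0 hγ0 hγ1
    have h2 : (T : ℝ) * δ ≤ ((j : ℝ) + 1) * (δ / γ) + δ := by
      refine (mul_le_mul_of_nonneg_right hThi hδ0).trans (le_of_eq ?_)
      ring
    have h3 : ((j : ℝ) + 1) * (δ / γ) ≤ η / 2 := by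
      rw [le_div_iff₀ (by positivity)] at hδγ
      linarith
    have h4 : η / (2 * ((j : ℝ) + 1)) ≤ η / 2 :=
      div_le_div_of_nonneg_left hη0.le two_pos (by linarith [Nat.cast_nonneg (α := ℝ) j])
    exact (h2.trans (add_le_add h3 ((h1.trans hδγ).trans h4))).trans (add_halves η).le
  refine keys_of_block hG hT (Nat.succ_pos N) fun L m ℓ q H V hH hV => ?_
  refine parity_block (fsq_piG G hG) hα hβ (p := fun x y => (op G' (α x) (β y)).trace.re)
    (fun _ _ => rfl) (γ := γ) (δ := δ) ?_ ?_ T hη0.le (by rw [hη]; norm_num) ?_ heve hH hV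
  · refine bnd_mono hbg (le_of_eq ?_)
    simp only [htr, hp, hAeff, hBeff, h00, h11]
  · simp only [htr, hp, hAeff, hBeff, h01, h10, hδ, le_refl]
  · linarith

theorem exists_between_ratios {u v : ℝ} (hu : 0 ≤ u) (hv : 0 ≤ v) (huv : u * v < 1) :
    ∃ t : ℝ, 0 < t ∧ u < t ∧ t * v < 1 := by
  refine ⟨u + (1 - u * v) / (v + 1), ?_, ?_, ?_⟩
  · have : 0 < (1 - u * v) / (v + 1) := div_pos (by linarith) (by linarith)
    linarith
  · exact lt_add_of_pos_right u (div_pos (by linarith) (by linarith))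
  · have h : (1 - u * v) / (v + 1) * v < 1 - u * v := by
      rw [div_mul_eq_mul_div, div_lt_iff₀ (by linarith)]
      nlinarith
    linarith

/-- The real weights rescaling the two effects. -/
def weight (s : ℝ) : ZMod 2 → ℝ := fun x => if x = 0 then s else 1

theorem exists_shrink {s : ℝ} (hs : 0 < s) (a : ZMod 2 → Matrix K A ℂ) :
    ∃ κ : ℝ, 0 < κ ∧ (1 - ∑ x, ((Real.sqrt (κ * weight s x) : ℂ) • a x)ᴴ
      * ((Real.sqrt (κ * weight s x) : ℂ) • a x)).PosSemidef := by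
  set S : Matrix A A ℂ := ∑ x, (weight s x : ℂ) • ((a x)ᴴ * a x) with hS
  have hw : ∀ x, 0 ≤ weight s x := fun x => by
    rw [weight]; split_ifs <;> linarith
  have hSh : S.IsHermitian := (posSemidef_sum _ fun x _ =>
    (posSemidef_conjTranspose_mul_self (a x)).smul (Complex.zero_le_real.2 (hw x))).1
  obtain ⟨ε, hε, hε1⟩ := exists_scale hSh
  refine ⟨ε, hε, ?_⟩
  have h := hε1 (-ε) (by rw [abs_neg, abs_of_pos hε])
  convert h using 1
  rw [hS, Finset.smul_sum, sub_eq_add_neg, ← Finset.sum_neg_distrib]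
  congr 1
  refine Finset.sum_congr rfl fun x _ => ?_
  rw [conjTranspose_smul, Matrix.smul_mul, Matrix.mul_smul, smul_smul, smul_smul, RCLike.star_def,
    Complex.conj_ofReal, ← Complex.ofReal_mul, ← Complex.ofReal_mul,
    Real.mul_self_sqrt (mul_nonneg hε.le (hw x)), neg_mul, Complex.ofReal_neg, neg_smul]

theorem distill_keys {G : Matrix (A × B) E ℂ} (hG : fsq G = 1)
    (a : ZMod 2 → Matrix K A ℂ) (b : ZMod 2 → Matrix K' B ℂ)
    {W : Matrix (K × K') (K × K') ℂ} (hW : (1 - W * Wᴴ).PosSemidef) {p : ZMod 2 → ZMod 2 → ℝ}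
    (hp : ∀ x y, (op G ((a x)ᴴ * a x) ((b y)ᴴ * b y)).trace.re = p x y)
    (hlt : p 0 0 * p 0 1 * p 1 0 * p 1 1
      < ‖(amp G (a 0) (b 0) * W * (amp G (a 1) (b 1))ᴴ).trace‖ ^ 4) :
    ∃ c : ℝ, 0 < c ∧ ∀ ε : ℝ, 0 < ε →
      ∃ n₀ : ℕ, ∀ n, n₀ ≤ n → ∃ ℓ : ℕ, c * n ≤ ℓ ∧ Ach (piG G (Fin n)) ℓ ε := by
  set z := ‖(amp G (a 0) (b 0) * W * (amp G (a 1) (b 1))ᴴ).trace‖ with hz
  have hp0 : ∀ x y, 0 ≤ p x y := fun x y => by
    rw [← hp, ← fsq_amp]
    exact fsq_nonneg _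
  have hz0 : 0 < z := by
    refine (norm_nonneg _).lt_of_ne fun h => ?_
    rw [hz] at hlt
    rw [← h] at hlt
    have := mul_nonneg (mul_nonneg (mul_nonneg (hp0 0 0) (hp0 0 1)) (hp0 1 0)) (hp0 1 1)
    norm_num at hlt
    linarith
  have hpos : ∀ x, 0 < p x x := by
    intro x
    refine (hp0 x x).lt_of_ne fun h => ?_
    have h0 : amp G (a x) (b x) = 0 := eq_zero_of_fsq (by rw [fsq_amp, hp, ← h])
    rcases zmod2_cases x with rfl | rfl <;> simp [hz, h0] at hz0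
  have h00 := hpos 0
  have h11 := hpos 1
  obtain ⟨t, ht0, htu, htv⟩ := exists_between_ratios (u := p 0 1 * p 1 1 / z ^ 2)
    (v := p 0 0 * p 1 0 / z ^ 2) (by have := hp0 0 1; positivity)
    (by have := hp0 1 0; positivity) (by
      rw [div_mul_div_comm, div_lt_one (by positivity)]
      refine lt_of_le_of_lt (le_of_eq ?_) (lt_of_lt_of_eq hlt ?_) <;> ring)
  rw [div_lt_iff₀ (by positivity)] at htu
  rw [← mul_div_assoc, div_lt_one (by positivity)] at htv
  set s := p 1 1 / (p 0 0 * t) with hs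
  have hs0 : 0 < s := by positivity
  obtain ⟨κ, hκ, hA⟩ := exists_shrink hs0 a
  obtain ⟨μ, hμ, hB⟩ := exists_shrink ht0 b
  set α : ZMod 2 → ℝ := fun x => Real.sqrt (κ * weight s x) with hα
  set β : ZMod 2 → ℝ := fun y => Real.sqrt (μ * weight t y) with hβ
  have hα2 : ∀ x, α x * α x = κ * weight s x := fun x =>
    Real.mul_self_sqrt (mul_nonneg hκ.le (by rw [weight]; split_ifs <;> linarith))
  have hβ2 : ∀ y, β y * β y = μ * weight t y := fun y =>
    Real.mul_self_sqrt (mul_nonneg hμ.le (by rw [weight]; split_ifs <;> linarith))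
  have heff : ∀ x y, (op G (((α x : ℂ) • a x)ᴴ * ((α x : ℂ) • a x))
      (((β y : ℂ) • b y)ᴴ * ((β y : ℂ) • b y))).trace.re
      = κ * weight s x * (μ * weight t y) * p x y := by
    intro x y
    simp only [conjTranspose_smul, Matrix.smul_mul, Matrix.mul_smul, smul_smul, RCLike.star_def,
      Complex.conj_ofReal, ← Complex.ofReal_mul, hα2, hβ2, op_smul_left, op_smul_right, trace_smul,
      smul_eq_mul, Complex.re_ofReal_mul, hp]
    ring
  have hK : 0 < κ * μ := by positivity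
  have hP : ‖(amp G ((α 0 : ℂ) • a 0) ((β 0 : ℂ) • b 0) * W
      * (amp G ((α 1 : ℂ) • a 1) ((β 1 : ℂ) • b 1))ᴴ).trace‖ ^ 2
      = (κ * μ) ^ 2 * (s * t) * z ^ 2 := by
    simp only [amp_smul, conjTranspose_smul, Matrix.smul_mul, Matrix.mul_smul, smul_smul,
      trace_smul, norm_smul, norm_mul, RCLike.star_def, Complex.conj_ofReal, Complex.norm_real,
      Real.norm_eq_abs, ← hz, mul_pow, sq_abs]
    calc _ = (α 0 * α 0) * (α 1 * α 1) * ((β 0 * β 0) * (β 1 * β 1)) * z ^ 2 := by ring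
      _ = _ := by
        rw [hα2, hα2, hβ2, hβ2]
        simp only [weight, if_true, show ¬(1 : ZMod 2) = 0 from by decide, if_false]
        ring
  have hst : s * t * p 0 0 = p 1 1 := by rw [hs]; field_simp
  refine distill_balanced hG (a := fun x => (α x : ℂ) • a x) (b := fun y => (β y : ℂ) • b y) hA hB
    hW rfl (s := κ * μ * p 1 1) ?_ ?_ rfl rfl ?_ ?_
  · rw [heff, ← hst]; simp [weight]; ring
  · rw [heff]; simp [weight, show ¬(1 : ZMod 2) = 0 from by decide]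
  · rw [hP, heff]
    simp only [weight, if_true, show ¬(1 : ZMod 2) = 0 from by decide, if_false, mul_one]
    have := mul_lt_mul_of_pos_left htu (by positivity : 0 < (κ * μ) ^ 2 * s)
    linarith
  · rw [hP, heff]
    simp only [weight, if_true, show ¬(1 : ZMod 2) = 0 from by decide, if_false, mul_one]
    have h := mul_lt_mul_of_pos_left htv (by positivity : 0 < (κ * μ) ^ 2 * (p 1 1 / p 0 0))
    have e1 : s * t = p 1 1 / p 0 0 := by rw [hs]; field_simp
    rw [e1]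
    calc κ * μ * p 1 1 * (κ * (μ * t) * p 1 0)
        = (κ * μ) ^ 2 * (p 1 1 / p 0 0) * (t * (p 0 0 * p 1 0)) := by field_simp
      _ < _ := h

end

theorem distill {dA dB k l : ℕ} {ρ : Matrix (Fin dA × Fin dB) (Fin dA × Fin dB) ℂ}
    (hρ : IsState ρ) (a₀ a₁ : Matrix (Fin k) (Fin dA) ℂ) (b₀ b₁ : Matrix (Fin l) (Fin dB) ℂ)
    (W : Matrix (Fin k × Fin l) (Fin k × Fin l) ℂ) (hW : (1 - W * Wᴴ).PosSemidef)
    (h : (ρ * ((a₀ᴴ * a₀) ⊗ₖ (b₀ᴴ * b₀))).trace.re * (ρ * ((a₀ᴴ * a₀) ⊗ₖ (b₁ᴴ * b₁))).trace.re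
        * (ρ * ((a₁ᴴ * a₁) ⊗ₖ (b₀ᴴ * b₀))).trace.re * (ρ * ((a₁ᴴ * a₁) ⊗ₖ (b₁ᴴ * b₁))).trace.re
      < ‖(ρ * ((a₀ ⊗ₖ b₀)ᴴ * W * (a₁ ⊗ₖ b₁))).trace‖ ^ 4) :
    HasPositiveKey ρ := by
  constructor
  · obtain ⟨R, hR⟩ := exists_factor hρ.1
    refine ⟨dA * dB, R.submatrix (Equiv.refl _) finProdFinEquiv.symm, ?_⟩
    rw [conjTranspose_submatrix, submatrix_mul_equiv, ← hR]
    simp
  intro r G hG
  have hG1 : fsq G = 1 := by
    have := trace_mul_conjTranspose_self G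
    rw [hG, hρ.2] at this
    exact_mod_cast this.symm
  have htr : ∀ M N, (op G M N).trace = (ρ * (M ⊗ₖ N)).trace := fun M N => by
    rw [op, trace_mul_cycle, hG]
  set a : ZMod 2 → Matrix (Fin k) (Fin dA) ℂ := fun x => if x = 0 then a₀ else a₁ with ha
  set b : ZMod 2 → Matrix (Fin l) (Fin dB) ℂ := fun x => if x = 0 then b₀ else b₁ with hb
  obtain ⟨c, hc, hk⟩ := distill_keys hG1 a b hW
    (p := fun x y => (ρ * (((a x)ᴴ * a x) ⊗ₖ ((b y)ᴴ * b y))).trace.re)
    (fun x y => by rw [htr]) (by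
      have h1 : ¬(1 : ZMod 2) = 0 := by decide
      have e : (amp G a₀ b₀ * W * (amp G a₁ b₁)ᴴ).trace
          = (ρ * ((a₀ ⊗ₖ b₀)ᴴ * W * (a₁ ⊗ₖ b₁))).trace := by
        rw [amp, amp, conjTranspose_mul, conjTranspose_conjTranspose, conjTranspose_conjTranspose,
          ← hG, trace_mul_comm (G * Gᴴ)]
        rw [show Gᴴ * (a₀ ⊗ₖ b₀)ᴴ * W * ((a₁ ⊗ₖ b₁) * G)
          = Gᴴ * (((a₀ ⊗ₖ b₀)ᴴ * W * (a₁ ⊗ₖ b₁)) * G) by simp only [Matrix.mul_assoc],
          trace_mul_comm]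
        simp only [Matrix.mul_assoc]
      simpa [ha, hb, h1, e] using h)
  refine ⟨c, hc, fun ε hε => ?_⟩
  obtain ⟨N, hN⟩ := hk ε hε
  refine ⟨N, fun n hn => ?_⟩
  obtain ⟨ℓ, hℓ, hach⟩ := hN n hn
  exact ⟨ℓ, hℓ, ach_to_key hach⟩

end Vale.Agent.P372
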