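import Vale.Agent.P372.Defs

/-!
Copies of a state, the local test on finitely many copies, and protocols with any number of rounds.
-/

noncomputable section

open Matrix
open scoped ComplexOrder Kronecker

namespace Vale.Agent.P372

/-- `n` copies of a state, Alice's systems first. -/
def copiesState {A B : Type} (ρ : Matrix (A × B) (A × B) ℂ) (n : ℕ) :
    Matrix ((Fin n → A) × (Fin n → B)) ((Fin n → A) × (Fin n → B)) ℂ :=
  Matrix.of fun i j => ∏ t, ρ (i.1 t, i.2 t) (j.1 t, j.2 t)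

/-- Some number of copies, local matrices `a x`, `b y` and a contraction `W` violate the
advantage distillation inequality. -/
def CopiesTest {dA dB : ℕ} (ρ : Matrix (Fin dA × Fin dB) (Fin dA × Fin dB) ℂ) : Prop :=
  ∃ (n k l : ℕ) (a₀ a₁ : Matrix (Fin k) (Fin n → Fin dA) ℂ)
    (b₀ b₁ : Matrix (Fin l) (Fin n → Fin dB) ℂ) (W : Matrix (Fin k × Fin l) (Fin k × Fin l) ℂ),
    0 < n ∧ (1 - W * Wᴴ).PosSemidef ∧
    (copiesState ρ n * ((a₀ᴴ * a₀) ⊗ₖ (b₀ᴴ * b₀))).trace.re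
        * (copiesState ρ n * ((a₀ᴴ * a₀) ⊗ₖ (b₁ᴴ * b₁))).trace.re
        * (copiesState ρ n * ((a₁ᴴ * a₁) ⊗ₖ (b₀ᴴ * b₀))).trace.re
        * (copiesState ρ n * ((a₁ᴴ * a₁) ⊗ₖ (b₁ᴴ * b₁))).trace.re
      < ‖(copiesState ρ n * ((a₀ ⊗ₖ b₀)ᴴ * W * (a₁ ⊗ₖ b₁))).trace‖ ^ 4

/-- A protocol with arbitrarily many rounds gives one key bit from `n` copies with error at most
`ε`: for each complete transcript `u` the effects of the outputs `x`, `y` are products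
`MA u x ⊗ MB u y`. -/
def OneBitWithError {dA dB r : ℕ} (G : Matrix (Fin dA × Fin dB) (Fin r) ℂ) (n : ℕ) (ε : ℝ) :
    Prop :=
  ∃ (s : ℕ) (MA : Fin s → ZMod 2 → Matrix (Fin n → Fin dA) (Fin n → Fin dA) ℂ)
    (MB : Fin s → ZMod 2 → Matrix (Fin n → Fin dB) (Fin n → Fin dB) ℂ)
    (σ : Fin s → Matrix (Fin n → Fin r) (Fin n → Fin r) ℂ),
    (∀ u x, (MA u x).PosSemidef) ∧ (∀ u y, (MB u y).PosSemidef) ∧
    ∑ u, (∑ x, MA u x) ⊗ₖ (∑ y, MB u y) = 1 ∧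
    (∀ u, (σ u).PosSemidef) ∧ ∑ u, (σ u).trace = 1 ∧
    ∑ x, ∑ y, ∑ u, traceNorm (eveOp (copies G n) (MA u x) (MB u y)
      - if x = y then (2 : ℂ)⁻¹ • σ u else 0) ≤ ε

end Vale.Agent.P372
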