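import Vale.Agent.P372.Bnd

/-!
Fidelity of two positive matrices against their distance, and the trace norm against contractions.
-/

noncomputable section

open Matrix Finset
open scoped ComplexOrder

namespace Vale.Agent.P372

section
variable {ι κ : Type} [Fintype ι] [DecidableEq ι] [Fintype κ] [DecidableEq κ]

/-- A contraction pairs with a matrix to at most its trace norm. -/
theorem norm_trace_mul_le_traceNorm {S : Matrix ι ι ℂ} (hS : (1 - S * Sᴴ).PosSemidef)
    (X : Matrix ι ι ℂ) : ‖(S * X).trace‖ ≤ traceNorm X := by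
  set hH := isHermitian_conjTranspose_mul_self X
  set U : Matrix ι ι ℂ := (hH.eigenvectorUnitary : Matrix ι ι ℂ)
  have hUU : Uᴴ * U = 1 := by
    rw [← star_eq_conjTranspose]; exact Unitary.coe_star_mul_self _
  have hUU' : U * Uᴴ = 1 := by
    rw [← star_eq_conjTranspose]; exact Unitary.coe_mul_star_self _
  have hdiag : Uᴴ * (Xᴴ * X) * U = diagonal (fun i => (hH.eigenvalues i : ℂ)) := by
    have h := hH.spectral_theorem
    rw [Unitary.conjStarAlgAut_apply] at h
    conv_lhs => rw [h]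
    rw [star_eq_conjTranspose, show Uᴴ * (U * diagonal (RCLike.ofReal ∘ hH.eigenvalues) * Uᴴ) * U
      = (Uᴴ * U) * diagonal (RCLike.ofReal ∘ hH.eigenvalues) * (Uᴴ * U) by
        simp only [Matrix.mul_assoc], hUU, Matrix.one_mul, Matrix.mul_one]
    rfl
  have hcol : ∀ i, vn (fun j => (X * U) j i) = Real.sqrt (hH.eigenvalues i) := fun i => by
    rw [vn]
    congr 1
    have h := congrFun (congrFun hdiag i) i
    rw [diagonal_apply_eq, show Uᴴ * (Xᴴ * X) * U = (X * U)ᴴ * (X * U) by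
      simp only [conjTranspose_mul, Matrix.mul_assoc]] at h
    have hd : ((X * U)ᴴ * (X * U)) i i = (vsq (fun j => (X * U) j i) : ℂ) := by
      rw [← dot_self]; rfl
    rw [hd] at h
    exact_mod_cast h
  have hrow : ∀ i, vn (fun j => (Sᴴ * U) j i) ≤ 1 := fun i => by
    have h := hS.conjTranspose_mul_mul_same U
    have hii := h.diag_nonneg (i := i)
    rw [show Uᴴ * (1 - S * Sᴴ) * U = 1 - (Sᴴ * U)ᴴ * (Sᴴ * U) by
      simp only [Matrix.mul_sub, Matrix.sub_mul, Matrix.mul_one, hUU, conjTranspose_mul,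
        conjTranspose_conjTranspose, Matrix.mul_assoc]] at hii
    have hd : ((Sᴴ * U)ᴴ * (Sᴴ * U)) i i = (vsq (fun j => (Sᴴ * U) j i) : ℂ) := by
      rw [← dot_self]; rfl
    rw [Matrix.sub_apply, one_apply_eq, hd, sub_nonneg] at hii
    rw [vn]
    exact (Real.sqrt_le_sqrt (by exact_mod_cast hii)).trans (le_of_eq Real.sqrt_one)
  have htr : (S * X).trace = ∑ i, star (fun j => (Sᴴ * U) j i) ⬝ᵥ (fun j => (X * U) j i) := by
    rw [show (S * X).trace = ((Sᴴ * U)ᴴ * (X * U)).trace by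
      rw [conjTranspose_mul, conjTranspose_conjTranspose, trace_mul_comm (Uᴴ * S),
        show X * U * (Uᴴ * S) = X * (U * Uᴴ) * S by simp only [Matrix.mul_assoc],
        hUU', Matrix.mul_one, trace_mul_comm S X]]
    rfl
  rw [htr, traceNorm]
  refine (norm_sum_le _ _).trans (Finset.sum_le_sum fun i _ => ?_)
  refine (norm_dot_le _ _).trans ?_
  rw [hcol]
  exact mul_le_of_le_one_left (Real.sqrt_nonneg _) (hrow i)

/-- A matrix `U` with `U U* = 1` turns a real diagonal into a Hermitian matrix. -/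
theorem conj_diag_mul {U : Matrix ι ι ℂ} (hUU : Uᴴ * U = 1) (f g : ι → ℂ) :
    U * diagonal f * Uᴴ * (U * diagonal g * Uᴴ) = U * diagonal (fun i => f i * g i) * Uᴴ := by
  rw [show U * diagonal f * Uᴴ * (U * diagonal g * Uᴴ)
    = U * diagonal f * (Uᴴ * U) * diagonal g * Uᴴ by simp only [Matrix.mul_assoc], hUU,
    Matrix.mul_one, Matrix.mul_assoc U, diagonal_mul_diagonal]

/-- Square root and pseudo-inverse square root of a positive matrix. -/
theorem exists_sqrt_pinv {E : Matrix ι ι ℂ} (hE : E.PosSemidef) :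
    ∃ R P : Matrix ι ι ℂ, R.PosSemidef ∧ R * R = E ∧ Pᴴ = P ∧ E * P = R ∧
      P * (P * E * P) = P := by
  set U : Matrix ι ι ℂ := (hE.1.eigenvectorUnitary : Matrix ι ι ℂ)
  have hUU : Uᴴ * U = 1 := by
    rw [← star_eq_conjTranspose]; exact Unitary.coe_star_mul_self _
  set l := hE.1.eigenvalues
  have hl : ∀ i, 0 ≤ l i := fun i => hE.eigenvalues_nonneg i
  have hEe : E = U * diagonal (fun i => (l i : ℂ)) * Uᴴ := by
    have h := hE.1.spectral_theorem
    rw [Unitary.conjStarAlgAut_apply] at h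
    rw [← star_eq_conjTranspose]
    exact h
  refine ⟨U * diagonal (fun i => (Real.sqrt (l i) : ℂ)) * Uᴴ,
    U * diagonal (fun i => ((Real.sqrt (l i))⁻¹ : ℝ) : ι → ℂ) * Uᴴ, ?_, ?_, ?_, ?_, ?_⟩
  · exact (posSemidef_diagonal_iff.2 fun i =>
      Complex.zero_le_real.2 (Real.sqrt_nonneg _)).mul_mul_conjTranspose_same U
  · rw [conj_diag_mul hUU, hEe]
    simp only [← Complex.ofReal_mul, Real.mul_self_sqrt (hl _)]
  · simp [conjTranspose_mul, diagonal_conjTranspose, Matrix.mul_assoc, Pi.star_def]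
  · rw [hEe, conj_diag_mul hUU]
    congr 2
    refine congrArg diagonal (funext fun i => ?_)
    rw [← Complex.ofReal_mul]
    congr 1
    rcases (hl i).eq_or_lt with h | h
    · simp [← h]
    · field_simp
      rw [Real.sq_sqrt (hl i)]
  · rw [hEe, conj_diag_mul hUU, conj_diag_mul hUU, conj_diag_mul hUU]
    congr 2
    refine congrArg diagonal (funext fun i => ?_)
    simp only [← Complex.ofReal_mul]
    congr 1
    rcases (hl i).eq_or_lt with h | h
    · simp [← h]
    · have hs : 0 < Real.sqrt (l i) := Real.sqrt_pos.2 h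
      field_simp
      rw [Real.sq_sqrt (hl i)]

/-- A Powers-Størmer bound, in the form tested by one contraction. -/
theorem powers_stormer {R₀ R₁ : Matrix ι ι ℂ} (h₀ : R₀.PosSemidef) (h₁ : R₁.PosSemidef) :
    ∃ S : Matrix ι ι ℂ, Sᴴ * S = 1 ∧
      (R₀ * R₀).trace.re + (R₁ * R₁).trace.re - (S * (R₀ * R₀ - R₁ * R₁)).trace.re
        ≤ 2 * (R₀ * R₁).trace.re := by
  set D := R₀ - R₁ with hDdef
  set T := R₀ + R₁ with hTdef
  have hD : D.IsHermitian := h₀.1.sub h₁.1
  set U : Matrix ι ι ℂ := (hD.eigenvectorUnitary : Matrix ι ι ℂ)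
  have hUU : Uᴴ * U = 1 := by
    rw [← star_eq_conjTranspose]; exact Unitary.coe_star_mul_self _
  have hUU' : U * Uᴴ = 1 := by
    rw [← star_eq_conjTranspose]; exact Unitary.coe_mul_star_self _
  set d := hD.eigenvalues
  have hDe : D = U * diagonal (fun i => (d i : ℂ)) * Uᴴ := by
    have h := hD.spectral_theorem
    rw [Unitary.conjStarAlgAut_apply] at h
    rw [← star_eq_conjTranspose]
    exact h
  set g : ι → ℝ := fun i => if 0 ≤ d i then 1 else -1
  set S := U * diagonal (fun i => (g i : ℂ)) * Uᴴ with hSdef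
  have hSh : Sᴴ = S := by
    simp [hSdef, conjTranspose_mul, diagonal_conjTranspose, Matrix.mul_assoc, Pi.star_def]
  refine ⟨S, ?_, ?_⟩
  · have h : S * S = 1 := by
      rw [hSdef, conj_diag_mul hUU]
      have : (fun i => (g i : ℂ) * (g i : ℂ)) = fun _ => 1 := funext fun i => by
        by_cases h : 0 ≤ d i <;> simp [g, h]
      rw [this, diagonal_one, Matrix.mul_one, hUU']
    rw [hSh, h]
  set Y := Uᴴ * T * U with hYdef
  have hY : ∀ i, |d i| ≤ (Y i i).re := fun i => by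
    have hDd : Uᴴ * D * U = diagonal (fun i => (d i : ℂ)) := by
      rw [hDe, show Uᴴ * (U * diagonal (fun i => (d i : ℂ)) * Uᴴ) * U
        = (Uᴴ * U) * diagonal (fun i => (d i : ℂ)) * (Uᴴ * U) by simp only [Matrix.mul_assoc],
        hUU, Matrix.one_mul, Matrix.mul_one]
    have a0 := (h₀.add h₀).conjTranspose_mul_mul_same U
    have a1 := (h₁.add h₁).conjTranspose_mul_mul_same U
    rw [show R₀ + R₀ = T + D by rw [hTdef, hDdef]; abel, Matrix.mul_add, Matrix.add_mul, hDd,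
      ← hYdef] at a0
    rw [show R₁ + R₁ = T - D by rw [hTdef, hDdef]; abel, Matrix.mul_sub, Matrix.sub_mul, hDd,
      ← hYdef] at a1
    have b0 := (Complex.le_def.1 (a0.diag_nonneg (i := i))).1
    have b1 := (Complex.le_def.1 (a1.diag_nonneg (i := i))).1
    simp at b0 b1
    rw [abs_le]
    constructor <;> linarith
  have hDS : D * S = S * D := by
    rw [hDe, hSdef, conj_diag_mul hUU, conj_diag_mul hUU]
    simp only [mul_comm]
  have e1 : (S * (R₀ * R₀ - R₁ * R₁)).trace = (S * D * T).trace := by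
    have h2 : R₀ * R₀ - R₁ * R₁ + (R₀ * R₀ - R₁ * R₁) = D * T + T * D := by
      rw [hTdef, hDdef]; noncomm_ring
    have h3 : (S * (T * D)).trace = (S * D * T).trace := by
      rw [trace_mul_comm S, Matrix.mul_assoc, hDS, trace_mul_comm]
    have h4 := congrArg (fun M => (S * M).trace) h2
    simp only [Matrix.mul_add, trace_add, h3] at h4
    rw [← Matrix.mul_assoc S D T] at h4
    linear_combination h4 / 2
  have e2 : (S * D * T).trace = ∑ i, ((g i * d i : ℝ) : ℂ) * Y i i := by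
    rw [hDe, hSdef, conj_diag_mul hUU, trace_mul_comm, ← Matrix.mul_assoc, ← Matrix.mul_assoc,
      trace_mul_comm, ← Matrix.mul_assoc, ← Matrix.mul_assoc, ← hYdef, trace]
    refine Finset.sum_congr rfl fun i _ => ?_
    rw [diag_apply, mul_diagonal, mul_comm]
    push_cast
    rfl
  have e3 : (D * D).trace = ∑ i, ((d i * d i : ℝ) : ℂ) := by
    rw [hDe, conj_diag_mul hUU, trace_mul_comm, ← Matrix.mul_assoc, hUU, Matrix.one_mul,
      trace_diagonal]
    simp
  have e4 : (D * D).trace.re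
      = (R₀ * R₀).trace.re + (R₁ * R₁).trace.re - 2 * (R₀ * R₁).trace.re := by
    rw [hDdef]
    simp only [Matrix.sub_mul, Matrix.mul_sub, trace_sub, Complex.sub_re, trace_mul_comm R₁ R₀]
    ring
  have key : ∑ i, d i * d i ≤ (S * (R₀ * R₀ - R₁ * R₁)).trace.re := by
    rw [e1, e2, Complex.re_sum]
    refine Finset.sum_le_sum fun i _ => ?_
    rw [Complex.re_ofReal_mul]
    by_cases h : 0 ≤ d i
    · simp only [g, h, if_true, one_mul]
      exact mul_le_mul_of_nonneg_left (le_of_abs_le (hY i)) h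
    · simp only [g, h, if_false]
      have h' := neg_le_of_abs_le (hY i)
      nlinarith
  rw [e3, Complex.re_sum] at e4
  simp only [Complex.ofReal_re] at e4
  linarith

theorem compl_posSemidef {M : Matrix κ κ ℂ} (hMh : Mᴴ = M) (hMM : M * M = M) :
    (1 - M).PosSemidef := by
  have he : 1 - M = (1 - M) * (1 - M)ᴴ := by
    rw [conjTranspose_sub, conjTranspose_one, hMh, Matrix.sub_mul, Matrix.mul_sub,
      Matrix.mul_one, Matrix.mul_sub, Matrix.mul_one, Matrix.one_mul, hMM]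
    abel
  rw [he]
  exact posSemidef_self_mul_conjTranspose _

theorem compl_gram {C : Matrix ι κ ℂ} {P : Matrix ι ι ℂ} (hP : Pᴴ = P)
    (hQ : P * (P * (C * Cᴴ) * P) = P) :
    (1 - Cᴴ * P * (Cᴴ * P)ᴴ).PosSemidef ∧ (1 - (Cᴴ * P)ᴴ * (Cᴴ * P)).PosSemidef := by
  set V := Cᴴ * P with hV
  have hM : Vᴴ * V = P * (C * Cᴴ) * P := by
    rw [hV, conjTranspose_mul, conjTranspose_conjTranspose, hP]
    simp only [Matrix.mul_assoc]
  have hVM : V * (Vᴴ * V) = V := by
    rw [hM, hV, Matrix.mul_assoc Cᴴ P, hQ]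
  refine ⟨compl_posSemidef (isHermitian_mul_conjTranspose_self V).eq ?_,
    compl_posSemidef (isHermitian_conjTranspose_mul_self V).eq ?_⟩
  · rw [← Matrix.mul_assoc, Matrix.mul_assoc V, hVM]
  · rw [Matrix.mul_assoc, hVM]

theorem compl_mul {V₀ V₁ : Matrix κ ι ℂ} (h₀ : (1 - V₀ * V₀ᴴ).PosSemidef)
    (h₁ : (1 - V₁ᴴ * V₁).PosSemidef) : (1 - V₀ * V₁ᴴ * (V₀ * V₁ᴴ)ᴴ).PosSemidef := by
  have h := h₀.add (h₁.mul_mul_conjTranspose_same V₀)
  convert h using 1
  rw [conjTranspose_mul, conjTranspose_conjTranspose, Matrix.mul_sub, Matrix.sub_mul,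
    Matrix.mul_one]
  simp only [Matrix.mul_assoc]
  abel

/-- A contraction `W` for which `tr A W B*` equals the trace of the product of the square roots
of `A A*` and `B B*`. -/
theorem exists_overlap (A B : Matrix ι κ ℂ) :
    ∃ (W : Matrix κ κ ℂ) (R₀ R₁ : Matrix ι ι ℂ), (1 - W * Wᴴ).PosSemidef ∧ R₀.PosSemidef ∧
      R₁.PosSemidef ∧ R₀ * R₀ = A * Aᴴ ∧ R₁ * R₁ = B * Bᴴ ∧
      (A * W * Bᴴ).trace = (R₀ * R₁).trace := by
  obtain ⟨R₀, P₀, hR₀, hR₀2, hP₀, hP₀E, hP₀Q⟩ :=
    exists_sqrt_pinv (posSemidef_self_mul_conjTranspose A)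
  obtain ⟨R₁, P₁, hR₁, hR₁2, hP₁, hP₁E, hP₁Q⟩ :=
    exists_sqrt_pinv (posSemidef_self_mul_conjTranspose B)
  refine ⟨Aᴴ * P₀ * (Bᴴ * P₁)ᴴ, R₀, R₁,
    compl_mul (compl_gram hP₀ hP₀Q).1 (compl_gram hP₁ hP₁Q).2, hR₀, hR₁, hR₀2, hR₁2, ?_⟩
  have h := congrArg conjTranspose hP₁E
  rw [conjTranspose_mul, (isHermitian_mul_conjTranspose_self B).eq, hP₁, hR₁.1.eq] at h
  rw [conjTranspose_mul, conjTranspose_conjTranspose, hP₁, ← hP₀E, ← h]
  simp only [Matrix.mul_assoc]

theorem compl_transpose {S : Matrix ι ι ℂ} (h : Sᴴ * S = 1) :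
    (1 - Sᵀ * Sᵀᴴ).PosSemidef := by
  rw [show Sᵀ * Sᵀᴴ = (Sᴴ * S)ᵀ by rw [transpose_mul]; rfl, h, transpose_one, sub_self]
  exact PosSemidef.zero

end

end Vale.Agent.P372
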