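import Vale.Agent.P372.Qfi
import Vale.Agent.P372.Polar
import Vale.Agent.P372.ExactDefs

/-!
Positive key is equivalent to the test on finitely many copies.
-/

noncomputable section

open Matrix Finset
open scoped ComplexOrder Kronecker MatrixOrder

namespace Vale.Agent.P372

section
variable {A B E K K' : Type} [Fintype A] [Fintype B] [Fintype E] [DecidableEq A] [DecidableEq B]
  [DecidableEq E] [Fintype K] [Fintype K'] [DecidableEq K] [DecidableEq K']

theorem trace_op_gram (G : Matrix (A × B) E ℂ) (M : Matrix A A ℂ) (N : Matrix B B ℂ) :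
    (op G M N).trace = (G * Gᴴ * (M ⊗ₖ N)).trace := by
  rw [op, trace_mul_cycle]

theorem trace_amp (G : Matrix (A × B) E ℂ) (a₀ a₁ : Matrix K A ℂ) (b₀ b₁ : Matrix K' B ℂ)
    (W : Matrix (K × K') (K × K') ℂ) :
    (amp G a₀ b₀ * W * (amp G a₁ b₁)ᴴ).trace
      = (G * Gᴴ * ((a₀ ⊗ₖ b₀)ᴴ * W * (a₁ ⊗ₖ b₁))).trace := by
  rw [amp, amp, conjTranspose_mul, conjTranspose_conjTranspose, conjTranspose_conjTranspose,
    trace_mul_comm (G * Gᴴ)]
  rw [show Gᴴ * (a₀ ⊗ₖ b₀)ᴴ * W * ((a₁ ⊗ₖ b₁) * G)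
    = Gᴴ * (((a₀ ⊗ₖ b₀)ᴴ * W * (a₁ ⊗ₖ b₁)) * G) by simp only [Matrix.mul_assoc],
    trace_mul_comm]
  simp only [Matrix.mul_assoc]

theorem piG_gram (G : Matrix (A × B) E ℂ) (n : ℕ) :
    piG G (Fin n) * (piG G (Fin n))ᴴ = copiesState (G * Gᴴ) n := by
  ext i j
  simp [piG, copiesState, Matrix.mul_apply, Fintype.prod_sum, Finset.prod_mul_distrib]

end

/-- The test implies key. -/
theorem key_of_test {dA dB : ℕ} {ρ : Matrix (Fin dA × Fin dB) (Fin dA × Fin dB) ℂ}
    (hρ : IsState ρ) (h : CopiesTest ρ) : HasPositiveKey ρ := by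
  obtain ⟨n, k, l, a₀, a₁, b₀, b₁, W, hn, hW, hlt⟩ := h
  constructor
  · obtain ⟨R, hR⟩ := exists_factor hρ.1
    refine ⟨dA * dB, R.submatrix (Equiv.refl _) finProdFinEquiv.symm, ?_⟩
    rw [conjTranspose_submatrix, submatrix_mul_equiv, ← hR]
    simp
  intro r G hG
  have hG1 : fsq G = 1 := by
    have := trace_mul_conjTranspose_self G
    rw [hG, hρ.2] at this
    exact_mod_cast this.symm
  set a : ZMod 2 → Matrix (Fin k) (Fin n → Fin dA) ℂ := fun x => if x = 0 then a₀ else a₁ with ha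
  set b : ZMod 2 → Matrix (Fin l) (Fin n → Fin dB) ℂ := fun x => if x = 0 then b₀ else b₁ with hb
  have hgram := piG_gram G n
  rw [hG] at hgram
  obtain ⟨c, hc, hk⟩ := distill_keys (fsq_piG (I := Fin n) G hG1) a b hW
    (p := fun x y => (copiesState ρ n * (((a x)ᴴ * a x) ⊗ₖ ((b y)ᴴ * b y))).trace.re)
    (fun x y => by rw [trace_op_gram, hgram]) (by
      have h1 : ¬(1 : ZMod 2) = 0 := by decide
      rw [trace_amp, hgram]
      simpa [ha, hb, h1] using hlt)
  refine ⟨c / (2 * n), by positivity, fun ε hε => ?_⟩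
  obtain ⟨N, hN⟩ := hk ε hε
  refine ⟨n * (N + 1), fun m hm => ?_⟩
  have hq : N + 1 ≤ m / n := (Nat.le_div_iff_mul_le hn).2 (by rw [mul_comm]; exact hm)
  obtain ⟨ℓ, hℓ, hach⟩ := hN (m / n) (by omega)
  refine ⟨ℓ, le_trans ?_ hℓ, ach_to_key (ach_pad hG1 (I := Fin (m / n) × Fin n) ?_ (ach_curry hach))⟩
  · have h1 : m < n * (m / n + 1) := Nat.lt_mul_div_succ m hn
    have h2 : (m : ℝ) ≤ n * (((m / n : ℕ) : ℝ) + 1) := by exact_mod_cast h1.le
    have h3 : (1 : ℝ) ≤ ((m / n : ℕ) : ℝ) := by exact_mod_cast (le_trans (Nat.le_add_left 1 N) hq)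
    have hn' : (0 : ℝ) < n := by exact_mod_cast hn
    rw [div_mul_eq_mul_div, div_le_iff₀ (by positivity)]
    calc c * m ≤ c * (n * (((m / n : ℕ) : ℝ) + 1)) := mul_le_mul_of_nonneg_left h2 hc.le
      _ ≤ c * ((m / n : ℕ) : ℝ) * (2 * n) := by
        nlinarith [mul_le_mul_of_nonneg_left h3 (by positivity : (0 : ℝ) ≤ c * n)]
  · simpa using Nat.div_mul_le_self m n

/-- One outcome of a protocol close to an ideal key bit passes the inequality. -/
theorem arith_test {p00 p01 p10 p11 s e F : ℝ} (hs : 0 ≤ s) (h00 : 0 ≤ p00)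
    (h01 : 0 ≤ p01) (h10 : 0 ≤ p10) (h11 : 0 ≤ p11) (he : e < s / 5)
    (hsum : p00 + p11 ≤ s + e) (hoff : p01 + p10 ≤ e) (hF : (s - 2 * e) / 2 ≤ F) :
    p00 * p01 * p10 * p11 < F ^ 4 := by
  have he0 : 0 ≤ e := le_trans (by positivity) hoff
  have ha : p00 * p11 ≤ ((s + e) / 2) ^ 2 := by
    have : p00 * p11 ≤ ((p00 + p11) / 2) ^ 2 := by nlinarith [sq_nonneg (p00 - p11)]
    exact this.trans (pow_le_pow_left₀ (by positivity) (by linarith) 2)
  have hb : p01 * p10 ≤ (e / 2) ^ 2 := by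
    have : p01 * p10 ≤ ((p01 + p10) / 2) ^ 2 := by nlinarith [sq_nonneg (p01 - p10)]
    exact this.trans (pow_le_pow_left₀ (by positivity) (by linarith) 2)
  have hF0 : 3 / 10 * s < F := by linarith
  calc p00 * p01 * p10 * p11 = (p00 * p11) * (p01 * p10) := by ring
    _ ≤ (3 / 5 * s) ^ 2 * (s / 10) ^ 2 :=
      mul_le_mul (ha.trans (pow_le_pow_left₀ (by positivity) (by linarith) 2))
        (hb.trans (pow_le_pow_left₀ (by positivity) (by linarith) 2)) (by positivity) (by positivity)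
    _ ≤ (3 / 10 * s) ^ 4 := by nlinarith [pow_nonneg hs 4]
    _ < F ^ 4 := pow_lt_pow_left₀ hF0 (by positivity) (by norm_num)

/-- One bit with error below one fifth from finitely many copies gives the test. -/
theorem test_of_oneBit {dA dB r n : ℕ} {G : Matrix (Fin dA × Fin dB) (Fin r) ℂ} {ε : ℝ}
    (hn : 0 < n) (hε : ε < 1 / 5) (h : OneBitWithError G n ε) : CopiesTest (G * Gᴴ) := by
  obtain ⟨s, MA, MB, σ, hA, hB, -, hσ, hσ1, herr⟩ := h
  set e : Fin s → ℝ := fun u => ∑ x, ∑ y, traceNorm (eveOp (copies G n) (MA u x) (MB u y)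
    - if x = y then (2 : ℂ)⁻¹ • σ u else 0) with he
  have hsum : ∑ u, e u ≤ ε := by
    refine le_trans (le_of_eq ?_) herr
    simp only [he]
    rw [Finset.sum_comm]
    exact Finset.sum_congr rfl fun x _ => Finset.sum_comm
  obtain ⟨u, hu⟩ : ∃ u, e u < (σ u).trace.re / 5 := by
    by_contra hno
    push Not at hno
    have h2 := Finset.sum_le_sum fun u (_ : u ∈ Finset.univ) => hno u
    rw [← Finset.sum_div, ← Complex.re_sum, hσ1, Complex.one_re] at h2
    linarith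
  set Gn : Matrix ((Fin n → Fin dA) × (Fin n → Fin dB)) (Fin n → Fin r) ℂ := piG G (Fin n)
  choose RA hRA using fun x => exists_factor (hA u x)
  choose RB hRB using fun y => exists_factor (hB u y)
  set amps : ZMod 2 → ZMod 2 → Matrix (Fin n → Fin r) ((Fin n → Fin dA) × (Fin n → Fin dB)) ℂ :=
    fun x y => amp Gn (RA x)ᴴ (RB y)ᴴ with hamps
  set p : ZMod 2 → ZMod 2 → ℝ := fun x y => (op Gn (MA u x) (MB u y)).trace.re with hp
  have hpe : ∀ x y, amps x y * (amps x y)ᴴ = op Gn (MA u x) (MB u y) := fun x y => by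
    rw [hamps, amp_mul_self, conjTranspose_conjTranspose, conjTranspose_conjTranspose, ← hRA,
      ← hRB]
  have hp0 : ∀ x y, 0 ≤ p x y := fun x y =>
    (Complex.le_def.1 (op_posSemidef Gn (hA u x) (hB u y)).trace_nonneg).1
  set D : ZMod 2 → ZMod 2 → ℝ := fun x y => traceNorm (eveOp (copies G n) (MA u x) (MB u y)
    - if x = y then (2 : ℂ)⁻¹ • σ u else 0) with hD
  set τ : Matrix (Fin n → Fin r) (Fin n → Fin r) ℂ := (σ u)ᵀ with hτ
  have hdist : ∀ x y (S : Matrix (Fin n → Fin r) (Fin n → Fin r) ℂ),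
      Sᴴ * S = 1 → |(S * (op Gn (MA u x) (MB u y)
        - if x = y then (2 : ℂ)⁻¹ • τ else 0)).trace.re| ≤ D x y := fun x y S hS => by
    refine (Complex.abs_re_le_norm _).trans ?_
    have e1 : (S * (op Gn (MA u x) (MB u y) - if x = y then (2 : ℂ)⁻¹ • τ else 0)).trace
        = (Sᵀ * (eveOp (copies G n) (MA u x) (MB u y)
            - if x = y then (2 : ℂ)⁻¹ • σ u else 0)).trace := by
      have e2 : eveOp (copies G n) (MA u x) (MB u y) = (op Gn (MA u x) (MB u y))ᵀ := rfl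
      rw [e2, ← trace_transpose, transpose_mul, transpose_sub, trace_mul_comm]
      congr 3
      split_ifs <;> simp [hτ]
    rw [e1]
    refine norm_trace_mul_le_traceNorm ?_ _
    exact compl_transpose hS
  have hone : (1 : Matrix (Fin n → Fin r) (Fin n → Fin r) ℂ)ᴴ * 1 = 1 := by
    rw [conjTranspose_one, Matrix.mul_one]
  have hoff : ∀ x y, x ≠ y → p x y ≤ D x y := fun x y hxy => by
    have h1 := hdist x y 1 hone
    rw [if_neg hxy, sub_zero, Matrix.one_mul] at h1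
    exact (le_abs_self _).trans h1
  have hτt : τ.trace.re = (σ u).trace.re := by rw [hτ, trace_transpose]
  have hdiag : ∀ x, |p x x - (σ u).trace.re / 2| ≤ D x x := fun x => by
    have h1 := hdist x x 1 hone
    rw [if_pos rfl, Matrix.one_mul, trace_sub, trace_smul, Complex.sub_re, smul_eq_mul] at h1
    simpa [hτt, div_eq_inv_mul] using h1
  obtain ⟨W, R₀, R₁, hW, hR₀, hR₁, e0, e1, eW⟩ := exists_overlap (amps 0 0) (amps 1 1)
  obtain ⟨S, hS, hPS⟩ := powers_stormer hR₀ hR₁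
  rw [e0, e1, hpe, hpe] at hPS
  have hgap : (S * (op Gn (MA u 0) (MB u 0) - op Gn (MA u 1) (MB u 1))).trace.re
      ≤ D 0 0 + D 1 1 := by
    have a0 := (abs_le.1 (hdist 0 0 S hS)).2
    have a1 := (abs_le.1 (hdist 1 1 S hS)).1
    simp only [if_pos, Matrix.mul_sub, trace_sub, Complex.sub_re] at a0 a1 ⊢
    linarith
  have heu : D 0 0 + D 0 1 + (D 1 0 + D 1 1) = e u := by
    simp only [he, hD, sum_zmod2]
  have b00 := abs_le.1 (hdiag 0)
  have b11 := abs_le.1 (hdiag 1)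
  have d0 : ∀ x y, 0 ≤ D x y := fun x y => Finset.sum_nonneg fun _ _ => Real.sqrt_nonneg _
  have hmain : p 0 0 * p 0 1 * p 1 0 * p 1 1
      < ‖(amps 0 0 * W * (amps 1 1)ᴴ).trace‖ ^ 4 := by
    refine arith_test (Complex.le_def.1 (hσ u).trace_nonneg).1 (hp0 _ _) (hp0 _ _) (hp0 _ _)
      (hp0 _ _) hu ?_ ?_ ?_
    · linarith [d0 0 1, d0 1 0]
    · linarith [hoff 0 1 (by decide), hoff 1 0 (by decide), d0 0 0, d0 1 1]
    · refine le_trans ?_ (Complex.re_le_norm _)
      rw [eW]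
      simp only [hp] at b00 b11
      linarith [d0 0 1, d0 1 0]
  set eA := Fintype.equivFin (Fin n → Fin dA)
  set eB := Fintype.equivFin (Fin n → Fin dB)
  have hR : ∀ {ι κ μ : Type} [Fintype κ] [Fintype μ] (R : Matrix ι κ ℂ) (f : μ ≃ κ),
      (Rᴴ.submatrix f id)ᴴ * (Rᴴ.submatrix f id) = R * Rᴴ := fun R f => by
    rw [conjTranspose_submatrix, conjTranspose_conjTranspose, submatrix_mul_equiv, submatrix_id_id]
  refine ⟨n, _, _, (RA 0)ᴴ.submatrix eA.symm id, (RA 1)ᴴ.submatrix eA.symm id,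
    (RB 0)ᴴ.submatrix eB.symm id, (RB 1)ᴴ.submatrix eB.symm id,
    W.submatrix (eA.symm.prodCongr eB.symm) (eA.symm.prodCongr eB.symm), hn, ?_, ?_⟩
  · rw [conjTranspose_submatrix, submatrix_mul_equiv,
      ← submatrix_one_equiv (eA.symm.prodCongr eB.symm)]
    exact hW.submatrix _
  · have hk : ∀ (a : Matrix (Fin n → Fin dA) (Fin n → Fin dA) ℂ)
        (b : Matrix (Fin n → Fin dB) (Fin n → Fin dB) ℂ),
        (a.submatrix eA.symm id) ⊗ₖ (b.submatrix eB.symm id)
          = (a ⊗ₖ b).submatrix (eA.symm.prodCongr eB.symm) id := fun a b => by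
      ext i j
      rfl
    have hA' : ∀ x, ((RA x)ᴴ.submatrix eA.symm id)ᴴ * ((RA x)ᴴ.submatrix eA.symm id)
        = MA u x := fun x => (hR (RA x) eA.symm).trans (hRA x).symm
    have hB' : ∀ y, ((RB y)ᴴ.submatrix eB.symm id)ᴴ * ((RB y)ᴴ.submatrix eB.symm id)
        = MB u y := fun y => (hR (RB y) eB.symm).trans (hRB y).symm
    have hcs : ∀ M N, (copiesState (G * Gᴴ) n * (M ⊗ₖ N)).trace = (op Gn M N).trace :=
      fun M N => by rw [trace_op_gram, piG_gram]
    rw [hA', hA', hB', hB', hcs, hcs, hcs, hcs, hk, hk, conjTranspose_submatrix,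
      submatrix_mul_equiv, submatrix_mul_equiv, submatrix_id_id, ← piG_gram, ← trace_amp]
    exact hmain

end Vale.Agent.P372
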