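import Vale.Agent.P372.Exact

/-!
Key gives one bit from finitely many copies; the test is an open condition.
-/

noncomputable section

open Matrix Finset
open scoped ComplexOrder Kronecker

namespace Vale.Agent.P372

theorem traceNorm_nonneg {ι : Type} [Fintype ι] [DecidableEq ι] (X : Matrix ι ι ℂ) :
    0 ≤ traceNorm X :=
  Finset.sum_nonneg fun _ _ => Real.sqrt_nonneg _

theorem bnd_traceNorm {ι : Type} [Fintype ι] [DecidableEq ι] (X : Matrix ι ι ℂ) :
    Bnd X (traceNorm X) := by
  set hH := isHermitian_conjTranspose_mul_self X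
  set U : Matrix ι ι ℂ := (hH.eigenvectorUnitary : Matrix ι ι ℂ)
  have hUU : Uᴴ * U = 1 := by
    rw [← star_eq_conjTranspose]; exact Unitary.coe_star_mul_self _
  have hUU' : U * Uᴴ = 1 := by
    rw [← star_eq_conjTranspose]; exact Unitary.coe_mul_star_self _
  have hdiag : (X * U)ᴴ * (X * U) = diagonal (fun i => (hH.eigenvalues i : ℂ)) := by
    have h := hH.spectral_theorem
    rw [Unitary.conjStarAlgAut_apply, star_eq_conjTranspose] at h
    rw [show (X * U)ᴴ * (X * U) = Uᴴ * (Xᴴ * X) * U by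
      simp only [conjTranspose_mul, Matrix.mul_assoc]]
    conv_lhs => rw [h]
    rw [show Uᴴ * (U * diagonal (RCLike.ofReal ∘ hH.eigenvalues) * Uᴴ) * U
      = (Uᴴ * U) * diagonal (RCLike.ofReal ∘ hH.eigenvalues) * (Uᴴ * U) by
        simp only [Matrix.mul_assoc], hUU, Matrix.one_mul, Matrix.mul_one]
    rfl
  have he : X = ∑ i, vecMulVec (fun j => (X * U) j i) (star fun j => U j i) := by
    conv_lhs => rw [← Matrix.mul_one X, ← hUU', ← Matrix.mul_assoc]
    rw [mul_conjTranspose_eq_sum]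
  refine Eq.subst (motive := fun Y => Bnd Y (traceNorm X)) he.symm
    (bnd_mono (bnd_of _ _) (le_of_eq (Finset.sum_congr rfl fun i _ => ?_)))
  have h1 : vn (fun j => U j i) = 1 := by
    have h := congrFun (congrFun hUU i) i
    rw [one_apply_eq] at h
    have hd : (Uᴴ * U) i i = (vsq (fun j => U j i) : ℂ) := by
      rw [← dot_self]; rfl
    rw [hd] at h
    rw [vn, show vsq (fun j => U j i) = 1 by exact_mod_cast h, Real.sqrt_one]
  have h2 : vn (fun j => (X * U) j i) = Real.sqrt (hH.eigenvalues i) := by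
    rw [vn]
    congr 1
    have h := congrFun (congrFun hdiag i) i
    rw [diagonal_apply_eq] at h
    have hd : ((X * U)ᴴ * (X * U)) i i = (vsq (fun j => (X * U) j i) : ℂ) := by
      rw [← dot_self]; rfl
    rw [hd] at h
    exact_mod_cast h
  rw [h1, h2, mul_one]

theorem sum_kronecker {α β I : Type} (s : Finset I) (X : I → Matrix α α ℂ) (Y : Matrix β β ℂ) :
    (∑ i ∈ s, X i) ⊗ₖ Y = ∑ i ∈ s, X i ⊗ₖ Y := by
  classical
  induction s using Finset.induction with
  | empty => simp
  | insert a s ha ih => rw [Finset.sum_insert ha, Finset.sum_insert ha, add_kronecker, ih]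

theorem kronecker_sum {α β I : Type} (s : Finset I) (X : Matrix α α ℂ) (Y : I → Matrix β β ℂ) :
    X ⊗ₖ (∑ i ∈ s, Y i) = ∑ i ∈ s, X ⊗ₖ Y i := by
  classical
  induction s using Finset.induction with
  | empty => simp
  | insert a s ha ih => rw [Finset.sum_insert ha, Finset.sum_insert ha, kronecker_add, ih]

/-- A first key bit is balanced. -/
theorem card_first_bit {ℓ : ℕ} (x : ZMod 2) :
    (#{k : Fin (ℓ + 1) → ZMod 2 | k 0 = x} : ℕ) = 2 ^ ℓ := by
  rw [← Fintype.card_subtype]
  have e : {k : Fin (ℓ + 1) → ZMod 2 // k 0 = x} ≃ (Fin ℓ → ZMod 2) :=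
    { toFun := fun k i => k.1 i.succ
      invFun := fun k => ⟨Fin.cons x k, rfl⟩
      left_inv := fun k => Subtype.ext (by
        funext i
        cases i using Fin.cases with
        | zero => simp [k.2]
        | succ j => simp)
      right_inv := fun k => by funext i; simp }
  rw [Fintype.card_congr e]
  simp

/-- A key protocol with at least one bit is a protocol for one bit. -/
theorem oneBit_of_keys {dA dB r : ℕ} {G : Matrix (Fin dA × Fin dB) (Fin r) ℂ} {n ℓ : ℕ} {ε : ℝ}
    (h : KeyWithError G n (ℓ + 1) ε) : OneBitWithError G n ε := by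
  obtain ⟨a, b, s, t, MA, MB, fB, fA, kA, kB, σ, hA, hB, hσ, hσ1, herr⟩ := h
  set e := (finProdFinEquiv : Fin s × Fin t ≃ Fin (s * t)).symm
  set MA' : Fin (s * t) → ZMod 2 → Matrix (Fin n → Fin dA) (Fin n → Fin dA) ℂ := fun w x =>
    ∑ i, if fA i (e w).1 = (e w).2 ∧ kA i (e w).1 0 = x then MA i else 0 with hMA'
  set MB' : Fin (s * t) → ZMod 2 → Matrix (Fin n → Fin dB) (Fin n → Fin dB) ℂ := fun w y =>
    ∑ j, if fB j = (e w).1 ∧ kB j (e w).2 0 = y then MB j else 0 with hMB'
  refine ⟨s * t, MA', MB', fun w => σ (e w).1 (e w).2, fun w x => ?_, fun w y => ?_, ?_,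
    fun w => hσ _ _, ?_, ?_⟩
  · exact posSemidef_sum _ fun i _ => by split_ifs; exacts [hA.1 i, PosSemidef.zero]
  · exact posSemidef_sum _ fun j _ => by split_ifs; exacts [hB.1 j, PosSemidef.zero]
  · have h1 : ∀ w, ∑ x, MA' w x = ∑ i, if fA i (e w).1 = (e w).2 then MA i else 0 := fun w => by
      rw [hMA', Finset.sum_comm]
      refine Finset.sum_congr rfl fun i _ => ?_
      by_cases h : fA i (e w).1 = (e w).2 <;> simp [h]
    have h2 : ∀ w, ∑ y, MB' w y = ∑ j, if fB j = (e w).1 then MB j else 0 := fun w => by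
      rw [hMB', Finset.sum_comm]
      refine Finset.sum_congr rfl fun j _ => ?_
      by_cases h : fB j = (e w).1 <;> simp [h]
    simp only [h1, h2]
    rw [e.sum_comp (fun w => (∑ i, if fA i w.1 = w.2 then MA i else 0) ⊗ₖ
      (∑ j, if fB j = w.1 then MB j else 0)), Fintype.sum_prod_type]
    have h3 : ∀ u : Fin s, ∑ v, (∑ i, if fA i u = v then MA i else 0) ⊗ₖ
        (∑ j, if fB j = u then MB j else 0)
        = (1 : Matrix (Fin n → Fin dA) (Fin n → Fin dA) ℂ) ⊗ₖ
          (∑ j, if fB j = u then MB j else 0) := fun u => by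
      rw [← sum_kronecker, Finset.sum_comm]
      simp [hA.2]
    simp only [h3]
    rw [← kronecker_sum, Finset.sum_comm]
    simp [hB.2, one_kronecker_one]
  · rw [e.sum_comp (fun w => (σ w.1 w.2).trace), Fintype.sum_prod_type]
    exact hσ1
  · set X : (Fin (ℓ + 1) → ZMod 2) → (Fin (ℓ + 1) → ZMod 2) → Fin s → Fin t →
        Matrix (Fin n → Fin r) (Fin n → Fin r) ℂ := fun k k' u v =>
      keyState G MA MB fB fA kA kB k k' u v
        - if k = k' then ((2 : ℂ) ^ (ℓ + 1))⁻¹ • σ u v else 0 with hX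
    have hsplit : ∀ x y w, eveOp (copies G n) (MA' w x) (MB' w y)
          - (if x = y then (2 : ℂ)⁻¹ • σ (e w).1 (e w).2 else 0)
        = ∑ k ∈ {k : Fin (ℓ + 1) → ZMod 2 | k 0 = x}, ∑ k' ∈ {k : Fin (ℓ + 1) → ZMod 2 | k 0 = y},
            X k k' (e w).1 (e w).2 := by
      intro x y w
      simp only [hX, Finset.sum_sub_distrib]
      congr 1
      · simp only [keyState, Finset.sum_filter]
        have hop : eveOp (copies G n) (MA' w x) (MB' w y)
            = ∑ i, ∑ j, if (fA i (e w).1 = (e w).2 ∧ kA i (e w).1 0 = x) ∧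
              (fB j = (e w).1 ∧ kB j (e w).2 0 = y) then eveOp (copies G n) (MA i) (MB j) else 0 := by
          have hop0 : ∀ (M : Matrix (Fin n → Fin dA) (Fin n → Fin dA) ℂ) (N : Matrix (Fin n → Fin dB) (Fin n → Fin dB) ℂ),
              eveOp (copies G n) M N = (op (piG G (Fin n)) M N)ᵀ := fun M N => rfl
          rw [hop0, hMA', hMB']
          simp only
          rw [op_sum_left, transpose_sum]
          refine Finset.sum_congr rfl fun i _ => ?_
          rw [op_sum_right, transpose_sum]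
          refine Finset.sum_congr rfl fun j _ => ?_
          rw [hop0]
          split_ifs <;> simp_all [op_zero_left, op_zero_right]
        rw [hop]
        symm
        calc _ = ∑ k, ∑ k', if k 0 = x ∧ k' 0 = y then ∑ i, ∑ j, (if fB j = (e w).1 ∧
              fA i (e w).1 = (e w).2 ∧ kA i (e w).1 = k ∧ kB j (e w).2 = k'
              then eveOp (copies G n) (MA i) (MB j) else 0) else 0 := by
              refine Finset.sum_congr rfl fun k _ => ?_
              by_cases h : k 0 = x <;> simp [h]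
          _ = ∑ i, ∑ j, ∑ k, ∑ k', if k 0 = x ∧ k' 0 = y then (if fB j = (e w).1 ∧
              fA i (e w).1 = (e w).2 ∧ kA i (e w).1 = k ∧ kB j (e w).2 = k'
              then eveOp (copies G n) (MA i) (MB j) else 0) else 0 := by
              simp only [ite_sum_zero]
              rw [Finset.sum_congr rfl fun k _ => Finset.sum_comm, Finset.sum_comm]
              refine Finset.sum_congr rfl fun i _ => ?_
              rw [Finset.sum_congr rfl fun k _ => Finset.sum_comm, Finset.sum_comm]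
          _ = _ := by
              refine Finset.sum_congr rfl fun i _ => Finset.sum_congr rfl fun j _ => ?_
              rw [Finset.sum_eq_single (kA i (e w).1), Finset.sum_eq_single (kB j (e w).2)]
              · by_cases h1 : fB j = (e w).1 <;> by_cases h2 : fA i (e w).1 = (e w).2 <;>
                  simp [h1, h2]
              · intro k' _ hk'
                simp [Ne.symm hk']
              · simp
              · intro k _ hk
                simp [Ne.symm hk]
              · simp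
      · rw [Finset.sum_comm]
        have : ∀ k' ∈ ({k : Fin (ℓ + 1) → ZMod 2 | k 0 = y} : Finset _),
            (∑ k ∈ {k : Fin (ℓ + 1) → ZMod 2 | k 0 = x},
              if k = k' then ((2 : ℂ) ^ (ℓ + 1))⁻¹ • σ (e w).1 (e w).2 else 0)
            = if x = y then ((2 : ℂ) ^ (ℓ + 1))⁻¹ • σ (e w).1 (e w).2 else 0 := by
          intro k' hk'
          rw [Finset.sum_ite_eq']
          simp only [Finset.mem_filter, Finset.mem_univ, true_and] at hk' ⊢
          simp [hk', eq_comm]
        rw [Finset.sum_congr rfl this, Finset.sum_const, card_first_bit]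
        split_ifs with h
        · rw [← Nat.cast_smul_eq_nsmul ℂ, smul_smul]
          congr 1
          push_cast
          rw [pow_succ]
          field_simp
        · simp
    refine le_trans ?_ herr
    calc _ ≤ ∑ x, ∑ y, ∑ w, ∑ k ∈ {k : Fin (ℓ + 1) → ZMod 2 | k 0 = x},
          ∑ k' ∈ {k : Fin (ℓ + 1) → ZMod 2 | k 0 = y}, traceNorm (X k k' (e w).1 (e w).2) := by
          refine Finset.sum_le_sum fun x _ => Finset.sum_le_sum fun y _ =>
            Finset.sum_le_sum fun w _ => ?_
          rw [hsplit]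
          exact traceNorm_le (bnd_sum _ fun k _ => bnd_sum _ fun k' _ => bnd_traceNorm _)
      _ = ∑ k, ∑ k', ∑ w, traceNorm (X k k' (e w).1 (e w).2) := by
          rw [← Finset.sum_fiberwise univ (fun k : Fin (ℓ + 1) → ZMod 2 => k 0)]
          refine Finset.sum_congr rfl fun x _ => ?_
          rw [Finset.sum_congr rfl fun y _ => Finset.sum_comm, Finset.sum_comm]
          refine Finset.sum_congr rfl fun k _ => ?_
          rw [← Finset.sum_fiberwise univ (fun k : Fin (ℓ + 1) → ZMod 2 => k 0)]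
          exact Finset.sum_congr rfl fun y _ => Finset.sum_comm
      _ = _ := by
          refine Finset.sum_congr rfl fun k _ => Finset.sum_congr rfl fun k' _ => ?_
          rw [e.sum_comp (fun w => traceNorm (X k k' w.1 w.2)), Fintype.sum_prod_type]

/-- Positive key gives one bit with arbitrarily small error from finitely many copies. -/
theorem oneBit_of_key {dA dB r : ℕ} {ρ : Matrix (Fin dA × Fin dB) (Fin dA × Fin dB) ℂ}
    {G : Matrix (Fin dA × Fin dB) (Fin r) ℂ} (hG : G * Gᴴ = ρ) (h : HasPositiveKey ρ) {ε : ℝ}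
    (hε : 0 < ε) : ∃ n, 0 < n ∧ OneBitWithError G n ε := by
  obtain ⟨c, hc, hk⟩ := h.2 r G hG
  obtain ⟨N, hN⟩ := hk ε hε
  obtain ⟨ℓ, hℓ, hkey⟩ := hN (N + 1) (Nat.le_succ N)
  have : 0 < ℓ := by
    have h1 : (0 : ℝ) < ℓ := lt_of_lt_of_le (by positivity) hℓ
    exact_mod_cast h1
  obtain ⟨m, rfl⟩ := Nat.exists_eq_add_of_lt this
  exact ⟨N + 1, Nat.succ_pos N, oneBit_of_keys (by simpa using hkey)⟩

/-- The exact criterion. -/
theorem key_iff_test {dA dB : ℕ} {ρ : Matrix (Fin dA × Fin dB) (Fin dA × Fin dB) ℂ}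
    (hρ : IsState ρ) : HasPositiveKey ρ ↔ CopiesTest ρ := by
  refine ⟨fun h => ?_, key_of_test hρ⟩
  obtain ⟨r, G, hG⟩ := h.1
  obtain ⟨n, hn, h1⟩ := oneBit_of_key hG h (ε := 1 / 10) (by norm_num)
  exact hG ▸ test_of_oneBit hn (by norm_num) h1

/-- Positive key is an open condition on states. -/
theorem key_open {dA dB : ℕ} {ρ : Matrix (Fin dA × Fin dB) (Fin dA × Fin dB) ℂ}
    (hρ : IsState ρ) (h : HasPositiveKey ρ) :
    ∃ δ : ℝ, 0 < δ ∧ ∀ ρ', IsState ρ' → (∀ i j, ‖ρ' i j - ρ i j‖ < δ) → HasPositiveKey ρ' := by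
  obtain ⟨n, k, l, a₀, a₁, b₀, b₁, W, hn, hW, hlt⟩ := (key_iff_test hρ).1 h
  let T : ((Fin dA × Fin dB) → (Fin dA × Fin dB) → ℂ) →
      Matrix ((Fin n → Fin dA) × (Fin n → Fin dB)) ((Fin n → Fin dA) × (Fin n → Fin dB)) ℂ :=
    fun f => copiesState (Matrix.of f) n
  let g : ((Fin dA × Fin dB) → (Fin dA × Fin dB) → ℂ) → ℝ := fun f =>
    ‖(T f * ((a₀ ⊗ₖ b₀)ᴴ * W * (a₁ ⊗ₖ b₁))).trace‖ ^ 4
      - (T f * ((a₀ᴴ * a₀) ⊗ₖ (b₀ᴴ * b₀))).trace.re
        * (T f * ((a₀ᴴ * a₀) ⊗ₖ (b₁ᴴ * b₁))).trace.re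
        * (T f * ((a₁ᴴ * a₁) ⊗ₖ (b₀ᴴ * b₀))).trace.re
        * (T f * ((a₁ᴴ * a₁) ⊗ₖ (b₁ᴴ * b₁))).trace.re
  have hT : ∀ M : Matrix ((Fin n → Fin dA) × (Fin n → Fin dB))
      ((Fin n → Fin dA) × (Fin n → Fin dB)) ℂ, Continuous fun f => (T f * M).trace := fun M => by
    simp only [T, copiesState, Matrix.trace, Matrix.diag_apply, Matrix.mul_apply, Matrix.of_apply]
    fun_prop
  have hg : Continuous g :=
    (((hT _).norm).pow 4).sub (((((Complex.continuous_re.comp (hT _))).mul
      (Complex.continuous_re.comp (hT _))).mul (Complex.continuous_re.comp (hT _))).mul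
        (Complex.continuous_re.comp (hT _)))
  obtain ⟨δ, hδ, hball⟩ := Metric.isOpen_iff.1 (isOpen_lt continuous_const hg)
    (fun i j => ρ i j) (sub_pos.2 hlt)
  refine ⟨δ, hδ, fun ρ' hρ' hd => key_of_test hρ' ⟨n, k, l, a₀, a₁, b₀, b₁, W, hn, hW,
    sub_pos.1 (hball (?_ : (fun i j => ρ' i j) ∈ Metric.ball (fun i j => ρ i j) δ))⟩⟩
  rw [Metric.mem_ball, dist_pi_lt_iff hδ]
  intro i
  rw [dist_pi_lt_iff hδ]
  intro j
  rw [Complex.dist_eq]
  exact hd i j

end Vale.Agent.P372
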