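import Mathlib
import Vale.Agent.P372.Main

/-!
States with an unextendible product set in the kernel, and the Tiles example.
-/

noncomputable section

open Matrix Finset
open scoped ComplexOrder Kronecker

namespace Vale.Agent.P372

/-- The cross product. -/
def cr (u w : Fin 3 → ℂ) : Fin 3 → ℂ :=
  ![u 1 * w 2 - u 2 * w 1, u 2 * w 0 - u 0 * w 2, u 0 * w 1 - u 1 * w 0]

theorem cr_prop {u w z : Fin 3 → ℂ} (hu : z ⬝ᵥ u = 0) (hw : z ⬝ᵥ w = 0) (k l : Fin 3) :
    z k * cr u w l = z l * cr u w k := by
  simp only [dotProduct, Fin.sum_univ_three] at hu hw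
  fin_cases k <;> fin_cases l <;> simp [cr] <;>
    first
    | linear_combination (u 0) * hw - (w 0) * hu
    | linear_combination (w 0) * hu - (u 0) * hw
    | linear_combination (u 1) * hw - (w 1) * hu
    | linear_combination (w 1) * hu - (u 1) * hw
    | linear_combination (u 2) * hw - (w 2) * hu
    | linear_combination (w 2) * hu - (u 2) * hw

theorem cr_zero_smul {u w : Fin 3 → ℂ} (h : cr u w = 0) (hu : u ≠ 0) : ∃ t : ℂ, w = t • u := by
  obtain ⟨k, hk⟩ := Function.ne_iff.1 hu
  refine ⟨w k / u k, ?_⟩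
  have h0 := congrFun h 0
  have h1 := congrFun h 1
  have h2 := congrFun h 2
  simp [cr] at h0 h1 h2
  funext l
  simp only [Pi.smul_apply, smul_eq_mul]
  rw [div_mul_eq_mul_div, eq_div_iff hk]
  fin_cases k <;> fin_cases l <;> simp at hk ⊢ <;>
    first
    | ring1
    | linear_combination h0
    | linear_combination -h0
    | linear_combination h1
    | linear_combination -h1
    | linear_combination h2
    | linear_combination -h2

theorem exists_orth (u : Fin 3 → ℂ) : ∃ y : Fin 3 → ℂ, y ≠ 0 ∧ star y ⬝ᵥ u = 0 := by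
  by_cases h : u 0 = 0 ∧ u 1 = 0
  · exact ⟨![1, 0, 0], fun hh => by simpa using congrFun hh 0,
      by simp [dotProduct, Fin.sum_univ_three, h.1]⟩
  · refine ⟨star ![u 1, -u 0, 0], fun hh => h ?_, ?_⟩
    · rw [star_eq_zero] at hh
      exact ⟨by simpa using congrFun hh 1, by simpa using congrFun hh 0⟩
    · simp [dotProduct, Fin.sum_univ_three]
      ring

theorem isHermitian_add_ct {n : Type} (E : Matrix n n ℂ) : (E + Eᴴ).IsHermitian := by
  rw [Matrix.IsHermitian, conjTranspose_add, conjTranspose_conjTranspose, add_comm]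

theorem prodVec_smul_eq {A B : Type} (a : A → ℂ) (b : B → ℂ) (t : ℂ) :
    prodVec (t • a) b = t • prodVec a b := by
  funext i
  simp [prodVec, mul_assoc]

theorem vmv_kronecker {A B : Type} (a a' : A → ℂ) (b b' : B → ℂ) :
    vecMulVec a (star a') ⊗ₖ vecMulVec b (star b')
      = vecMulVec (prodVec a b) (star (prodVec a' b')) := by
  ext i j
  simp [vecMulVec_apply, prodVec]
  ring

theorem dot_prodVec {A B : Type} [Fintype A] [Fintype B] (a a' : A → ℂ) (b b' : B → ℂ) :
    star (prodVec a b) ⬝ᵥ prodVec a' b' = (star a ⬝ᵥ a') * (star b ⬝ᵥ b') := by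
  simp [dotProduct, prodVec, Fintype.sum_prod_type, Finset.sum_mul_sum]
  exact Finset.sum_congr rfl fun i _ => Finset.sum_congr rfl fun j _ => by ring

section
variable {dA dB N : ℕ} {ρ : Matrix (Fin dA × Fin dB) (Fin dA × Fin dB) ℂ}
  {a : Fin N → Fin dA → ℂ} {b : Fin N → Fin dB → ℂ}

theorem orth_range (hρ : IsState ρ) (hk : ∀ l, ρ *ᵥ prodVec (a l) (b l) = 0)
    (v : Fin dA × Fin dB → ℂ) (l : Fin N) : star (ρ *ᵥ v) ⬝ᵥ prodVec (a l) (b l) = 0 := by
  rw [star_mulVec, ← dotProduct_mulVec, hρ.1.1.eq, hk, dotProduct_zero]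

theorem not_separable (hk : ∀ l, ρ *ᵥ prodVec (a l) (b l) = 0)
    (hu : Unextendible a b) : ¬ IsSeparable ρ := by
  rintro ⟨M, p, α, β, hp, hp1, hα, hβ, hsum⟩
  obtain ⟨i, hi⟩ : ∃ i, 0 < p i := by
    by_contra h
    push Not at h
    have : ∑ i, p i ≤ 0 := Finset.sum_nonpos fun i _ => h i
    linarith
  have hterm : ∀ l, (α i ⊗ₖ β i) *ᵥ prodVec (a l) (b l) = 0 := by
    intro l
    set v := prodVec (a l) (b l)
    refine (((hα i).1.kronecker (hβ i).1).dotProduct_mulVec_zero_iff v).1 ?_
    have h0 : ∑ j, (p j : ℂ) * (star v ⬝ᵥ ((α j ⊗ₖ β j) *ᵥ v)) = 0 := by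
      have h1 : star v ⬝ᵥ (ρ *ᵥ v) = 0 := by rw [hk l, dotProduct_zero]
      rw [hsum, sum_mulVec, dotProduct_sum] at h1
      simpa [smul_mulVec] using h1
    have h2 := (Finset.sum_eq_zero_iff_of_nonneg fun j _ => mul_nonneg
      (Complex.zero_le_real.2 (hp j))
      (((hα j).1.kronecker (hβ j).1).dotProduct_mulVec_nonneg v)).1 h0 i (mem_univ i)
    exact (mul_eq_zero.1 h2).resolve_left (by exact_mod_cast hi.ne')
  obtain ⟨j, k, hjk⟩ : ∃ j k, α i j k ≠ 0 := by
    by_contra h
    push Not at h
    have := (hα i).2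
    rw [show α i = 0 from Matrix.ext h] at this
    simp at this
  obtain ⟨j', k', hjk'⟩ : ∃ j k, β i j k ≠ 0 := by
    by_contra h
    push Not at h
    have := (hβ i).2
    rw [show β i = 0 from Matrix.ext h] at this
    simp at this
  have hx : ∀ l, (star (fun q => star (α i j q)) ⬝ᵥ a l) *
      (star (fun q => star (β i j' q)) ⬝ᵥ b l) = 0 := fun l => by
    have := congrFun (hterm l) (j, j')
    simp only [mulVec, dotProduct, Fintype.sum_prod_type, kroneckerMap_apply, prodVec,
      Pi.zero_apply] at this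
    refine Eq.trans ?_ this
    simp only [dotProduct, Pi.star_apply, star_star, Finset.sum_mul_sum]
    exact Finset.sum_congr rfl fun x _ => Finset.sum_congr rfl fun y _ => by ring
  rcases hu _ _ hx with h | h
  · exact hjk (by simpa using congrFun h k)
  · exact hjk' (by simpa using congrFun h k')

end

theorem unextendible_key {dA N : ℕ} {ρ : Matrix (Fin dA × Fin 3) (Fin dA × Fin 3) ℂ}
    {a : Fin N → Fin dA → ℂ} {b : Fin N → Fin 3 → ℂ} (hρ : IsState ρ)
    (hk : ∀ l, ρ *ᵥ prodVec (a l) (b l) = 0) (hu : Unextendible a b) : HasPositiveKey ρ := by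
  classical
  by_contra hno
  have hT : ∀ i j, cr (b i) (b j) ≠ 0 → ∀ k l : Fin 3,
      ∑ γ, star (a j γ) * ∑ α, ρ (γ, l) (α, k) * a i α = 0 := by
    intro i j hc k l
    set Q : Matrix (Fin 3) (Fin 3) ℂ :=
      vecMulVec (b i) (star (b i)) + vecMulVec (b j) (star (b j)) with hQdef
    have hQ : Q.PosSemidef :=
      (posSemidef_vecMulVec_self_star _).add (posSemidef_vecMulVec_self_star _)
    have hleft : ∀ q (w : Fin dA × Fin 3 → ℂ),
        ρ * vecMulVec (prodVec (a q) (b q)) w = 0 := fun q w => by
      rw [mul_vecMulVec, hk, zero_vecMulVec]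
    have hright : ∀ q (w : Fin dA × Fin 3 → ℂ),
        vecMulVec w (star (prodVec (a q) (b q))) * ρ = 0 := fun q w => by
      have h1 := congrArg star (hk q)
      rw [star_mulVec, hρ.1.1.eq, star_zero] at h1
      rw [vecMulVec_mul, h1, vecMulVec_zero]
    have hkerQ : ∀ v, ((1 : Matrix (Fin dA) (Fin dA) ℂ) ⊗ₖ Q) *ᵥ (ρ *ᵥ v) = 0 →
        ρ *ᵥ v = 0 := by
      intro v hv
      set w := ρ *ᵥ v with hw
      obtain ⟨l₀, hl₀⟩ := Function.ne_iff.1 hc
      have hrow : ∀ α, (star (b i) ⬝ᵥ fun q => w (α, q)) = 0 ∧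
          (star (b j) ⬝ᵥ fun q => w (α, q)) = 0 := by
        intro α
        set t := star (b i) ⬝ᵥ fun q => w (α, q)
        set t' := star (b j) ⬝ᵥ fun q => w (α, q)
        have he : ∀ q, t * b i q + t' * b j q = 0 := by
          intro q
          have := congrFun hv (α, q)
          simp only [mulVec, dotProduct, Fintype.sum_prod_type, kroneckerMap_apply,
            Matrix.one_apply, ite_mul, one_mul, zero_mul, Pi.zero_apply] at this
          rw [Finset.sum_eq_single α (fun x _ hx => by simp [Ne.symm hx]) (by simp)] at this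
          simp only [if_true, hQdef, Matrix.add_apply, vecMulVec_apply, add_mul,
            Finset.sum_add_distrib] at this
          refine Eq.trans ?_ this
          simp only [t, t', dotProduct, Finset.sum_mul]
          congr 1 <;> exact Finset.sum_congr rfl fun x _ => by ring
        have hne : cr (b i) (b j) l₀ ≠ 0 := by simpa using hl₀
        have e1 : t * cr (b i) (b j) l₀ = 0 := by
          fin_cases l₀ <;> simp [cr, -mul_eq_zero]
          · linear_combination b j 2 * he 1 - b j 1 * he 2
          · linear_combination b j 0 * he 2 - b j 2 * he 0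
          · linear_combination b j 1 * he 0 - b j 0 * he 1
        have e2 : t' * cr (b i) (b j) l₀ = 0 := by
          fin_cases l₀ <;> simp [cr, -mul_eq_zero]
          · linear_combination b i 1 * he 2 - b i 2 * he 1
          · linear_combination b i 2 * he 0 - b i 0 * he 2
          · linear_combination b i 0 * he 1 - b i 1 * he 0
        exact ⟨(mul_eq_zero.1 e1).resolve_right hne, (mul_eq_zero.1 e2).resolve_right hne⟩
      set c := cr (b i) (b j) with hcdef
      set x : Fin dA → ℂ := fun α => w (α, l₀) / star (c l₀) with hx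
      have hwx : w = prodVec x (star c) := by
        funext p
        obtain ⟨α, q⟩ := p
        have z1 : (star fun q => w (α, q)) ⬝ᵥ b i = 0 := by
          have := congrArg star (hrow α).1
          simpa [dotProduct, mul_comm] using this
        have z2 : (star fun q => w (α, q)) ⬝ᵥ b j = 0 := by
          have := congrArg star (hrow α).2
          simpa [dotProduct, mul_comm] using this
        have h1 := congrArg star (cr_prop z1 z2 q l₀)
        simp only [Pi.star_apply, star_mul', star_star] at h1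
        have hne : star (c l₀) ≠ 0 := by simpa [star_eq_zero] using hl₀
        simp only [prodVec, hx, Pi.star_apply]
        rw [div_mul_eq_mul_div, eq_div_iff hne]
        exact h1
      rcases hu x (star c) (fun q => by
        rw [← dot_prodVec, ← hwx]
        exact orth_range hρ hk v q) with h | h
      · rw [hwx, h]; funext p; simp [prodVec]
      · rw [hwx, h]; funext p; simp [prodVec]
    set Ej : Matrix (Fin dA) (Fin dA) ℂ := vecMulVec (a i) (star (a j)) with hEj
    set T : Matrix (Fin 3) (Fin 3) ℂ → ℂ := fun E => (ρ * (Ej ⊗ₖ E)).trace with hTdef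
    have hTY : ∀ Y : Matrix (Fin 3) (Fin 3) ℂ, Y.IsHermitian → T Y = 0 := by
      intro Y hY
      have hω : ∀ ω : ℂ, (ω * T Y).re = 0 := by
        intro ω
        set X : Matrix (Fin dA) (Fin dA) ℂ := ω • Ej + (ω • Ej)ᴴ with hX
        by_contra hne
        refine hno (criterion hρ (X := X) (Q := Q) (isHermitian_add_ct _) hQ ?_
          hkerQ ⟨Y, hY, ?_⟩)
        · have h1 : ρ * (Ej ⊗ₖ Q) * ρ = 0 := by
            rw [hQdef, kronecker_add, hEj, vmv_kronecker, vmv_kronecker, Matrix.mul_add, hleft,
              zero_add, Matrix.mul_assoc, hright, Matrix.mul_zero]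
          have h2 : ρ * (Ejᴴ ⊗ₖ Q) * ρ = 0 := by
            have := congrArg conjTranspose h1
            simpa [conjTranspose_mul, conjTranspose_kronecker, hρ.1.1.eq, hQ.1.eq,
              Matrix.mul_assoc] using this
          rw [hX, conjTranspose_smul, add_kronecker, smul_kronecker, smul_kronecker,
            Matrix.mul_add, Matrix.add_mul, Matrix.mul_smul, Matrix.mul_smul, Matrix.smul_mul,
            Matrix.smul_mul, h1, h2]
          simp
        · have h3 : (ρ * (Ejᴴ ⊗ₖ Y)).trace = star (T Y) := by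
            simp only [hTdef]
            rw [← trace_conjTranspose, conjTranspose_mul, conjTranspose_kronecker, hρ.1.1.eq,
              hY.eq, trace_mul_comm]
          rw [hX, conjTranspose_smul, add_kronecker, smul_kronecker, smul_kronecker,
            Matrix.mul_add, Matrix.mul_smul, Matrix.mul_smul, trace_add, trace_smul, trace_smul,
            h3, smul_eq_mul, smul_eq_mul, ← star_mul', Complex.add_re, RCLike.star_def,
            Complex.conj_re]
          exact fun h => hne (by linarith)
      refine Complex.ext ?_ ?_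
      · simpa using hω 1
      · simpa using hω Complex.I
    set E : Matrix (Fin 3) (Fin 3) ℂ := Matrix.single k l 1 with hE
    have e1 := hTY (E + Eᴴ) (isHermitian_add_ct _)
    have e2 := hTY ((Complex.I • E) + (Complex.I • E)ᴴ) (isHermitian_add_ct _)
    simp only [hTdef, conjTranspose_smul, kronecker_add, kronecker_smul, Matrix.mul_add,
      Matrix.mul_smul, trace_add, trace_smul, smul_eq_mul, RCLike.star_def, Complex.conj_I]
      at e1 e2
    have hTE : (ρ * (Ej ⊗ₖ E)).trace = 0 := by
      linear_combination (1 / 2 : ℂ) * e1 + (-Complex.I / 2) * e2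
        + ((1 / 2 : ℂ) * (ρ * (Ej ⊗ₖ E)).trace
          - (1 / 2 : ℂ) * (ρ * (Ej ⊗ₖ Eᴴ)).trace) * Complex.I_sq
    refine Eq.trans ?_ hTE
    simp only [Matrix.trace, Matrix.diag, Matrix.mul_apply, Fintype.sum_prod_type,
      kroneckerMap_apply, hEj, vecMulVec_apply, hE, Matrix.single_apply, Pi.star_apply,
      mul_ite, mul_one, mul_zero]
    refine Finset.sum_congr rfl fun γ _ => ?_
    rw [Finset.mul_sum, Finset.sum_eq_single l (fun y _ hy => by simp [Ne.symm hy]) (by simp)]
    refine Finset.sum_congr rfl fun α _ => ?_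
    simp
    ring
  have hrow : ∀ i, b i ≠ 0 → ∀ (k l : Fin 3) (γ : Fin dA), ∑ α, ρ (γ, l) (α, k) * a i α = 0 := by
    intro i hi k l γ
    obtain ⟨y, hy, hyb⟩ := exists_orth (b i)
    have := hu (fun γ => ∑ α, ρ (γ, l) (α, k) * a i α) y (fun j => ?_)
    · exact congrFun (this.resolve_right hy) γ
    · by_cases hc : cr (b i) (b j) = 0
      · obtain ⟨t, ht⟩ := cr_zero_smul hc hi
        rw [ht, dotProduct_smul, hyb, smul_zero, mul_zero]
      · have h := congrArg star (hT i j hc k l)
        rw [star_sum, star_zero] at h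
        rw [mul_eq_zero]
        left
        refine Eq.trans ?_ h
        exact Finset.sum_congr rfl fun γ _ => by simp [mul_comm]
  have hzero : ρ = 0 := by
    refine Matrix.ext fun p p' => ?_
    obtain ⟨γ, l⟩ := p
    obtain ⟨α, k⟩ := p'
    have := hu (fun α => star (ρ (γ, l) (α, k))) ![1, 0, 0] (fun i => ?_)
    · have h := congrFun (this.resolve_right fun h => by simpa using congrFun h 0) α
      simpa using h
    · by_cases hi : b i = 0
      · simp [hi]
      · rw [mul_eq_zero]
        left
        simpa [dotProduct] using hrow i hi k l γ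
  have := hρ.2
  rw [hzero] at this
  simp at this

theorem tiles_six {p0 p1 p2 q0 q1 q2 : ℂ} (h0 : p0 * (q0 + -q1) = 0) (h1 : p2 * (q1 + -q2) = 0)
    (h2 : (p0 + -p1) * q2 = 0) (h3 : (p1 + -p2) * q0 = 0)
    (h4 : (p0 + p1 + p2) * (q0 + q1 + q2) = 0) :
    (p0 = 0 ∧ p1 = 0 ∧ p2 = 0) ∨ (q0 = 0 ∧ q1 = 0 ∧ q2 = 0) := by
  rw [mul_eq_zero] at h0 h1 h2 h3 h4
  rcases h0 with h0 | h0 <;> rcases h1 with h1 | h1 <;> rcases h2 with h2 | h2 <;>
    rcases h3 with h3 | h3 <;> rcases h4 with h4 | h4 <;>
    first
    | (left; refine ⟨?_, ?_, ?_⟩ <;> grind)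
    | (right; refine ⟨?_, ?_, ?_⟩ <;> grind)

theorem tiles_gram (l m : Fin 5) :
    star (prodVec (tilesA l) (tilesB l)) ⬝ᵥ prodVec (tilesA m) (tilesB m)
      = if l = m then tilesW l else 0 := by
  rw [dot_prodVec]
  fin_cases l <;> fin_cases m <;>
    simp [tilesA, tilesB, tilesW, dotProduct, Fin.sum_univ_three] <;> norm_num

theorem tiles_facts :
    IsState tilesState ∧ partialTranspose tilesState = tilesState ∧
    (∀ l, tilesState *ᵥ prodVec (tilesA l) (tilesB l) = 0) ∧ Unextendible tilesA tilesB := by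
  set v : Fin 5 → Fin 3 × Fin 3 → ℂ := fun l => prodVec (tilesA l) (tilesB l) with hv
  set P : Matrix (Fin 3 × Fin 3) (Fin 3 × Fin 3) ℂ :=
    ∑ l, (tilesW l)⁻¹ • vecMulVec (v l) (star (v l)) with hP
  have hw : ∀ l, tilesW l ≠ 0 := by intro l; fin_cases l <;> simp [tilesW]
  have hPv : ∀ m, P *ᵥ v m = v m := by
    intro m
    rw [hP, sum_mulVec, Finset.sum_eq_single m]
    · rw [smul_mulVec, vecMulVec_mulVec, tiles_gram, if_pos rfl]
      funext i
      simp [hw]
    · intro l _ hl
      rw [smul_mulVec, vecMulVec_mulVec, tiles_gram, if_neg hl]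
      funext i
      simp
    · simp
  have hPH : Pᴴ = P := by
    rw [hP, conjTranspose_sum]
    refine Finset.sum_congr rfl fun l _ => ?_
    rw [conjTranspose_smul]
    fin_cases l <;> simp [tilesW, conjTranspose_vecMulVec]
  have hPP : P * P = P := by
    conv_lhs => arg 2; rw [hP]
    rw [Matrix.mul_sum, hP]
    refine Finset.sum_congr rfl fun m _ => ?_
    rw [← hP, Matrix.mul_smul, mul_vecMulVec, hPv]
  have hdef : tilesState = (4 : ℂ)⁻¹ • (1 - P) := rfl
  refine ⟨⟨?_, ?_⟩, ?_, ?_, ?_⟩
  · have h : (1 - P).PosSemidef := by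
      have e : 1 - P = (1 - P)ᴴ * (1 - P) := by
        rw [conjTranspose_sub, conjTranspose_one, hPH, Matrix.sub_mul, Matrix.mul_sub,
          Matrix.mul_sub, hPP]
        simp
      rw [e]
      exact posSemidef_conjTranspose_mul_self _
    rw [hdef]
    exact h.smul (by norm_num [Complex.le_def])
  · have ht : P.trace = 5 := by
      rw [hP, trace_sum]
      have : ∀ l, ((tilesW l)⁻¹ • vecMulVec (v l) (star (v l))).trace = (1 : ℂ) := fun l => by
        rw [trace_smul, trace_vecMulVec, dotProduct_comm, tiles_gram, if_pos rfl, smul_eq_mul,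
          inv_mul_cancel₀ (hw l)]
      simp [this]
    rw [hdef, trace_smul, trace_sub, ht, trace_one]
    norm_num
  · have hreal : ∀ (l : Fin 5) (i : Fin 3), star (tilesB l i) = tilesB l i := by
      intro l i
      fin_cases l <;> fin_cases i <;> simp [tilesB]
    ext i j
    simp only [partialTranspose, hdef, hP, hv, Matrix.of_apply, Matrix.smul_apply,
      Matrix.sub_apply, Matrix.sum_apply, vecMulVec_apply, prodVec, Pi.star_apply, star_mul', hreal]
    congr 2
    · simp [Matrix.one_apply, Prod.ext_iff, eq_comm]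
    · exact Finset.sum_congr rfl fun l _ => by simp only [smul_eq_mul]; ring
  · intro l
    rw [hdef, smul_mulVec, sub_mulVec, one_mulVec, show P *ᵥ prodVec (tilesA l) (tilesB l)
      = prodVec (tilesA l) (tilesB l) from hPv l, sub_self, smul_zero]
  · intro x y h
    have e : ∀ l, star x ⬝ᵥ tilesA l * (star y ⬝ᵥ tilesB l) = 0 := h
    have h0 := e 0
    have h1 := e 1
    have h2 := e 2
    have h3 := e 3
    have h4 := e 4
    simp only [dotProduct, Fin.sum_univ_three, Pi.star_apply, tilesA, tilesB, Matrix.cons_val_zero,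
      Matrix.cons_val_one, Matrix.cons_val, mul_zero, mul_one, mul_neg, add_zero, zero_add]
      at h0 h1 h2 h3 h4
    rcases tiles_six h0 h1 h2 h3 h4 with ⟨e0, e1, e2⟩ | ⟨e0, e1, e2⟩
    · left; funext i; rw [star_eq_zero] at e0 e1 e2
      fin_cases i <;> assumption
    · right; funext i; rw [star_eq_zero] at e0 e1 e2
      fin_cases i <;> assumption

end Vale.Agent.P372
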