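import Mathlib
import Vale.Agent.P372.Kernel

/-!
Unextendible product sets in the kernel, for any local dimensions.
-/

noncomputable section

open Matrix Finset
open scoped ComplexOrder Kronecker

namespace Vale.Agent.P372

/-- The coefficient matrix of a bipartite vector; its rank is the Schmidt rank. -/
def coeffMatrix {A B : Type} (w : A × B → ℂ) : Matrix A B ℂ :=
  Matrix.of fun i j => w (i, j)

theorem exists_orth' {n : ℕ} (hn : 2 ≤ n) (u : Fin n → ℂ) :
    ∃ y : Fin n → ℂ, y ≠ 0 ∧ star y ⬝ᵥ u = 0 := by
  set p : Fin n := ⟨0, by omega⟩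
  set q : Fin n := ⟨1, by omega⟩
  have hpq : p ≠ q := by simp [p, q, Fin.ext_iff]
  by_cases h : u p = 0
  · exact ⟨Pi.single p 1, by simp, by simp [← Pi.single_star, h]⟩
  · refine ⟨star (Pi.single q (u p) - Pi.single p (u q)), fun hh => h ?_, ?_⟩
    · rw [star_eq_zero] at hh
      simpa [hpq.symm] using congrFun hh q
    · rw [star_star, sub_dotProduct, single_dotProduct, single_dotProduct, mul_comm, sub_self]

theorem unextendible_key' {dA dB N : ℕ} {ρ : Matrix (Fin dA × Fin dB) (Fin dA × Fin dB) ℂ}
    {a : Fin N → Fin dA → ℂ} {b : Fin N → Fin dB → ℂ} (hdB : 2 ≤ dB) (hρ : IsState ρ)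
    (hk : ∀ l, ρ *ᵥ prodVec (a l) (b l) = 0) (hu : Unextendible a b)
    (hR : ∀ v, ρ *ᵥ v ≠ 0 → dB - 2 < (coeffMatrix (ρ *ᵥ v)).rank) : HasPositiveKey ρ := by
  classical
  by_contra hno
  have hT : ∀ i j, LinearIndependent ℂ ![b i, b j] → ∀ k l : Fin dB,
      ∑ γ, star (a j γ) * ∑ α, ρ (γ, l) (α, k) * a i α = 0 := by
    intro i j hc k l
    set Q : Matrix (Fin dB) (Fin dB) ℂ :=
      vecMulVec (b i) (star (b i)) + vecMulVec (b j) (star (b j)) with hQdef
    have hQ : Q.PosSemidef :=
      (posSemidef_vecMulVec_self_star _).add (posSemidef_vecMulVec_self_star _)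
    have hleft : ∀ q (w : Fin dA × Fin dB → ℂ),
        ρ * vecMulVec (prodVec (a q) (b q)) w = 0 := fun q w => by
      rw [mul_vecMulVec, hk, zero_vecMulVec]
    have hright : ∀ q (w : Fin dA × Fin dB → ℂ),
        vecMulVec w (star (prodVec (a q) (b q))) * ρ = 0 := fun q w => by
      have h1 := congrArg star (hk q)
      rw [star_mulVec, hρ.1.1.eq, star_zero] at h1
      rw [vecMulVec_mul, h1, vecMulVec_zero]
    have hkerQ : ∀ v, ((1 : Matrix (Fin dA) (Fin dA) ℂ) ⊗ₖ Q) *ᵥ (ρ *ᵥ v) = 0 →
        ρ *ᵥ v = 0 := by
      intro v hv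
      by_contra hne
      set w := ρ *ᵥ v with hw
      have hrow : ∀ α, (star (b i) ⬝ᵥ fun q => w (α, q)) = 0 ∧
          (star (b j) ⬝ᵥ fun q => w (α, q)) = 0 := by
        intro α
        set t := star (b i) ⬝ᵥ fun q => w (α, q)
        set t' := star (b j) ⬝ᵥ fun q => w (α, q)
        have he : ∀ q, t * b i q + t' * b j q = 0 := by
          intro q
          have := congrFun hv (α, q)
          simp only [mulVec, dotProduct, Fintype.sum_prod_type, kroneckerMap_apply,
            Matrix.one_apply, ite_mul, one_mul, zero_mul, Pi.zero_apply] at this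
          rw [Finset.sum_eq_single α (fun x _ hx => by simp [Ne.symm hx]) (by simp)] at this
          simp only [if_true, hQdef, Matrix.add_apply, vecMulVec_apply, add_mul,
            Finset.sum_add_distrib] at this
          refine Eq.trans ?_ this
          simp only [t, t', dotProduct, Finset.sum_mul]
          congr 1 <;> exact Finset.sum_congr rfl fun x _ => by ring
        exact LinearIndependent.pair_iff.1 hc t t' (funext fun q => by simpa using he q)
      set M : Matrix (Fin 2) (Fin dB) ℂ := Matrix.of ![b i, b j] with hM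
      have hprod : coeffMatrix w * Mᴴ = 0 := by
        ext α s
        simp only [Matrix.mul_apply, coeffMatrix, Matrix.of_apply, conjTranspose_apply,
          Matrix.zero_apply, hM]
        fin_cases s
        · refine Eq.trans ?_ (hrow α).1
          exact Finset.sum_congr rfl fun q _ => mul_comm _ _
        · refine Eq.trans ?_ (hrow α).2
          exact Finset.sum_congr rfl fun q _ => mul_comm _ _
      have hr := rank_add_rank_le_card_of_mul_eq_zero hprod
      rw [rank_conjTranspose, LinearIndependent.rank_matrix (M := M) hc, Fintype.card_fin,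
        Fintype.card_fin] at hr
      have := hR v hne
      rw [← hw] at this
      omega
    set Ej : Matrix (Fin dA) (Fin dA) ℂ := vecMulVec (a i) (star (a j)) with hEj
    set T : Matrix (Fin dB) (Fin dB) ℂ → ℂ := fun E => (ρ * (Ej ⊗ₖ E)).trace with hTdef
    have hTY : ∀ Y : Matrix (Fin dB) (Fin dB) ℂ, Y.IsHermitian → T Y = 0 := by
      intro Y hY
      have hω : ∀ ω : ℂ, (ω * T Y).re = 0 := by
        intro ω
        set X : Matrix (Fin dA) (Fin dA) ℂ := ω • Ej + (ω • Ej)ᴴ with hX
        by_contra hne
        refine hno (criterion hρ (X := X) (Q := Q) (isHermitian_add_ct _) hQ ?_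
          hkerQ ⟨Y, hY, ?_⟩)
        · have h1 : ρ * (Ej ⊗ₖ Q) * ρ = 0 := by
            rw [hQdef, kronecker_add, hEj, vmv_kronecker, vmv_kronecker, Matrix.mul_add, hleft,
              zero_add, Matrix.mul_assoc, hright, Matrix.mul_zero]
          have h2 : ρ * (Ejᴴ ⊗ₖ Q) * ρ = 0 := by
            have := congrArg conjTranspose h1
            simpa [conjTranspose_mul, conjTranspose_kronecker, hρ.1.1.eq, hQ.1.eq,
              Matrix.mul_assoc] using this
          rw [hX, conjTranspose_smul, add_kronecker, smul_kronecker, smul_kronecker,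
            Matrix.mul_add, Matrix.add_mul, Matrix.mul_smul, Matrix.mul_smul, Matrix.smul_mul,
            Matrix.smul_mul, h1, h2]
          simp
        · have h3 : (ρ * (Ejᴴ ⊗ₖ Y)).trace = star (T Y) := by
            simp only [hTdef]
            rw [← trace_conjTranspose, conjTranspose_mul, conjTranspose_kronecker, hρ.1.1.eq,
              hY.eq, trace_mul_comm]
          rw [hX, conjTranspose_smul, add_kronecker, smul_kronecker, smul_kronecker,
            Matrix.mul_add, Matrix.mul_smul, Matrix.mul_smul, trace_add, trace_smul, trace_smul,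
            h3, smul_eq_mul, smul_eq_mul, ← star_mul', Complex.add_re, RCLike.star_def,
            Complex.conj_re]
          exact fun h => hne (by linarith)
      refine Complex.ext ?_ ?_
      · simpa using hω 1
      · simpa using hω Complex.I
    set E : Matrix (Fin dB) (Fin dB) ℂ := Matrix.single k l 1 with hE
    have e1 := hTY (E + Eᴴ) (isHermitian_add_ct _)
    have e2 := hTY ((Complex.I • E) + (Complex.I • E)ᴴ) (isHermitian_add_ct _)
    simp only [hTdef, conjTranspose_smul, kronecker_add, kronecker_smul, Matrix.mul_add,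
      Matrix.mul_smul, trace_add, trace_smul, smul_eq_mul, RCLike.star_def, Complex.conj_I]
      at e1 e2
    have hTE : (ρ * (Ej ⊗ₖ E)).trace = 0 := by
      linear_combination (1 / 2 : ℂ) * e1 + (-Complex.I / 2) * e2
        + ((1 / 2 : ℂ) * (ρ * (Ej ⊗ₖ E)).trace
          - (1 / 2 : ℂ) * (ρ * (Ej ⊗ₖ Eᴴ)).trace) * Complex.I_sq
    refine Eq.trans ?_ hTE
    simp only [Matrix.trace, Matrix.diag, Matrix.mul_apply, Fintype.sum_prod_type,
      kroneckerMap_apply, hEj, vecMulVec_apply, hE, Matrix.single_apply, Pi.star_apply,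
      mul_ite, mul_one, mul_zero]
    refine Finset.sum_congr rfl fun γ _ => ?_
    rw [Finset.mul_sum, Finset.sum_eq_single l (fun y _ hy => by simp [Ne.symm hy]) (by simp)]
    refine Finset.sum_congr rfl fun α _ => ?_
    simp
    ring
  have hrow : ∀ i, b i ≠ 0 → ∀ (k l : Fin dB) (γ : Fin dA), ∑ α, ρ (γ, l) (α, k) * a i α = 0 := by
    intro i hi k l γ
    obtain ⟨y, hy, hyb⟩ := exists_orth' hdB (b i)
    have := hu (fun γ => ∑ α, ρ (γ, l) (α, k) * a i α) y (fun j => ?_)
    · exact congrFun (this.resolve_right hy) γ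
    · by_cases hc : ¬ LinearIndependent ℂ ![b i, b j]
      · rw [LinearIndependent.pair_iff' hi] at hc
        push Not at hc
        obtain ⟨t, ht⟩ := hc
        rw [← ht, dotProduct_smul, hyb, smul_zero, mul_zero]
      · have h := congrArg star (hT i j (not_not.1 hc) k l)
        rw [star_sum, star_zero] at h
        rw [mul_eq_zero]
        left
        refine Eq.trans ?_ h
        exact Finset.sum_congr rfl fun γ _ => by simp [mul_comm]
  have hzero : ρ = 0 := by
    refine Matrix.ext fun p p' => ?_
    obtain ⟨γ, l⟩ := p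
    obtain ⟨α, k⟩ := p'
    have := hu (fun α => star (ρ (γ, l) (α, k))) (Pi.single ⟨0, by omega⟩ 1) (fun i => ?_)
    · have h := congrFun (this.resolve_right fun h => by simpa using congrFun h ⟨0, by omega⟩) α
      simpa using h
    · by_cases hi : b i = 0
      · simp [hi]
      · rw [mul_eq_zero]
        left
        simpa [dotProduct] using hrow i hi k l γ
  have := hρ.2
  rw [hzero] at this
  simp at this

end Vale.Agent.P372
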