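import Vale.Agent.P372.OneSidedDefs

/-!
Protocols in which, for each transcript, one party is restricted on every block or filters mildly.
-/

noncomputable section

open Matrix
open scoped ComplexOrder Kronecker

namespace Vale.Agent.P372

/-- The spectrum of `X` lies in `[t, K t]` for some `t > 0`: condition number at most `K`. -/
def CondLE {A : Type} [Fintype A] [DecidableEq A] (K : ℝ) (X : Matrix A A ℂ) : Prop :=
  ∃ t : ℝ, 0 < t ∧ (X - (t : ℂ) • 1).PosSemidef ∧ (((K * t : ℝ) : ℂ) • 1 - X).PosSemidef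

/-- A protocol of any number of rounds gives one key bit with error at most `ε` from `n` blocks of
`b` copies, and for each transcript either on each block the effects of one of the parties are
diagonal in some orthonormal basis of the block up to `m` further operators, or the sum of the two
effects of one of the parties has condition number at most `K`. -/
def RestrictedBit {dA dB r : ℕ} (G : Matrix (Fin dA × Fin dB) (Fin r) ℂ) (b m n : ℕ) (K ε : ℝ) :
    Prop :=
  ∃ (s : ℕ)
    (MA : Fin s → ZMod 2 → Matrix (Fin n → Fin b → Fin dA) (Fin n → Fin b → Fin dA) ℂ)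
    (MB : Fin s → ZMod 2 → Matrix (Fin n → Fin b → Fin dB) (Fin n → Fin b → Fin dB) ℂ)
    (σ : Fin s → Matrix (Fin n → Fin b → Fin r) (Fin n → Fin b → Fin r) ℂ),
    (∀ u x, (MA u x).PosSemidef) ∧ (∀ u y, (MB u y).PosSemidef) ∧
    ∑ u, (∑ x, MA u x) ⊗ₖ (∑ y, MB u y) = 1 ∧
    (∀ u, (σ u).PosSemidef) ∧ ∑ u, (σ u).trace = 1 ∧
    (∀ u, (∃ (SA : Fin n → Set (Matrix (Fin b → Fin dA) (Fin b → Fin dA) ℂ))
      (SB : Fin n → Set (Matrix (Fin b → Fin dB) (Fin b → Fin dB) ℂ)),
      (∀ t, IsSimple m (SA t) ∨ IsSimple m (SB t)) ∧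
      (∀ x, InSpan SA (MA u x)) ∧ ∀ y, InSpan SB (MB u y)) ∨
      CondLE K (∑ x, MA u x) ∨ CondLE K (∑ y, MB u y)) ∧
    ∑ x, ∑ y, ∑ u, traceNorm (eveOp (copies (copies G b) n) (MA u x) (MB u y)
      - if x = y then (2 : ℂ)⁻¹ • σ u else 0) ≤ ε

end Vale.Agent.P372
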