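import Vale.Agent.P372.ExactDefs

/-!
Protocols in which, on every block of copies, one of the parties is restricted.
-/

noncomputable section

open Matrix
open scoped ComplexOrder Kronecker

namespace Vale.Agent.P372

/-- Diagonal operators in some orthonormal basis plus combinations of `m` given ones. -/
def IsSimple {A : Type} [Fintype A] [DecidableEq A] (m : ℕ) (S : Set (Matrix A A ℂ)) : Prop :=
  ∃ (U : Matrix A A ℂ) (W : Fin m → Matrix A A ℂ), Uᴴ * U = 1 ∧
    ∀ X ∈ S, ∃ (d : A → ℂ) (c : Fin m → ℂ), X = U * diagonal d * Uᴴ + ∑ j, c j • W j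

/-- `M` is a combination of products over the `n` blocks, with factors in the given sets. -/
def InSpan {A : Type} {n : ℕ} (S : Fin n → Set (Matrix A A ℂ))
    (M : Matrix (Fin n → A) (Fin n → A) ℂ) : Prop :=
  M ∈ Submodule.span ℂ {P | ∃ X : Fin n → Matrix A A ℂ, (∀ t, X t ∈ S t) ∧
    P = Matrix.of fun i j => ∏ t, X t (i t) (j t)}

/-- A protocol of any number of rounds gives one key bit with error at most `ε` from `n` blocks of
`b` copies, and for each transcript and each block the effects of Alice or of Bob are diagonal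
in some orthonormal basis of the block up to `m` further operators. The other party is free. -/
def OneSidedBit {dA dB r : ℕ} (G : Matrix (Fin dA × Fin dB) (Fin r) ℂ) (b m n : ℕ) (ε : ℝ) :
    Prop :=
  ∃ (s : ℕ)
    (MA : Fin s → ZMod 2 → Matrix (Fin n → Fin b → Fin dA) (Fin n → Fin b → Fin dA) ℂ)
    (MB : Fin s → ZMod 2 → Matrix (Fin n → Fin b → Fin dB) (Fin n → Fin b → Fin dB) ℂ)
    (σ : Fin s → Matrix (Fin n → Fin b → Fin r) (Fin n → Fin b → Fin r) ℂ),
    (∀ u x, (MA u x).PosSemidef) ∧ (∀ u y, (MB u y).PosSemidef) ∧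
    ∑ u, (∑ x, MA u x) ⊗ₖ (∑ y, MB u y) = 1 ∧
    (∀ u, (σ u).PosSemidef) ∧ ∑ u, (σ u).trace = 1 ∧
    (∀ u, ∃ (SA : Fin n → Set (Matrix (Fin b → Fin dA) (Fin b → Fin dA) ℂ))
      (SB : Fin n → Set (Matrix (Fin b → Fin dB) (Fin b → Fin dB) ℂ)),
      (∀ t, IsSimple m (SA t) ∨ IsSimple m (SB t)) ∧
      (∀ x, InSpan SA (MA u x)) ∧ ∀ y, InSpan SB (MB u y)) ∧
    ∑ x, ∑ y, ∑ u, traceNorm (eveOp (copies (copies G b) n) (MA u x) (MB u y)
      - if x = y then (2 : ℂ)⁻¹ • σ u else 0) ≤ ε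

end Vale.Agent.P372
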