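import Mathlib
import Vale.Agent.P372.Bnd
import Vale.Agent.P372.OneSidedDefs

/-!
A state close to the identity splits into positive pieces, each of which looks like a product on
diagonal operators plus a few more on one side.
-/

noncomputable section

open Matrix Finset
open scoped ComplexOrder Kronecker MatrixOrder

namespace Vale.Agent.P372

section
variable {ι κ A B : Type} [Fintype ι] [DecidableEq ι] [Fintype κ] [DecidableEq κ]
  [Fintype A] [DecidableEq A] [Fintype B] [DecidableEq B]

/-- `-δ ≤ K ≤ δ` as operators. -/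
def OB (K : Matrix ι ι ℂ) (δ : ℝ) : Prop :=
  ((δ : ℂ) • 1 - K).PosSemidef ∧ ((δ : ℂ) • 1 + K).PosSemidef

omit [Fintype ι] in
theorem isHermitian_real_smul_one (r : ℝ) : ((r : ℂ) • (1 : Matrix ι ι ℂ)).IsHermitian := by
  rw [IsHermitian, conjTranspose_smul, conjTranspose_one, Complex.star_def, Complex.conj_ofReal]

omit [Fintype ι] in
theorem ob_isHermitian {K : Matrix ι ι ℂ} {δ : ℝ} (h : OB K δ) : K.IsHermitian := by
  simpa using h.2.1.sub (isHermitian_real_smul_one δ)

omit [Fintype ι] in
theorem ob_neg {K : Matrix ι ι ℂ} {δ : ℝ} (h : OB K δ) : OB (-K) δ :=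
  ⟨by simpa using h.2, by simpa [← sub_eq_add_neg] using h.1⟩

omit [Fintype ι] in
theorem ob_add {K L : Matrix ι ι ℂ} {δ η : ℝ} (h : OB K δ) (h' : OB L η) :
    OB (K + L) (δ + η) := by
  constructor
  · convert h.1.add h'.1 using 1; push_cast; module
  · convert h.2.add h'.2 using 1; push_cast; module

omit [Fintype ι] in
theorem ob_sub {K L : Matrix ι ι ℂ} {δ η : ℝ} (h : OB K δ) (h' : OB L η) :
    OB (K - L) (δ + η) := by
  simpa [sub_eq_add_neg] using ob_add h (ob_neg h')

omit [Fintype ι] in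
theorem ob_mono {K : Matrix ι ι ℂ} {δ η : ℝ} (h : OB K δ) (hd : δ ≤ η) : OB K η := by
  have : ((η - δ : ℝ) : ℂ) • (1 : Matrix ι ι ℂ) |>.PosSemidef :=
    PosSemidef.one.smul (by exact_mod_cast sub_nonneg.2 hd)
  constructor
  · convert h.1.add this using 1; push_cast; module
  · convert h.2.add this using 1; push_cast; module

omit [Fintype ι] in
theorem ob_zero {δ : ℝ} (h : 0 ≤ δ) : OB (0 : Matrix ι ι ℂ) δ := by
  have : ((δ : ℝ) : ℂ) • (1 : Matrix ι ι ℂ) |>.PosSemidef :=
    PosSemidef.one.smul (by exact_mod_cast h)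
  exact ⟨by simpa using this, by simpa using this⟩

omit [Fintype ι] in
theorem ob_sum {J : Type} (s : Finset J) {K : J → Matrix ι ι ℂ} {δ : ℝ}
    (h : ∀ j ∈ s, OB (K j) δ) : OB (∑ j ∈ s, K j) (s.card * δ) := by
  induction s using Finset.cons_induction with
  | empty => simpa using ob_zero le_rfl
  | cons a s ha ih =>
    rw [Finset.sum_cons, Finset.card_cons, Nat.cast_add, Nat.cast_one, add_mul, one_mul, add_comm _ δ]
    exact ob_add (h a (Finset.mem_cons_self a s)) (ih fun j hj => h j (Finset.mem_cons_of_mem hj))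

omit [Fintype ι] in
theorem ob_smul {K : Matrix ι ι ℂ} {δ : ℝ} (h : OB K δ) (r : ℝ) : OB ((r : ℂ) • K) (|r| * δ) := by
  rcases le_total 0 r with hr | hr
  · rw [abs_of_nonneg hr]
    constructor
    · convert h.1.smul (show (0 : ℂ) ≤ r by exact_mod_cast hr) using 1; push_cast; module
    · convert h.2.smul (show (0 : ℂ) ≤ r by exact_mod_cast hr) using 1; push_cast; module
  · rw [abs_of_nonpos hr]
    constructor
    · convert h.2.smul (show (0 : ℂ) ≤ ((-r : ℝ) : ℂ) by exact_mod_cast neg_nonneg.2 hr) using 1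
      push_cast; module
    · convert h.1.smul (show (0 : ℂ) ≤ ((-r : ℝ) : ℂ) by exact_mod_cast neg_nonneg.2 hr) using 1
      push_cast; module

omit [Fintype ι] in
theorem ob_diag {K : Matrix ι ι ℂ} {δ : ℝ} (h : OB K δ) (i : ι) : |(K i i).re| ≤ δ := by
  have h1 := (Complex.le_def.1 (h.1.diag_nonneg (i := i))).1
  have h2 := (Complex.le_def.1 (h.2.diag_nonneg (i := i))).1
  simp at h1 h2
  exact abs_le.2 ⟨by linarith, h1⟩

theorem ob_conj {K : Matrix ι ι ℂ} {δ c : ℝ} (h : OB K δ) {V : Matrix ι κ ℂ}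
    (hV : Vᴴ * V = (c : ℂ) • 1) : OB (Vᴴ * K * V) (δ * c) := by
  constructor
  · have := h.1.conjTranspose_mul_mul_same V
    rw [Matrix.mul_sub, Matrix.sub_mul, Matrix.mul_smul, Matrix.mul_one, Matrix.smul_mul, hV,
      smul_smul, ← Complex.ofReal_mul] at this
    exact this
  · have := h.2.conjTranspose_mul_mul_same V
    rw [Matrix.mul_add, Matrix.add_mul, Matrix.mul_smul, Matrix.mul_one, Matrix.smul_mul, hV,
      smul_smul, ← Complex.ofReal_mul] at this
    exact this

omit [DecidableEq ι] in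
theorem trace_mul_im {F W : Matrix ι ι ℂ} (hF : F.IsHermitian) (hW : W.IsHermitian) :
    (F * W).trace.im = 0 := by
  have h : star (F * W).trace = (F * W).trace := by
    rw [← trace_conjTranspose, conjTranspose_mul, hF.eq, hW.eq, trace_mul_comm]
  exact Complex.conj_eq_iff_im.1 h

omit [DecidableEq ι] in
theorem trace_mul_real {F W : Matrix ι ι ℂ} (hF : F.IsHermitian) (hW : W.IsHermitian) :
    (((F * W).trace.re : ℝ) : ℂ) = (F * W).trace :=
  Complex.ext (by simp) (by simp [trace_mul_im hF hW])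

/-- `G` has trace norm at most one. -/
def NB (G : Matrix ι ι ℂ) : Prop :=
  ∀ H δ, OB H δ → |(G * H).trace.re| ≤ δ

omit [Fintype ι] in
theorem ob_nonneg [Nonempty ι] {K : Matrix ι ι ℂ} {δ : ℝ} (h : OB K δ) : 0 ≤ δ :=
  (abs_nonneg _).trans (ob_diag h (Classical.arbitrary ι))

theorem trace_mul_diagonal (W : Matrix ι ι ℂ) (d : ι → ℂ) :
    (W * diagonal d).trace = ∑ i, W i i * d i := by
  simp [Matrix.trace, mul_diagonal]

/-- A Hermitian matrix is its trace-norm unit times a bounded observable. -/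
theorem exists_sign [Nonempty ι] {W : Matrix ι ι ℂ} (hW : W.IsHermitian) (hd : ∀ i, W i i = 0) :
    ∃ F G : Matrix ι ι ℂ, F.IsHermitian ∧ (∀ i, F i i = 0) ∧ OB F 2 ∧ G.IsHermitian ∧ NB G ∧
      (∀ i, G i i = 0) ∧ W = (F * W).trace • G := by
  set U : Matrix ι ι ℂ := (hW.eigenvectorUnitary : Matrix ι ι ℂ)
  set lam := hW.eigenvalues with hlam
  have hU : Uᴴ * U = 1 := by
    rw [← star_eq_conjTranspose]; exact Unitary.coe_star_mul_self _
  have hU' : U * Uᴴ = 1 := by
    rw [← star_eq_conjTranspose]; exact Unitary.coe_mul_star_self _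
  have hspec : W = U * diagonal (fun i => (lam i : ℂ)) * Uᴴ := by
    have := hW.spectral_theorem
    rw [Unitary.conjStarAlgAut_apply, star_eq_conjTranspose] at this
    exact this
  have hconj : ∀ d : ι → ℝ, (U * diagonal (fun i => (d i : ℂ)) * Uᴴ).IsHermitian := fun d => by
    refine isHermitian_mul_mul_conjTranspose _ ?_
    rw [isHermitian_diagonal_iff]
    exact fun i => by simp [IsSelfAdjoint, Complex.conj_ofReal]
  set sg : ι → ℝ := fun i => if 0 ≤ lam i then 1 else -1 with hsg
  set F₀ := U * diagonal (fun i => (sg i : ℂ)) * Uᴴ with hF₀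
  have hF₀ob : OB F₀ 1 := by
    have hd : OB (diagonal (fun i => (sg i : ℂ))) 1 := by
      constructor <;>
        simp only [Complex.ofReal_one, one_smul, ← diagonal_one, diagonal_sub, diagonal_add] <;>
        refine PosSemidef.diagonal fun i => ?_ <;> by_cases h : 0 ≤ lam i <;>
          simp [hsg, h] <;> exact zero_le_two.trans_eq one_add_one_eq_two.symm
    have := ob_conj (c := 1) hd (V := Uᴴ) (by simp [hU'])
    simpa [F₀] using this
  set t : ℝ := ∑ i, |lam i| with ht
  set F := F₀ - diagonal (fun i => F₀ i i) with hF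
  have hdiag : OB (diagonal (fun i => F₀ i i)) 1 := by
    constructor <;>
      simp only [Complex.ofReal_one, one_smul, ← diagonal_one, diagonal_sub, diagonal_add] <;>
      refine PosSemidef.diagonal fun i => ?_
    · simpa [Matrix.one_apply] using hF₀ob.1.diag_nonneg (i := i)
    · simpa [Matrix.one_apply] using hF₀ob.2.diag_nonneg (i := i)
  have htr : (F * W).trace = (t : ℂ) := by
    have hz : (diagonal (fun i => F₀ i i) * W).trace = 0 := by
      rw [trace_mul_comm, trace_mul_diagonal]; simp [hd]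
    rw [hF, Matrix.sub_mul, trace_sub, hz, sub_zero, hF₀, hspec]
    rw [show U * diagonal (fun i => (sg i : ℂ)) * Uᴴ * (U * diagonal (fun i => (lam i : ℂ)) * Uᴴ)
      = U * (diagonal (fun i => (sg i : ℂ)) * (Uᴴ * U) * diagonal (fun i => (lam i : ℂ))) * Uᴴ by
        simp only [Matrix.mul_assoc]]
    rw [hU, Matrix.mul_one, trace_mul_cycle, hU, Matrix.one_mul, diagonal_mul_diagonal,
      trace_diagonal, ht, Complex.ofReal_sum]
    refine Finset.sum_congr rfl fun i _ => ?_
    by_cases h : 0 ≤ lam i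
    · simp [hsg, h, abs_of_nonneg h]
    · simp [hsg, h, abs_of_neg (not_le.1 h)]
  have hFob : OB F 2 := by simpa [hF, one_add_one_eq_two] using ob_sub hF₀ob hdiag
  have hGW : W = (t : ℂ) • (U * diagonal (fun i => ((lam i / t : ℝ) : ℂ)) * Uᴴ) := by
    rw [← Matrix.smul_mul, ← Matrix.mul_smul, ← diagonal_smul]
    conv_lhs => rw [hspec]
    congr 3
    ext i
    by_cases h : t = 0
    · have := (Finset.sum_eq_zero_iff_of_nonneg fun i _ => abs_nonneg (lam i)).1 h i (mem_univ i)
      simp [abs_eq_zero.1 this]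
    · simp only [Pi.smul_apply, smul_eq_mul]
      rw [← Complex.ofReal_mul, mul_div_cancel₀ _ h]
  refine ⟨F, U * diagonal (fun i => ((lam i / t : ℝ) : ℂ)) * Uᴴ, ob_isHermitian hFob,
    fun i => by simp [hF], hFob, hconj _, fun H δ hH => ?_, fun i => ?_, htr.symm ▸ hGW⟩
  · have h0 := ob_nonneg hH
    have hH' : OB (Uᴴ * H * U) δ := by simpa using ob_conj (c := 1) hH (V := U) (by simp [hU])
    rw [trace_mul_comm, show H * (U * diagonal (fun i => ((lam i / t : ℝ) : ℂ)) * Uᴴ)
      = (H * U * diagonal (fun i => ((lam i / t : ℝ) : ℂ))) * Uᴴ by simp only [Matrix.mul_assoc],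
      trace_mul_comm, ← Matrix.mul_assoc, ← Matrix.mul_assoc, trace_mul_diagonal, Complex.re_sum]
    refine (Finset.abs_sum_le_sum_abs _ _).trans ?_
    calc ∑ i, |((Uᴴ * H * U) i i * ((lam i / t : ℝ) : ℂ)).re|
        ≤ ∑ i, δ * (|lam i| / t) := Finset.sum_le_sum fun i _ => by
          rw [Complex.re_mul_ofReal, abs_mul, abs_div, abs_of_nonneg (a := t)
            (Finset.sum_nonneg fun i _ => abs_nonneg _)]
          exact mul_le_mul_of_nonneg_right (ob_diag hH' i)
            (div_nonneg (abs_nonneg _) (Finset.sum_nonneg fun i _ => abs_nonneg _))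
      _ = δ * (t / t) := by rw [← Finset.mul_sum, ← Finset.sum_div]
      _ ≤ δ := mul_le_of_le_one_right h0 (div_self_le_one t)
  · by_cases h : t = 0
    · simp [h]
    · have := congrFun (congrFun hGW i) i
      rw [hd, Matrix.smul_apply, smul_eq_mul, eq_comm, mul_eq_zero] at this
      exact this.resolve_left (by exact_mod_cast h)

theorem exists_proj [Nonempty ι] : ∀ (N : ℕ) (W : Fin N → Matrix ι ι ℂ),
    (∀ j, (W j).IsHermitian) → (∀ j i, W j i i = 0) →
    ∃ F G : Fin N → Matrix ι ι ℂ, (∀ i a, F i a a = 0) ∧ (∀ i, OB (F i) (2 * 3 ^ N)) ∧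
      (∀ i, (G i).IsHermitian ∧ NB (G i)) ∧ ∀ j, W j = ∑ i, (F i * W j).trace • G i
  | 0, _, _, _ => ⟨Fin.elim0, Fin.elim0, fun i => i.elim0, fun i => i.elim0, fun i => i.elim0,
      fun j => j.elim0⟩
  | N + 1, W, hW, hd => by
    obtain ⟨F, G, hF, hF0, hFob, hG, hGn, hGd, hW0⟩ := exists_sign (hW 0) (hd 0)
    obtain ⟨F', G'', hd', hob, hG'', hrep⟩ := exists_proj N
      (fun j => W j.succ - (F * W j.succ).trace • G) (fun j => by
        refine (hW _).sub ?_
        rw [← trace_mul_real hF (hW _)]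
        exact IsHermitian.smul hG (Complex.conj_ofReal _))
      (fun j i => by simp [hGd, hd])
    refine ⟨Fin.cases F fun i => F' i - ((F' i * G).trace.re : ℂ) • F, Fin.cases G G'',
      fun i a => ?_, fun i => ?_, fun i => ?_, fun j => ?_⟩
    · cases i using Fin.cases <;> simp [hF0, hd']
    · cases i using Fin.cases with
      | zero =>
        refine ob_mono hFob ?_
        have : (1 : ℝ) ≤ 3 ^ (N + 1) := one_le_pow₀ (by norm_num)
        linarith
      | succ i =>
        have hc : |(F' i * G).trace.re| ≤ 2 * 3 ^ N := by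
          rw [trace_mul_comm]; exact hGn _ _ (hob i)
        refine ob_mono (ob_sub (hob i) (ob_smul hFob _)) ?_
        rw [pow_succ]
        linarith
    · cases i using Fin.cases with
      | zero => exact ⟨hG, hGn⟩
      | succ i => exact hG'' i
    · have key : ∀ i, ((F' i - ((F' i * G).trace.re : ℂ) • F) * W j).trace
          = (F' i * (W j - (F * W j).trace • G)).trace := fun i => by
        rw [trace_mul_real (ob_isHermitian (hob i)) hG, Matrix.sub_mul, Matrix.mul_sub, trace_sub,
          trace_sub, Matrix.smul_mul, Matrix.mul_smul, trace_smul, trace_smul, smul_eq_mul,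
          smul_eq_mul, mul_comm]
      rw [Fin.sum_univ_succ]
      simp only [Fin.cases_zero, Fin.cases_succ, key]
      cases j using Fin.cases with
      | zero => simp [← hW0]
      | succ j => rw [← hrep j]; abel

end

section
variable {A B : Type} [Fintype A] [DecidableEq A] [Fintype B] [DecidableEq B]

/-- A sum of products of positive operators. -/
def IsProdSum (Q : Matrix (A × B) (A × B) ℂ) : Prop :=
  ∃ (J : ℕ) (α : Fin J → Matrix A A ℂ) (β : Fin J → Matrix B B ℂ),
    (∀ j, (α j).PosSemidef) ∧ (∀ j, (β j).PosSemidef) ∧ Q = ∑ j, α j ⊗ₖ β j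

omit [Fintype A] [DecidableEq A] [Fintype B] [DecidableEq B] in
theorem prodSum_of {J : Type} [Fintype J] (α : J → Matrix A A ℂ) (β : J → Matrix B B ℂ)
    (ha : ∀ j, (α j).PosSemidef) (hb : ∀ j, (β j).PosSemidef) : IsProdSum (∑ j, α j ⊗ₖ β j) :=
  ⟨Fintype.card J, fun j => α ((Fintype.equivFin J).symm j),
    fun j => β ((Fintype.equivFin J).symm j), fun _ => ha _, fun _ => hb _,
    ((Fintype.equivFin J).symm.sum_comp fun j => α j ⊗ₖ β j).symm⟩

omit [Fintype A] [DecidableEq A] [Fintype B] [DecidableEq B] in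
theorem prodSum_add {P Q : Matrix (A × B) (A × B) ℂ} (hP : IsProdSum P) (hQ : IsProdSum Q) :
    IsProdSum (P + Q) := by
  obtain ⟨J, α, β, ha, hb, rfl⟩ := hP
  obtain ⟨L, α', β', ha', hb', rfl⟩ := hQ
  have := prodSum_of (Sum.elim α α') (Sum.elim β β') (by rintro (j | j) <;> simp [ha, ha'])
    (by rintro (j | j) <;> simp [hb, hb'])
  simpa [Fintype.sum_sum_type] using this

omit [Fintype A] [DecidableEq A] [Fintype B] [DecidableEq B] in
theorem prodSum_sum {J : Type} (s : Finset J) {Q : J → Matrix (A × B) (A × B) ℂ}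
    (h : ∀ j ∈ s, IsProdSum (Q j)) : IsProdSum (∑ j ∈ s, Q j) := by
  induction s using Finset.cons_induction with
  | empty => exact ⟨0, Fin.elim0, Fin.elim0, fun i => i.elim0, fun i => i.elim0, by simp⟩
  | cons a s ha ih =>
    rw [Finset.sum_cons]
    exact prodSum_add (h a (Finset.mem_cons_self a s)) (ih fun j hj => h j (Finset.mem_cons_of_mem hj))

omit [DecidableEq A] [DecidableEq B] in
theorem prodSum_psd {Q : Matrix (A × B) (A × B) ℂ} (h : IsProdSum Q) : Q.PosSemidef := by
  obtain ⟨J, α, β, ha, hb, rfl⟩ := h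
  exact posSemidef_sum _ fun j _ => (ha j).kronecker (hb j)

omit [Fintype A] [Fintype B] in
theorem kron_prodSum {F : Matrix A A ℂ} {T : Matrix B B ℂ} {C δ : ℝ} (hF : OB F C) (hT : OB T δ) :
    IsProdSum (((C * δ : ℝ) : ℂ) • 1 + F ⊗ₖ T) := by
  have h2 : (0 : ℂ) ≤ ((2⁻¹ : ℝ) : ℂ) := by exact_mod_cast (by norm_num : (0 : ℝ) ≤ 2⁻¹)
  have := prodSum_add
    (prodSum_of (fun _ : Unit => ((2⁻¹ : ℝ) : ℂ) • ((C : ℂ) • 1 + F))
      (fun _ => (δ : ℂ) • 1 + T) (fun _ => hF.2.smul h2) fun _ => hT.2)
    (prodSum_of (fun _ : Unit => ((2⁻¹ : ℝ) : ℂ) • ((C : ℂ) • 1 - F))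
      (fun _ => (δ : ℂ) • 1 - T) (fun _ => hF.1.smul h2) fun _ => hT.1)
  convert this using 1
  simp only [Finset.univ_unique, Finset.sum_singleton, smul_kronecker]
  ext ⟨a, b⟩ ⟨a', b'⟩
  simp only [Matrix.add_apply, Matrix.smul_apply, kroneckerMap_apply, Matrix.sub_apply,
    smul_eq_mul, Matrix.one_apply, Prod.mk.injEq]
  push_cast
  by_cases h : a = a' <;> by_cases h' : b = b' <;> simp [h, h'] <;> ring

theorem ob_kronecker {F : Matrix A A ℂ} {T : Matrix B B ℂ} {C δ : ℝ} (hF : OB F C) (hT : OB T δ) :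
    OB (F ⊗ₖ T) (C * δ) := by
  refine ⟨?_, prodSum_psd (kron_prodSum hF hT)⟩
  have e : (-F) ⊗ₖ T = -(F ⊗ₖ T) := by ext i j; simp [kroneckerMap_apply]
  simpa [e, sub_eq_add_neg] using prodSum_psd (kron_prodSum (ob_neg hF) hT)

/-- The blocks of `K` on the diagonal of the first factor. -/
def blockDiag' (K : Matrix (A × B) (A × B) ℂ) : Matrix (A × B) (A × B) ℂ :=
  Matrix.of fun i j => if i.1 = j.1 then K i j else 0

omit [Fintype B] in
theorem blockDiag_prodSum {K : Matrix (A × B) (A × B) ℂ} {δ : ℝ} (h : OB K δ) :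
    IsProdSum ((δ : ℂ) • 1 + blockDiag' K) := by
  have := prodSum_of (fun x : A => Matrix.single x x (1 : ℂ))
    (fun x => (((δ : ℂ) • 1 + K).submatrix (fun b => (x, b)) fun b => (x, b)))
    (fun x => by
      rw [← diagonal_single]
      exact PosSemidef.diagonal fun y => by by_cases hy : y = x <;> simp [hy])
    fun x => h.2.submatrix _
  convert this using 1
  ext ⟨a, b⟩ ⟨a', b'⟩
  simp only [Matrix.add_apply, Matrix.smul_apply, blockDiag', Matrix.of_apply, Matrix.sum_apply,
    kroneckerMap_apply, Matrix.submatrix_apply, smul_eq_mul]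
  rw [Finset.sum_eq_single a (fun x _ hx => by simp [Matrix.single, hx])
    (fun h => absurd (mem_univ a) h)]
  by_cases hab : a = a'
  · subst hab; simp [Matrix.single]
  · simp [Matrix.single, hab, Matrix.one_apply]

theorem ob_blockDiag {K : Matrix (A × B) (A × B) ℂ} {δ : ℝ} (h : OB K δ) :
    OB (blockDiag' K) δ := by
  refine ⟨?_, prodSum_psd (blockDiag_prodSum h)⟩
  have e : blockDiag' (-K) = -blockDiag' K := by
    ext i j; by_cases h' : i.1 = j.1 <;> simp [blockDiag', h']
  simpa [e, sub_eq_add_neg] using prodSum_psd (blockDiag_prodSum (ob_neg h))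

/-- Contraction of the first factor with `G`. -/
def contractA (G : Matrix A A ℂ) (R : Matrix (A × B) (A × B) ℂ) : Matrix B B ℂ :=
  Matrix.of fun b b' => ∑ a, ∑ a', G a' a * R (a, b) (a', b')

omit [DecidableEq A] [DecidableEq B] in
theorem trace_contractA (G : Matrix A A ℂ) (R : Matrix (A × B) (A × B) ℂ) (Y : Matrix B B ℂ) :
    (contractA G R * Y).trace = (R * (G ⊗ₖ Y)).trace := by
  simp only [Matrix.trace, Matrix.diag, Matrix.mul_apply, contractA, Matrix.of_apply,
    Fintype.sum_prod_type, kroneckerMap_apply, Finset.sum_mul]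
  rw [Finset.sum_comm (γ := A)]
  refine Finset.sum_congr rfl fun a _ => Eq.trans (Finset.sum_comm) ?_
  refine Finset.sum_congr rfl fun b _ => ?_
  rw [Finset.sum_comm]
  exact Finset.sum_congr rfl fun _ _ => Finset.sum_congr rfl fun _ _ => by ring

theorem ob_contractA {G : Matrix A A ℂ} (hG : G.IsHermitian) (hn : NB G)
    {R : Matrix (A × B) (A × B) ℂ} {δ : ℝ} (hR : OB R δ) : OB (contractA G R) δ := by
  have hRh := ob_isHermitian hR
  have hT : (contractA G R).IsHermitian := by
    ext b b'
    simp only [conjTranspose_apply, contractA, Matrix.of_apply, star_sum, star_mul',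
      hG.apply, hRh.apply]
    exact Finset.sum_comm
  have key : ∀ y : B → ℂ, |(star y ⬝ᵥ contractA G R *ᵥ y).re| ≤ δ * vsq y := fun y => by
    set V : Matrix (A × B) A ℂ := Matrix.of fun p a => if p.1 = a then y p.2 else 0 with hV
    have hVV : Vᴴ * V = ((vsq y : ℝ) : ℂ) • 1 := by
      ext a a'
      simp only [hV, Matrix.mul_apply, conjTranspose_apply, Matrix.of_apply, Matrix.smul_apply,
        Matrix.one_apply, Fintype.sum_prod_type, smul_eq_mul]
      by_cases h : a = a'
      · subst h
        simp [vsq, Complex.normSq_eq_conj_mul_self]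
      · rw [if_neg h, mul_zero]
        refine Finset.sum_eq_zero fun x _ => Finset.sum_eq_zero fun _ _ => ?_
        by_cases h1 : x = a
        · simp [h1, h]
        · simp [h1]
    have e : star y ⬝ᵥ contractA G R *ᵥ y = (G * (Vᴴ * R * V)).trace := by
      have ent : ∀ a' a, (Vᴴ * R * V) a' a = ∑ b, ∑ b', star (y b) * R (a', b) (a, b') * y b' := by
        intro a' a
        simp only [Matrix.mul_apply, conjTranspose_apply, hV, Matrix.of_apply,
          Fintype.sum_prod_type, Finset.sum_mul]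
        rw [Finset.sum_eq_single a (fun x _ hx => by simp [hx]) (by simp)]
        simp only [if_true]
        rw [Finset.sum_comm]
        rw [Finset.sum_eq_single a' (fun x _ hx => by simp [hx]) (by simp)]
        simp only [if_true]
        exact Finset.sum_comm
      simp only [Matrix.trace, Matrix.diag, Matrix.mul_apply (M := G), ent, contractA, dotProduct,
        mulVec, Pi.star_apply, Matrix.of_apply, Finset.mul_sum, Finset.sum_mul]
      refine Eq.trans (Finset.sum_congr rfl fun b _ => Finset.sum_comm) ?_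
      refine Finset.sum_comm.trans ?_
      refine Eq.trans (Finset.sum_congr rfl fun a _ => Finset.sum_congr rfl fun b _ =>
        Finset.sum_comm) ?_
      refine Eq.trans (Finset.sum_congr rfl fun a _ => Finset.sum_comm) ?_
      refine Finset.sum_comm.trans ?_
      exact Finset.sum_congr rfl fun a' _ => Finset.sum_congr rfl fun a _ =>
        Finset.sum_congr rfl fun b _ => Finset.sum_congr rfl fun b' _ => by ring
    rw [e]
    exact hn _ _ (ob_conj hR hVV)
  have him : ∀ y, (star y ⬝ᵥ contractA G R *ᵥ y).im = 0 := fun y => by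
    have := hT.im_star_dotProduct_mulVec_self y
    simpa using this
  constructor
  · refine PosSemidef.of_dotProduct_mulVec_nonneg ((isHermitian_real_smul_one δ).sub hT) fun y => ?_
    rw [sub_mulVec, smul_mulVec, one_mulVec, dotProduct_sub, dotProduct_smul, dot_self, smul_eq_mul,
      Complex.le_def]
    refine ⟨?_, by simp [him y]⟩
    have := (abs_le.1 (key y)).2
    simp; linarith
  · refine PosSemidef.of_dotProduct_mulVec_nonneg ((isHermitian_real_smul_one δ).add hT) fun y => ?_
    rw [add_mulVec, smul_mulVec, one_mulVec, dotProduct_add, dotProduct_smul, dot_self, smul_eq_mul,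
      Complex.le_def]
    refine ⟨?_, by simp [him y]⟩
    have := (abs_le.1 (key y)).1
    simp; linarith

/-- `σ` is a sum of positive pieces, each acting as a product on operators from `SA` and `SB`. -/
def Splits (σ : Matrix (A × B) (A × B) ℂ) (SA : Set (Matrix A A ℂ)) (SB : Set (Matrix B B ℂ)) :
    Prop :=
  ∃ (J : ℕ) (ω : Fin J → Matrix (A × B) (A × B) ℂ) (a : Fin J → Matrix A A ℂ)
    (b : Fin J → Matrix B B ℂ), (∀ j, (ω j).PosSemidef) ∧ σ = ∑ j, ω j ∧
    ∀ j, ∀ X ∈ SA, ∀ Y ∈ SB, (ω j * (X ⊗ₖ Y)).trace = (a j * X).trace * (b j * Y).trace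

/-- The closeness to the identity needed for `m` extra operators. -/
def gap (m : ℕ) : ℝ := (3 + 16 * m * 9 ^ m)⁻¹

theorem gap_pos (m : ℕ) : 0 < gap m := by unfold gap; positivity

theorem splits_basis [Nonempty A] {K : Matrix (A × B) (A × B) ℂ} {δ : ℝ} {m : ℕ}
    (hK : OB K δ) (hδ : δ ≤ gap m) (W : Fin m → Matrix A A ℂ) :
    Splits (1 + K) {X | ∃ (d : A → ℂ) (c : Fin m → ℂ), X = diagonal d + ∑ j, c j • W j}
      Set.univ := by
  classical
  set O : Matrix A A ℂ → Matrix A A ℂ := fun X => X - diagonal (fun i => X i i) with hO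
  set H : Fin (m + m) → Matrix A A ℂ := fun j => O (Fin.append (fun i => W i + (W i)ᴴ)
    (fun i => Complex.I • (W i - (W i)ᴴ)) j) with hH
  have hHh : ∀ j, (H j).IsHermitian := fun j => by
    have hO' : ∀ X : Matrix A A ℂ, X.IsHermitian → (O X).IsHermitian := fun X hX =>
      hX.sub (by rw [isHermitian_diagonal_iff]; exact fun i => hX.apply i i)
    refine hO' _ ?_
    refine Fin.addCases (fun i => ?_) (fun i => ?_) j
    · rw [Fin.append_left, IsHermitian, conjTranspose_add, conjTranspose_conjTranspose, add_comm]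
    · rw [Fin.append_right, IsHermitian, conjTranspose_smul, conjTranspose_sub,
        conjTranspose_conjTranspose, Complex.star_def, Complex.conj_I, neg_smul, ← smul_neg,
        neg_sub]
  obtain ⟨F, G, hFd, hF, hG, hrep⟩ := exists_proj (m + m) H hHh (fun j i => by simp [hH, hO])
  set R := K - blockDiag' K with hR
  have hRob : OB R (δ + δ) := ob_sub hK (ob_blockDiag hK)
  set C : ℝ := 2 * 3 ^ (m + m) with hC
  set T : Fin (m + m) → Matrix B B ℂ := fun i => contractA (G i) R with hT
  set Q := blockDiag' K + ∑ i, F i ⊗ₖ T i with hQ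
  have hFT : OB (∑ i, F i ⊗ₖ T i) ((m + m : ℕ) * (C * (δ + δ))) := by
    have := ob_sum Finset.univ fun i _ => ob_kronecker (hF i) (ob_contractA (hG i).1 (hG i).2 hRob)
    simpa using this
  set c₀ : ℝ := 1 - δ - (m + m : ℕ) * (C * (δ + δ)) with hc₀
  set ω₀ := (c₀ : ℂ) • (1 : Matrix (A × B) (A × B) ℂ) + (K - Q) with hω₀
  set P := ((δ : ℂ) • 1 + blockDiag' K)
    + ∑ i, (((C * (δ + δ) : ℝ) : ℂ) • 1 + F i ⊗ₖ T i) with hP
  have hPs : IsProdSum P := prodSum_add (blockDiag_prodSum hK)
    (prodSum_sum _ fun i _ => kron_prodSum (hF i) (ob_contractA (hG i).1 (hG i).2 hRob))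
  have hω : ω₀.PosSemidef := by
    rcases isEmpty_or_nonempty B with hB | hB
    · rw [show ω₀ = 0 from Matrix.ext fun i => hB.elim i.2]
      exact PosSemidef.zero
    have hδ0 : 0 ≤ δ := ob_nonneg hK
    refine (ob_mono (η := c₀) (ob_sub hK (ob_add (ob_blockDiag hK) hFT)) ?_).2
    have h9 : (3 : ℝ) ^ (m + m) = 9 ^ m := by rw [← two_mul, pow_mul]; norm_num
    have hg : δ * (3 + 16 * m * 9 ^ m) ≤ 1 := by
      rw [gap] at hδ
      rwa [← le_div_iff₀ (by positivity), one_div]
    simp only [hc₀, hC, h9]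
    push_cast
    linarith
  have hsum : 1 + K = ω₀ + P := by
    simp only [hω₀, hP, hQ, hc₀, Finset.sum_add_distrib, Finset.sum_const, Finset.card_univ,
      Fintype.card_fin, ← Nat.cast_smul_eq_nsmul ℂ]
    push_cast
    module
  have hzero : ∀ X ∈ {X : Matrix A A ℂ | ∃ (d : A → ℂ) (c : Fin m → ℂ),
      X = diagonal d + ∑ j, c j • W j}, ∀ Y : Matrix B B ℂ, ((K - Q) * (X ⊗ₖ Y)).trace = 0 := by
    have e : ∀ X Y, ((K - Q) * (X ⊗ₖ Y)).trace
        = (R * (X ⊗ₖ Y)).trace - (R * ((∑ i, (F i * X).trace • G i) ⊗ₖ Y)).trace := fun X Y => by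
      have e1 : K - Q = R - ∑ i, F i ⊗ₖ T i := by rw [hQ, hR]; abel
      rw [e1, Matrix.sub_mul, trace_sub, Finset.sum_mul, trace_sum,
        show (∑ i, (F i * X).trace • G i) ⊗ₖ Y = ∑ i, (F i * X).trace • (G i ⊗ₖ Y) by
          ext p q; simp [Matrix.sum_apply, Finset.sum_mul, mul_assoc],
        Matrix.mul_sum, trace_sum]
      congr 1
      refine Finset.sum_congr rfl fun i _ => ?_
      rw [← mul_kronecker_mul, trace_kronecker, trace_contractA, Matrix.mul_smul, trace_smul,
        smul_eq_mul]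
    have hdiag : ∀ d Y, ((K - Q) * (diagonal d ⊗ₖ Y)).trace = 0 := fun d Y => by
      rw [e]
      have h1 : ∀ i, (F i * diagonal d).trace = 0 := fun i => by
        rw [trace_mul_diagonal]; simp [hFd]
      simp only [h1, zero_smul, Finset.sum_const_zero, zero_kronecker, Matrix.mul_zero, trace_zero,
        sub_zero]
      refine Finset.sum_eq_zero fun p _ => ?_
      simp only [Matrix.diag, Matrix.mul_apply]
      refine Finset.sum_eq_zero fun q _ => ?_
      by_cases hpq : p.1 = q.1
      · simp [hR, blockDiag', hpq]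
      · simp [Ne.symm hpq]
    have hHj : ∀ j Y, ((K - Q) * (H j ⊗ₖ Y)).trace = 0 := fun j Y => by
      rw [e, ← hrep j, sub_self]
    rintro X ⟨d, c, rfl⟩ Y
    let L : Matrix A A ℂ →ₗ[ℂ] ℂ :=
      { toFun := fun X => ((K - Q) * (X ⊗ₖ Y)).trace
        map_add' := fun X X' => by rw [add_kronecker, Matrix.mul_add, trace_add]
        map_smul' := fun r X => by
          rw [smul_kronecker, Matrix.mul_smul, trace_smul, RingHom.id_apply] }
    change L _ = 0
    have hL : ∀ Z, L (O Z) = L Z := fun Z => by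
      rw [hO, map_sub, show L (diagonal fun i => Z i i) = 0 from hdiag _ Y, sub_zero]
    have hWj : ∀ j, L (W j) = 0 := fun j => by
      have a1 : L (W j + (W j)ᴴ) = 0 := by
        have := hHj (Fin.castAdd m j) Y
        rw [hH] at this
        simp only [Fin.append_left] at this
        exact (hL _).symm.trans this
      have a2 : L (Complex.I • (W j - (W j)ᴴ)) = 0 := by
        have := hHj (Fin.natAdd m j) Y
        rw [hH] at this
        simp only [Fin.append_right] at this
        exact (hL _).symm.trans this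
      rw [map_smul, smul_eq_mul, mul_eq_zero] at a2
      have a3 := a2.resolve_left Complex.I_ne_zero
      rw [map_add] at a1
      rw [map_sub] at a3
      linear_combination (a1 + a3) / 2
    rw [map_add, show L (diagonal d) = 0 from hdiag d Y, map_sum]
    simp [hWj]
  obtain ⟨J, α, β, ha, hb, hPe⟩ := hPs
  refine ⟨J + 1, Fin.cons ω₀ fun j => α j ⊗ₖ β j, Fin.cons ((c₀ : ℂ) • 1) α, Fin.cons 1 β,
    fun j => ?_, ?_, fun j => ?_⟩
  · cases j using Fin.cases with
    | zero => exact hω
    | succ j => exact (ha j).kronecker (hb j)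
  · rw [hsum, hPe, Fin.sum_univ_succ]
    simp
  · cases j using Fin.cases with
    | zero =>
      intro X hX Y _
      simp only [Fin.cons_zero]
      rw [hω₀, Matrix.add_mul, trace_add, hzero X hX Y, add_zero, Matrix.smul_mul, Matrix.one_mul,
        Matrix.one_mul, Matrix.smul_mul, Matrix.one_mul, trace_smul, trace_smul, trace_kronecker,
        smul_eq_mul, smul_eq_mul, mul_assoc]
    | succ j =>
      intro X _ Y _
      simp only [Fin.cons_succ]
      rw [← mul_kronecker_mul, trace_kronecker]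

end

end Vale.Agent.P372
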