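import Mathlib
import Vale.Agent.P372.Clifford
import Vale.Agent.P372.Pinch

/-!
PPT entangled states arbitrarily close to the maximally mixed state in operator norm.
-/

noncomputable section

open Matrix Finset
open scoped ComplexOrder Kronecker MatrixOrder

namespace Vale.Agent.P372

section
variable {k D : ℕ}

/-- A matrix from its blocks. -/
def blk (N : Fin k → Fin k → Matrix (Fin D) (Fin D) ℂ) : Matrix (Fin k × Fin D) (Fin k × Fin D) ℂ :=
  Matrix.of fun p q => N p.1 q.1 p.2 q.2

theorem blk_mul (N N' : Fin k → Fin k → Matrix (Fin D) (Fin D) ℂ) :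
    blk N * blk N' = blk fun a c => ∑ b, N a b * N' b c := by
  ext p q
  simp [blk, Matrix.mul_apply, Fintype.sum_prod_type, Matrix.sum_apply]

theorem blk_sub (N N' : Fin k → Fin k → Matrix (Fin D) (Fin D) ℂ) :
    blk N - blk N' = blk fun a c => N a c - N' a c := rfl

theorem blk_mulVec (N : Fin k → Fin k → Matrix (Fin D) (Fin D) ℂ) (w : Fin k × Fin D → ℂ)
    (a : Fin k) (x : Fin D) :
    (blk N *ᵥ w) (a, x) = ∑ c, (N a c *ᵥ fun y => w (c, y)) x := by
  simp [blk, mulVec, dotProduct, Fintype.sum_prod_type]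

end

namespace Car

variable {k : ℕ} (C : Car k)

/-- `J a c = ∑ b, f a b * f b c`. -/
def J (a c : Fin k) : Matrix (Fin C.dim) (Fin C.dim) ℂ := ∑ b, C.f a b * C.f b c

/-- The operator matrix. -/
def M : Matrix (Fin k × Fin C.dim) (Fin k × Fin C.dim) ℂ := blk C.f

/-- A symmetry generator of the square of the operator matrix. -/
def L (d e : Fin k) : Matrix (Fin k × Fin C.dim) (Fin k × Fin C.dim) ℂ :=
  blk fun a c => (if a = c then C.J d e else 0) - if a = e ∧ c = d then (2 : ℂ) • 1 else 0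

/-- An ordering operator. -/
def H : Matrix (Fin k × Fin C.dim) (Fin k × Fin C.dim) ℂ :=
  ∑ a : Fin k, (-((a : ℕ) : ℂ)) • C.L a a

theorem M_mul_M : C.M * C.M = blk C.J := blk_mul _ _

theorem J_comm_f (a c d e : Fin k) : C.J a c * C.f d e - C.f d e * C.J a c
    = (2 : ℂ) • ((if c = d then C.f a e else 0) - if a = e then C.f d c else 0) := by
  have h : ∀ b, C.f a b * C.f b c * C.f d e - C.f d e * (C.f a b * C.f b c)
      = C.f a b * (C.f b c * C.f d e + C.f d e * C.f b c)
        - (C.f a b * C.f d e + C.f d e * C.f a b) * C.f b c := fun b => by noncomm_ring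
  simp only [J, Finset.sum_mul, Finset.mul_sum, ← Finset.sum_sub_distrib, h, C.car,
    mul_ite, ite_mul, mul_zero, zero_mul, Matrix.mul_smul, Matrix.smul_mul, Matrix.mul_one,
    Matrix.one_mul, smul_sub, smul_ite, smul_zero]
  rw [Finset.sum_sub_distrib]
  congr 1
  · by_cases hcd : c = d <;> simp [hcd]
  · by_cases hae : a = e <;> simp [hae]

theorem J_comm (a c d e : Fin k) : C.J a c * C.J d e - C.J d e * C.J a c
    = (2 : ℂ) • ((if c = d then C.J a e else 0) - if a = e then C.J d c else 0) := by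
  have h : ∀ g, C.J a c * (C.f d g * C.f g e) - C.f d g * C.f g e * C.J a c
      = (C.J a c * C.f d g - C.f d g * C.J a c) * C.f g e
        + C.f d g * (C.J a c * C.f g e - C.f g e * C.J a c) := fun g => by noncomm_ring
  rw [show C.J d e = ∑ g, C.f d g * C.f g e from rfl]
  simp only [Finset.mul_sum, Finset.sum_mul, ← Finset.sum_sub_distrib, h, J_comm_f]
  simp only [Finset.sum_add_distrib, Matrix.smul_mul, Matrix.mul_smul, ← Finset.smul_sum,
    ← smul_add, Matrix.sub_mul, Matrix.mul_sub, Finset.sum_sub_distrib, ite_mul, mul_ite, zero_mul,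
    mul_zero, Finset.sum_ite_eq, mem_univ, if_true]
  congr 1
  by_cases hcd : c = d <;> by_cases hae : a = e <;> simp [hcd, hae, J] <;> abel

theorem T_comm_L (d e : Fin k) : C.M * C.M * C.L d e = C.L d e * (C.M * C.M) := by
  rw [M_mul_M, L, blk_mul, blk_mul]
  congr 1
  funext a c
  have h := C.J_comm a c d e
  rw [sub_eq_iff_eq_add] at h
  simp only [Matrix.mul_sub, Matrix.sub_mul, Finset.sum_sub_distrib, mul_ite, ite_mul, mul_zero,
    zero_mul, Finset.sum_ite_eq, Finset.sum_ite_eq', mem_univ, if_true, ite_and]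
  rw [h]
  by_cases hcd : c = d <;> by_cases hae : a = e <;>
    simp [hcd, hae, smul_sub] <;> abel

theorem L_comm (a s c : Fin k) : C.L a a * C.L s c - C.L s c * C.L a a
    = ((if a = s then (2 : ℂ) else 0) - if a = c then 2 else 0) • C.L s c := by
  rw [L, L, blk_mul, blk_mul, blk_sub,
    show ∀ (r : ℂ) (N : Fin k → Fin k → Matrix (Fin C.dim) (Fin C.dim) ℂ),
      r • blk N = blk fun i j => r • N i j from fun r N => rfl]
  congr 1
  funext i j
  have h := C.J_comm a a s c
  rw [sub_eq_iff_eq_add] at h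
  simp only [Matrix.mul_sub, Matrix.sub_mul, Finset.sum_sub_distrib, mul_ite, ite_mul, mul_zero,
    zero_mul, ite_and, Finset.sum_ite_eq, Finset.sum_ite_eq', mem_univ, if_true, Matrix.mul_smul,
    Matrix.smul_mul, Matrix.mul_one, Matrix.one_mul]
  rw [h]
  by_cases h1 : a = s <;> by_cases h2 : a = c <;> by_cases h3 : i = j <;>
    by_cases h4 : i = a <;> by_cases h5 : j = a <;> by_cases h6 : i = c <;> by_cases h7 : j = s <;>
    simp_all [smul_smul, smul_sub]
  all_goals grind

theorem H_comm (s c : Fin k) :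
    C.H * C.L s c = C.L s c * C.H + (2 * (((c : ℕ) : ℂ) - ((s : ℕ) : ℂ))) • C.L s c := by
  rw [← sub_eq_iff_eq_add', H, Finset.sum_mul, Finset.mul_sum, ← Finset.sum_sub_distrib]
  simp only [Matrix.smul_mul, Matrix.mul_smul, ← smul_sub, L_comm, smul_smul, ← Finset.sum_smul]
  congr 1
  simp [mul_sub, Finset.sum_sub_distrib]
  ring

theorem H_comm_T : C.M * C.M * C.H = C.H * (C.M * C.M) := by
  simp [H, Finset.mul_sum, Finset.sum_mul, T_comm_L]

theorem J_le (s : Fin k) : (((2 * k : ℕ) : ℂ) • 1 - C.J s s).PosSemidef := by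
  have e : ((2 * k : ℕ) : ℂ) • (1 : Matrix (Fin C.dim) (Fin C.dim) ℂ) - C.J s s
      = ∑ b, C.f b s * C.f s b := by
    have hb : ∀ b, C.f b s * C.f s b = (2 : ℂ) • 1 - C.f s b * C.f b s := fun b => by
      rw [eq_sub_iff_add_eq, add_comm, C.car, if_pos ⟨rfl, rfl⟩]
    simp only [hb, Finset.sum_sub_distrib, Finset.sum_const, Finset.card_univ, Fintype.card_fin, J]
    rw [← Nat.cast_smul_eq_nsmul ℂ, smul_smul]
    push_cast
    ring_nf
  rw [e]
  exact posSemidef_sum _ fun b _ => by
    rw [← C.adj s b]; exact posSemidef_conjTranspose_mul_self _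

theorem eigen_le {lam : ℝ} {v : Fin k × Fin C.dim → ℂ} (hv : v ≠ 0)
    (hT : (C.M * C.M) *ᵥ v = (lam : ℂ) • v) : lam ≤ 4 * k := by
  classical
  set T := C.M * C.M with hTdef
  set E : Submodule ℂ (Fin k × Fin C.dim → ℂ) :=
    LinearMap.ker (T.mulVecLin - (lam : ℂ) • LinearMap.id) with hE
  have memE : ∀ w, w ∈ E ↔ T *ᵥ w = (lam : ℂ) • w := fun w => by simp [hE, sub_eq_zero]
  have hinv : ∀ w ∈ E, C.H.mulVecLin w ∈ E := fun w hw => by
    rw [memE, Matrix.mulVecLin_apply, mulVec_mulVec, C.H_comm_T, ← mulVec_mulVec, (memE w).1 hw,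
      mulVec_smul]
  have : Nontrivial E := ⟨⟨⟨v, (memE v).2 hT⟩, 0, fun h => hv (congrArg Subtype.val h)⟩⟩
  set g : Module.End ℂ E := C.H.mulVecLin.restrict hinv with hg
  obtain ⟨μ, hμ, hmax⟩ := (Module.End.finite_hasEigenvalue g).toFinset.exists_max_image
    Complex.re (by
      obtain ⟨μ, hμ⟩ := Module.End.exists_eigenvalue g
      exact ⟨μ, (Set.Finite.mem_toFinset _).2 hμ⟩)
  rw [Set.Finite.mem_toFinset] at hμ
  obtain ⟨⟨w, hwE⟩, hw⟩ := hμ.exists_hasEigenvector
  have hw0 : w ≠ 0 := fun h => hw.2 (Subtype.ext h)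
  have hHw : C.H *ᵥ w = μ • w := by
    have := congrArg Subtype.val hw.apply_eq_smul
    simpa [hg] using this
  have hkill : ∀ s c : Fin k, s < c → C.L s c *ᵥ w = 0 := by
    intro s c hsc
    by_contra hne
    have hmem : C.L s c *ᵥ w ∈ E := by
      rw [memE, mulVec_mulVec, C.T_comm_L, ← mulVec_mulVec, (memE w).1 hwE, mulVec_smul]
    set ν : ℂ := μ + 2 * (((c : ℕ) : ℂ) - ((s : ℕ) : ℂ))
    have heig : C.H *ᵥ (C.L s c *ᵥ w) = ν • (C.L s c *ᵥ w) := by
      rw [mulVec_mulVec, C.H_comm, add_mulVec, ← mulVec_mulVec, hHw, mulVec_smul, smul_mulVec,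
        ← add_smul]
    have hν : Module.End.HasEigenvalue g ν :=
      Module.End.hasEigenvalue_of_hasEigenvector (x := ⟨_, hmem⟩)
        ⟨Module.End.mem_eigenspace_iff.2 (Subtype.ext (by simpa [hg] using heig)),
          fun h => hne (congrArg Subtype.val h)⟩
    have h1 := hmax ν ((Set.Finite.mem_toFinset _).2 hν)
    have h2 : ((s : ℕ) : ℝ) < (c : ℕ) := by exact_mod_cast hsc
    simp [ν] at h1
    linarith
  obtain ⟨a, ha⟩ : ∃ a, (fun y => w (a, y)) ≠ 0 := by
    by_contra h
    push Not at h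
    exact hw0 (funext fun p => congrFun (h p.1) p.2)
  obtain ⟨s, hs, hmin⟩ := (univ.filter fun a => (fun y => w (a, y)) ≠ 0).exists_min_image id
    ⟨a, by simpa using ha⟩
  have hs' : (fun y => w (s, y)) ≠ 0 := (Finset.mem_filter.1 hs).2
  set φ : Fin C.dim → ℂ := fun y => w (s, y) with hφ
  set N : ℕ := (univ.filter fun c => s < c).card with hN
  have hrow : (lam : ℂ) • φ = C.J s s *ᵥ φ + ((2 * N : ℕ) : ℂ) • φ := by
    funext x
    have h0 := congrFun ((memE w).1 hwE) (s, x)
    rw [hTdef, C.M_mul_M, blk_mulVec, Pi.smul_apply] at h0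
    simp only [Pi.smul_apply, hφ]
    rw [← h0, Pi.add_apply, ← Finset.add_sum_erase _ _ (mem_univ s)]
    congr 1
    have hz : ∀ c ∈ univ.erase s, (C.J s c *ᵥ fun y => w (c, y)) x
        = if s < c then (2 : ℂ) * φ x else 0 := fun c hc => by
      rcases lt_or_gt_of_ne (Finset.mem_erase.1 hc).1 with h | h
      · rw [if_neg h.asymm]
        have : (fun y => w (c, y)) = 0 := by
          by_contra hne
          exact (not_le.2 h) (hmin c (by simpa using hne))
        simp [this]
      · rw [if_pos h]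
        have h1 := congrFun (hkill s c h) (c, x)
        rw [L, blk_mulVec] at h1
        simp only [sub_mulVec, Pi.sub_apply, Finset.sum_sub_distrib, Pi.zero_apply] at h1
        rw [Finset.sum_eq_single c (fun z _ hz => by simp [Ne.symm hz]) (by simp),
          Finset.sum_eq_single s (fun z _ hz => by simp [hz]) (by simp), sub_eq_zero] at h1
        simpa [smul_mulVec, φ] using h1
    rw [Finset.sum_congr rfl hz, Finset.sum_ite, Finset.sum_const_zero, add_zero, Finset.sum_const,
      nsmul_eq_mul]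
    have : (univ.erase s).filter (fun c => s < c) = univ.filter (fun c => s < c) := by
      ext c; simp; exact fun h => h.ne'
    rw [this, hN]
    simp only [Pi.smul_apply, smul_eq_mul]
    push_cast
    ring
  have hq := congrArg (fun z => (star φ ⬝ᵥ z).re) hrow
  simp only [dotProduct_smul, dotProduct_add, Complex.add_re, dot_self, smul_eq_mul] at hq
  have hJ := (Complex.le_def.1 ((C.J_le s).dotProduct_mulVec_nonneg φ)).1
  simp only [sub_mulVec, smul_mulVec, one_mulVec, dotProduct_sub, dotProduct_smul, dot_self,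
    smul_eq_mul, Complex.sub_re, Complex.zero_re] at hJ
  have hpos : 0 < vsq φ := by
    obtain ⟨y, hy⟩ := Function.ne_iff.1 hs'
    exact Finset.sum_pos' (fun _ _ => Complex.normSq_nonneg _)
      ⟨y, mem_univ y, Complex.normSq_pos.2 hy⟩
  have hNk : (N : ℝ) ≤ k := by
    have := Finset.card_filter_le (univ : Finset (Fin k)) fun c => s < c
    rw [Finset.card_univ, Fintype.card_fin] at this
    exact_mod_cast this
  simp at hq hJ
  nlinarith

theorem M_herm : C.M.IsHermitian := by
  ext ⟨a, x⟩ ⟨b, y⟩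
  simp only [conjTranspose_apply, M, blk, Matrix.of_apply]
  rw [← C.adj b a, conjTranspose_apply]

theorem M_ob (j : ℕ) (hk : k = j ^ 2) (hj : 0 < j) : OB C.M (2 * j) := by
  have hT : ((((2 * j) ^ 2 : ℝ) : ℂ) • 1 - C.M * C.M).PosSemidef := by
    have hh : (C.M * C.M).IsHermitian := by
      rw [IsHermitian, conjTranspose_mul, C.M_herm.eq]
    set U : Matrix (Fin k × Fin C.dim) (Fin k × Fin C.dim) ℂ :=
      (hh.eigenvectorUnitary : Matrix (Fin k × Fin C.dim) (Fin k × Fin C.dim) ℂ) with hU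
    have hU' : U * Uᴴ = 1 := by
      rw [← star_eq_conjTranspose]; exact Unitary.coe_mul_star_self _
    have hs : C.M * C.M = U * diagonal (fun i => (hh.eigenvalues i : ℂ)) * Uᴴ := by
      have := hh.spectral_theorem
      rw [Unitary.conjStarAlgAut_apply, star_eq_conjTranspose] at this
      exact this
    have := (PosSemidef.diagonal (d := fun i => ((((2 * j) ^ 2 : ℝ) : ℂ) - (hh.eigenvalues i : ℂ)))
      fun i => ?_).mul_mul_conjTranspose_same U
    · convert this using 1
      rw [← diagonal_sub, ← smul_one_eq_diagonal, Matrix.mul_sub, Matrix.sub_mul, ← hs,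
        Matrix.mul_smul, Matrix.mul_one, Matrix.smul_mul, hU']
    · have h0 : hh.eigenvalues i ≤ 4 * (k : ℝ) :=
        C.eigen_le (v := ⇑(hh.eigenvectorBasis i)) (fun h => hh.eigenvectorBasis.toBasis.ne_zero i
          (by ext x; exact congrFun h x)) (hh.mulVec_eigenvectorBasis i)
      have : hh.eigenvalues i ≤ (2 * j : ℝ) ^ 2 := by
        have hk' : (k : ℝ) = (j : ℝ) ^ 2 := by exact_mod_cast hk
        rw [hk'] at h0; linarith
      rw [Pi.zero_apply, sub_nonneg]
      exact Complex.real_le_real.2 this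
  have hj' : (0 : ℂ) ≤ (((4 * j : ℝ)⁻¹ : ℝ) : ℂ) := by exact_mod_cast (by positivity : (0 : ℝ) ≤ _)
  have key : ∀ S : Matrix (Fin k × Fin C.dim) (Fin k × Fin C.dim) ℂ, S.IsHermitian →
      ((((2 * j) ^ 2 : ℝ) : ℂ) • 1 - S * S).PosSemidef →
      ((((2 * j : ℝ)) : ℂ) • 1 - S).PosSemidef := fun S hS h => by
    set A := (((2 * j : ℝ)) : ℂ) • (1 : Matrix (Fin k × Fin C.dim) (Fin k × Fin C.dim) ℂ) - S with hA
    have hAh : A.IsHermitian := (isHermitian_real_smul_one _).sub hS
    have h1 := ((posSemidef_conjTranspose_mul_self A).add h).smul hj'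
    convert h1 using 1
    rw [hAh.eq, hA]
    simp only [Matrix.mul_sub, Matrix.sub_mul, Matrix.smul_mul, Matrix.mul_smul, Matrix.one_mul,
      Matrix.mul_one, smul_sub, smul_add, smul_smul]
    match_scalars <;> (push_cast; field_simp; ring)
  refine ⟨key _ C.M_herm hT, ?_⟩
  simpa using key (-C.M) C.M_herm.neg (by simpa using hT)

theorem M_pt : partialTranspose C.M = C.M := by
  ext ⟨a, x⟩ ⟨b, y⟩
  simp only [partialTranspose, M, blk, Matrix.of_apply]
  exact congrFun (congrFun (C.symm a b) x) y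

theorem trace_M : C.M.trace = 0 := by
  simp only [Matrix.trace, Matrix.diag, M, blk, Matrix.of_apply, Fintype.sum_prod_type]
  exact Finset.sum_eq_zero fun a _ => C.tr a a

theorem trace_M_sq : (C.M * C.M).trace = (k : ℂ) ^ 2 * C.dim := by
  rw [M_mul_M]
  have h : ∀ a b, (C.f a b * C.f b a).trace = (C.dim : ℂ) := fun a b => by
    have := congrArg Matrix.trace (C.car a b b a)
    rw [if_pos ⟨rfl, rfl⟩, trace_add, trace_mul_comm (C.f b a), trace_smul, trace_one,
      Fintype.card_fin, smul_eq_mul] at this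
    linear_combination this / 2
  simp only [Matrix.trace, Matrix.diag, blk, Matrix.of_apply, Fintype.sum_prod_type]
  rw [Finset.sum_congr rfl fun a _ => show (∑ x, C.J a a x x) = (k : ℂ) * C.dim from ?_]
  · simp; ring
  · change (C.J a a).trace = _
    simp [J, trace_sum, h]

theorem product_le {α : Matrix (Fin k) (Fin k) ℂ} {β : Matrix (Fin C.dim) (Fin C.dim) ℂ}
    (hα : IsState α) (hβ : IsState β) : ((α ⊗ₖ β) * C.M).trace.re ≤ 1 := by
  set O : Matrix (Fin C.dim) (Fin C.dim) ℂ := ∑ a, ∑ b, α a b • C.f b a with hO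
  have hOh : O.IsHermitian := by
    simp only [IsHermitian, hO, conjTranspose_sum, conjTranspose_smul, C.adj]
    rw [Finset.sum_comm]
    simp [hα.1.1.apply]
  have h2 : O * O + O * O = (2 : ℂ) • ((α * α).trace • 1) := by
    have hp : O = ∑ p : Fin k × Fin k, α p.1 p.2 • C.f p.2 p.1 := by
      rw [hO, Fintype.sum_prod_type]
    have h1 : O * O = ∑ p : Fin k × Fin k, ∑ q : Fin k × Fin k,
        (α p.1 p.2 * α q.1 q.2) • (C.f p.2 p.1 * C.f q.2 q.1) := by
      rw [hp, Finset.sum_mul]
      simp only [Finset.mul_sum, smul_mul_smul_comm]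
    nth_rw 2 [h1]
    rw [h1, Finset.sum_comm (f := fun (p q : Fin k × Fin k) =>
      (α p.1 p.2 * α q.1 q.2) • (C.f p.2 p.1 * C.f q.2 q.1))]
    nth_rw 2 [Finset.sum_comm]
    simp only [← Finset.sum_add_distrib]
    rw [Finset.sum_congr rfl fun p _ => Finset.sum_congr rfl fun q _ => show
      (α q.1 q.2 * α p.1 p.2) • (C.f q.2 q.1 * C.f p.2 p.1)
        + (α p.1 p.2 * α q.1 q.2) • (C.f p.2 p.1 * C.f q.2 q.1)
      = if q = (p.2, p.1) then (α p.1 p.2 * α q.1 q.2) • ((2 : ℂ) • 1) else 0 by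
        rw [mul_comm (α q.1 q.2), ← smul_add, C.car]
        by_cases hq : q = (p.2, p.1)
        · rw [if_pos hq, hq]; simp
        · rw [if_neg hq, if_neg, smul_zero]
          exact fun h => hq (Prod.ext h.2 h.1)]
    simp only [Finset.sum_ite_eq', mem_univ, if_true, Fintype.sum_prod_type, Matrix.trace,
      Matrix.diag, Matrix.mul_apply, Finset.sum_smul, Finset.smul_sum, smul_smul]
    exact Finset.sum_congr rfl fun _ _ => Finset.sum_congr rfl fun _ _ => by rw [mul_comm]
  have he : ((α ⊗ₖ β) * C.M).trace = (β * O).trace := by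
    simp only [hO, Finset.mul_sum, smul_eq_mul,
      Matrix.trace, Matrix.diag, Matrix.mul_apply, kroneckerMap_apply, M, blk, Matrix.of_apply,
      Fintype.sum_prod_type, Matrix.sum_apply, Matrix.smul_apply]
    rw [Finset.sum_comm]
    refine Finset.sum_congr rfl fun x _ => ?_
    conv_rhs => rw [Finset.sum_comm]
    refine Finset.sum_congr rfl fun a _ => ?_
    rw [Finset.sum_comm]
    exact Finset.sum_congr rfl fun _ _ => Finset.sum_congr rfl fun _ _ => by ring
  obtain ⟨R, hR⟩ := exists_factor hα.1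
  have hpur : (α * α).trace.re ≤ 1 := by
    have h1 : fsq R = 1 := by
      have := trace_mul_conjTranspose_self R
      rw [← hR, hα.2] at this
      exact_mod_cast this.symm
    have e : (α * α).trace = (fsq (Rᴴ * R) : ℂ) := by
      rw [← trace_mul_conjTranspose_self, conjTranspose_mul, conjTranspose_conjTranspose, hR,
        show R * Rᴴ * (R * Rᴴ) = R * (Rᴴ * R * Rᴴ) by simp only [Matrix.mul_assoc], trace_mul_comm]
      simp only [Matrix.mul_assoc]
    rw [e, Complex.ofReal_re]
    calc fsq (Rᴴ * R) ≤ ∑ j, ∑ i, vsq (fun x => R x i) * vsq (fun x => R x j) :=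
          Finset.sum_le_sum fun j _ => Finset.sum_le_sum fun i _ => by
            have h := pow_le_pow_left₀ (norm_nonneg _)
              (norm_dot_le (fun x => R x i) fun x => R x j) 2
            rw [mul_pow, sq_vn, sq_vn, Complex.sq_norm] at h
            exact h
      _ = fsq R * fsq R := by
          rw [Finset.sum_comm, fsq, Finset.sum_mul]
          simp only [Finset.mul_sum]
      _ = 1 := by rw [h1, mul_one]
  rw [he]
  obtain ⟨S, hS⟩ := exists_factor hβ.1
  have hq := fsq_nonneg ((1 - O) * S)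
  have hq' : ((((1 - O) * S) * ((1 - O) * S)ᴴ).trace).re = fsq ((1 - O) * S) := by
    rw [trace_mul_conjTranspose_self, Complex.ofReal_re]
  have e2 : O * O = (α * α).trace • 1 := by
    rw [← two_smul ℂ (O * O)] at h2
    exact smul_right_injective _ two_ne_zero h2
  have e3 : (((1 - O) * S) * ((1 - O) * S)ᴴ).trace
      = β.trace + (α * α).trace * β.trace - 2 * (β * O).trace := by
    rw [conjTranspose_mul, conjTranspose_sub, conjTranspose_one, hOh.eq,
      show (1 - O) * S * (Sᴴ * (1 - O)) = (1 - O) * (S * Sᴴ) * (1 - O) by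
        simp only [Matrix.mul_assoc], ← hS, trace_mul_cycle]
    rw [show (1 - O) * (1 - O) = 1 - (2 : ℂ) • O + O * O by rw [two_smul]; noncomm_ring, e2,
      Matrix.add_mul, Matrix.sub_mul, Matrix.one_mul, Matrix.smul_mul, Matrix.smul_mul,
      Matrix.one_mul, trace_add, trace_sub, trace_smul, trace_smul, trace_mul_comm O β]
    simp only [smul_eq_mul]
    ring
  rw [e3, hβ.2] at hq'
  simp at hq'
  linarith

end Car

/-- PPT entangled states arbitrarily close to the maximally mixed state in operator norm. -/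
theorem exists_near_id {δ : ℝ} (hδ : 0 < δ) :
    ∃ (dA dB : ℕ) (ρ K : Matrix (Fin dA × Fin dB) (Fin dA × Fin dB) ℂ) (c : ℝ),
      0 < dA ∧ 0 < dB ∧ 0 < c ∧ (c : ℂ) • ρ = 1 + K ∧ OB K δ ∧ IsState ρ ∧
      (partialTranspose ρ).PosSemidef ∧ ¬IsSeparable ρ := by
  obtain ⟨j, hj1, hj⟩ : ∃ j : ℕ, 4 / δ ≤ j ∧ 4 ≤ j := by
    refine ⟨max ⌈4 / δ⌉₊ 4, ?_, le_max_right _ _⟩
    exact (Nat.le_ceil _).trans (by exact_mod_cast le_max_left _ _)
  obtain ⟨C⟩ := exists_car (j ^ 2)
  set c : ℝ := (j ^ 2 : ℕ) * C.dim with hc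
  have hj0 : (0 : ℝ) < j := by exact_mod_cast (by omega : 0 < j)
  have hc0 : 0 < c := mul_pos (by exact_mod_cast pow_pos (by omega : 0 < j) 2)
    (by exact_mod_cast C.pos)
  set ε : ℝ := 2 / (j ^ 2 : ℕ) with hε
  set K := (ε : ℂ) • C.M with hK
  have hKob : OB K (|ε| * (2 * j)) := ob_smul (C.M_ob j rfl (by omega)) ε
  have hεv : |ε| * (2 * j) = 4 / (j : ℝ) := by
    rw [abs_of_nonneg (by positivity), hε]; push_cast; field_simp; ring
  rw [hεv] at hKob
  have h1 : (4 : ℝ) / j ≤ 1 := by rw [div_le_one hj0]; exact_mod_cast hj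
  set ρ := ((c⁻¹ : ℝ) : ℂ) • (1 + K) with hρ
  have hpsd : ρ.PosSemidef := by
    refine PosSemidef.smul ?_ (by exact_mod_cast (inv_pos.2 hc0).le)
    simpa using (ob_mono hKob h1).2
  have hcC : (c : ℂ) ≠ 0 := by exact_mod_cast hc0.ne'
  refine ⟨j ^ 2, C.dim, ρ, K, c, pow_pos (by omega) 2, C.pos, hc0, ?_, ob_mono hKob ?_, ⟨hpsd, ?_⟩,
    ?_, ?_⟩
  · rw [hρ, smul_smul, Complex.ofReal_inv, mul_inv_cancel₀ hcC, one_smul]
  · rw [div_le_iff₀ hj0]
    rw [div_le_iff₀ hδ] at hj1
    linarith
  · rw [hρ, trace_smul, trace_add, hK, trace_smul, C.trace_M, trace_one, Fintype.card_prod,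
      Fintype.card_fin, Fintype.card_fin, smul_zero, add_zero, smul_eq_mul, Complex.ofReal_inv, hc]
    push_cast
    rw [inv_mul_cancel₀]
    simpa [hc] using hcC
  · have : partialTranspose ρ = ρ := by
      ext p q
      have h := congrFun (congrFun C.M_pt p) q
      simp only [partialTranspose, Matrix.of_apply] at h
      simp only [partialTranspose, hρ, hK, Matrix.of_apply, Matrix.smul_apply, Matrix.add_apply, h,
        Matrix.one_apply]
      congr 2
      obtain ⟨a, x⟩ := p
      obtain ⟨b, y⟩ := q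
      simp [Prod.mk.injEq, eq_comm]
    rwa [this]
  · rintro ⟨N, p, α, β, hp, hp1, hα, hβ, he⟩
    have hle : (ρ * C.M).trace.re ≤ 1 := by
      rw [he, Finset.sum_mul, trace_sum, Complex.re_sum, ← hp1]
      refine Finset.sum_le_sum fun i _ => ?_
      rw [Matrix.smul_mul, trace_smul, smul_eq_mul, Complex.re_ofReal_mul]
      exact mul_le_of_le_one_right (hp i) (C.product_le (hα i) (hβ i))
    have hv : (ρ * C.M).trace = ((c⁻¹ * (ε * ((j ^ 2 : ℕ) ^ 2 * C.dim)) : ℝ) : ℂ) := by
      rw [hρ, Matrix.smul_mul, Matrix.add_mul, Matrix.one_mul, hK, Matrix.smul_mul, trace_smul,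
        trace_add, trace_smul, C.trace_M, C.trace_M_sq, zero_add]
      push_cast
      rfl
    rw [hv, Complex.ofReal_re] at hle
    have : c⁻¹ * (ε * ((j ^ 2 : ℕ) ^ 2 * C.dim)) = 2 := by
      have := C.pos
      rw [hc, hε]; push_cast; field_simp
    linarith

end Vale.Agent.P372
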