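import Mathlib
import Vale.Agent.P372.Exact2
import Vale.Agent.P372.NearId
import Vale.Agent.P372.OneSidedDefs

/-!
No key bit when one party is restricted on every block and the state is close to the identity.
-/

noncomputable section

open Matrix Finset
open scoped ComplexOrder Kronecker MatrixOrder

namespace Vale.Agent.P372

section
variable {A B : Type} [Fintype A] [DecidableEq A] [Fintype B] [DecidableEq B]

omit [DecidableEq A] [DecidableEq B] in
theorem splits_swap {σ : Matrix (A × B) (A × B) ℂ} {SA : Set (Matrix A A ℂ)}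
    {SB : Set (Matrix B B ℂ)} (h : Splits (σ.submatrix Prod.swap Prod.swap) SB SA) :
    Splits σ SA SB := by
  obtain ⟨J, ω, a, b, hω, hσ, hf⟩ := h
  refine ⟨J, fun j => (ω j).submatrix Prod.swap Prod.swap, b, a, fun j => (hω j).submatrix _, ?_,
    fun j X hX Y hY => ?_⟩
  · ext p q
    have := congrFun (congrFun hσ p.swap) q.swap
    simpa [Matrix.sum_apply] using this
  · rw [mul_comm, ← hf j Y hY X hX]
    simp only [Matrix.trace, Matrix.diag, Matrix.mul_apply, Matrix.submatrix_apply]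
    rw [← (Equiv.prodComm B A).sum_comp]
    refine Finset.sum_congr rfl fun p _ => ?_
    rw [← (Equiv.prodComm B A).sum_comp]
    exact Finset.sum_congr rfl fun q _ => by simp [kroneckerMap_apply, mul_comm]

theorem splits_simple [Nonempty A] {K : Matrix (A × B) (A × B) ℂ} {δ : ℝ} {m : ℕ} (hK : OB K δ)
    (hδ : δ ≤ gap m) {S : Set (Matrix A A ℂ)} (hS : IsSimple m S) :
    Splits (1 + K) S Set.univ := by
  obtain ⟨U, W, hU, hS⟩ := hS
  have hU' : U * Uᴴ = 1 := mul_eq_one_comm.1 hU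
  set V : Matrix (A × B) (A × B) ℂ := U ⊗ₖ 1 with hV
  have hV1 : Vᴴ * V = 1 := by
    rw [hV, conjTranspose_kronecker, ← mul_kronecker_mul, hU, conjTranspose_one, Matrix.one_mul,
      one_kronecker_one]
  have hV2 : V * Vᴴ = 1 := mul_eq_one_comm.1 hV1
  have hK' : OB (Vᴴ * K * V) δ := by simpa using ob_conj (c := 1) hK (V := V) (by simp [hV1])
  obtain ⟨J, ω, a, b, hω, hσ, hf⟩ := splits_basis hK' hδ fun j => Uᴴ * W j * U
  refine ⟨J, fun j => V * ω j * Vᴴ, fun j => U * a j * Uᴴ, b,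
    fun j => (hω j).mul_mul_conjTranspose_same V, ?_, fun j X hX Y hY => ?_⟩
  · rw [← Finset.sum_mul, ← Finset.mul_sum, ← hσ, Matrix.mul_add, Matrix.add_mul, Matrix.mul_one,
      hV2, show V * (Vᴴ * K * V) * Vᴴ = (V * Vᴴ) * K * (V * Vᴴ) by simp only [Matrix.mul_assoc],
      hV2, Matrix.one_mul, Matrix.mul_one]
  · obtain ⟨d, c, rfl⟩ := hS X hX
    set X := U * diagonal d * Uᴴ + ∑ j, c j • W j with hXdef
    have hX' : Uᴴ * X * U = diagonal d + ∑ j, c j • (Uᴴ * W j * U) := by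
      rw [hXdef, Matrix.mul_add, Matrix.add_mul, show Uᴴ * (U * diagonal d * Uᴴ) * U
        = (Uᴴ * U) * diagonal d * (Uᴴ * U) by simp only [Matrix.mul_assoc], hU, Matrix.one_mul,
        Matrix.mul_one, Finset.mul_sum, Finset.sum_mul]
      simp only [Matrix.mul_smul, Matrix.smul_mul]
    have e : (V * ω j * Vᴴ * (X ⊗ₖ Y)).trace = (ω j * ((Uᴴ * X * U) ⊗ₖ Y)).trace := by
      rw [show V * ω j * Vᴴ * (X ⊗ₖ Y) = V * (ω j * (Vᴴ * (X ⊗ₖ Y))) by
        simp only [Matrix.mul_assoc], trace_mul_comm, Matrix.mul_assoc]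
      simp [hV, conjTranspose_kronecker, ← mul_kronecker_mul]
    rw [e, hf j _ ⟨d, c, hX'⟩ Y (Set.mem_univ Y),
      show U * a j * Uᴴ * X = U * (a j * (Uᴴ * X)) by simp only [Matrix.mul_assoc],
      trace_mul_comm U, Matrix.mul_assoc]
    simp only [Matrix.mul_assoc]

omit [DecidableEq A] [DecidableEq B] in
theorem splits_smul {σ : Matrix (A × B) (A × B) ℂ} {SA : Set (Matrix A A ℂ)}
    {SB : Set (Matrix B B ℂ)} (h : Splits σ SA SB) {r : ℂ} (hr : 0 ≤ r) :
    Splits (r • σ) SA SB := by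
  obtain ⟨J, ω, a, b, hω, rfl, hf⟩ := h
  refine ⟨J, fun j => r • ω j, fun j => r • a j, b, fun j => (hω j).smul hr, Finset.smul_sum,
    fun j X hX Y hY => ?_⟩
  rw [Matrix.smul_mul, Matrix.smul_mul, trace_smul, trace_smul, hf j X hX Y hY, smul_eq_mul,
    smul_eq_mul, mul_assoc]

theorem splits_either [Nonempty A] [Nonempty B] {σ K : Matrix (A × B) (A × B) ℂ} {c δ : ℝ}
    {m : ℕ} (hc : 0 < c) (hσ : (c : ℂ) • σ = 1 + K) (hK : OB K δ) (hδ : δ ≤ gap m)
    {SA : Set (Matrix A A ℂ)} {SB : Set (Matrix B B ℂ)} (hS : IsSimple m SA ∨ IsSimple m SB) :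
    Splits σ SA SB := by
  have key : Splits (1 + K) SA SB := by
    rcases hS with h | h
    · obtain ⟨J, ω, a, b, hω, hs, hf⟩ := splits_simple hK hδ h
      exact ⟨J, ω, a, b, hω, hs, fun j X hX Y _ => hf j X hX Y (Set.mem_univ Y)⟩
    · refine splits_swap ?_
      have e : (1 + K).submatrix (Prod.swap : B × A → A × B) Prod.swap
          = 1 + K.submatrix Prod.swap Prod.swap := by
        ext ⟨i, i'⟩ ⟨j, j'⟩
        simp [Matrix.one_apply, and_comm]
      have hK' : OB (K.submatrix (Prod.swap : B × A → A × B) Prod.swap) δ := by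
        have e1 : ∀ r : ℂ, ((r • (1 : Matrix (A × B) (A × B) ℂ))).submatrix
            (Prod.swap : B × A → A × B) Prod.swap = r • 1 := fun r => by
          ext ⟨i, i'⟩ ⟨j, j'⟩
          simp [Matrix.one_apply, and_comm]
        have h1 := hK.1.submatrix (Prod.swap : B × A → A × B)
        have h2 := hK.2.submatrix (Prod.swap : B × A → A × B)
        rw [Matrix.submatrix_sub, Pi.sub_apply, Pi.sub_apply, e1] at h1
        rw [Matrix.submatrix_add, Pi.add_apply, Pi.add_apply, e1] at h2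
        exact ⟨h1, h2⟩
      rw [e]
      obtain ⟨J, ω, a, b, hω, hs, hf⟩ := splits_simple hK' hδ h
      exact ⟨J, ω, a, b, hω, hs, fun j X hX Y _ => hf j X hX Y (Set.mem_univ Y)⟩
  have hcC : (c : ℂ) ≠ 0 := by exact_mod_cast hc.ne'
  have := splits_smul key (r := ((c⁻¹ : ℝ) : ℂ)) (by exact_mod_cast (inv_pos.2 hc).le)
  rwa [← hσ, smul_smul, Complex.ofReal_inv, inv_mul_cancel₀ hcC, one_smul] at this

end

section
variable {I E : Type} [Fintype I] [DecidableEq I] [Fintype E] [DecidableEq E]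

theorem piMat_mono {Y Z : I → Matrix E E ℂ} (hY : ∀ i, (Y i).PosSemidef)
    (hZ : ∀ i, (Z i - Y i).PosSemidef) : (piMat Z - piMat Y).PosSemidef := by
  set X : ∀ _ : I, Bool → Matrix E E ℂ := fun i f => if f then Z i - Y i else Y i with hX
  have h : piMat Z = ∑ f : I → Bool, piMat fun i => X i (f i) := by
    rw [← piMat_sum]
    congr 1
    funext i
    simp [hX]
  rw [h, ← Finset.add_sum_erase _ _ (mem_univ fun _ => false),
    show (piMat fun i => X i false) = piMat Y by simp [hX], add_sub_cancel_left]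
  exact posSemidef_sum _ fun f _ => piMat_posSemidef fun i => by
    simp only [hX]; split_ifs <;> simp [hY, hZ]

end

theorem block_bound {dA dB : ℕ} {ρ K : Matrix (Fin dA × Fin dB) (Fin dA × Fin dB) ℂ} {c δ : ℝ}
    (hρ : (c : ℂ) • ρ = 1 + K) (hK : OB K δ) (hδ0 : 0 ≤ δ) (hδ : δ ≤ 1) (b : ℕ) :
    ∃ Kb, ((c ^ b : ℝ) : ℂ) • copiesState ρ b = 1 + Kb ∧ OB Kb (2 ^ b * δ) := by
  set ι := (Fin b → Fin dA) × (Fin b → Fin dB)
  set g : ι → Fin b → Fin dA × Fin dB := fun i t => (i.1 t, i.2 t) with hg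
  have hgi : Function.Injective g := fun i j h =>
    Prod.ext (funext fun t => congrArg Prod.fst (congrFun h t))
      (funext fun t => congrArg Prod.snd (congrFun h t))
  have hscal : ∀ r : ℝ, (piMat fun _ : Fin b =>
      (r : ℂ) • (1 : Matrix (Fin dA × Fin dB) (Fin dA × Fin dB) ℂ)).submatrix g g
      = ((r ^ b : ℝ) : ℂ) • 1 := fun r => by
    rw [piMat_smul, piMat_one, Finset.prod_const, Finset.card_univ, Fintype.card_fin,
      Complex.ofReal_pow]
    ext i j
    simp [Matrix.one_apply, hgi.eq_iff]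
  refine ⟨((c ^ b : ℝ) : ℂ) • copiesState ρ b - 1, by abel, ?_⟩
  have hcopy : ((c ^ b : ℝ) : ℂ) • copiesState ρ b
      = (piMat fun _ : Fin b => 1 + K).submatrix g g := by
    rw [← hρ, piMat_smul, Finset.prod_const, Finset.card_univ, Fintype.card_fin,
      Complex.ofReal_pow]
    rfl
  rw [hcopy]
  have hlo : ((1 + K) - ((1 - δ : ℝ) : ℂ) • 1).PosSemidef := by
    convert hK.2 using 1; push_cast; module
  have h1 : (0 : ℝ) ≤ 1 - δ := by linarith
  have hlo' := (piMat_mono (I := Fin b) (Y := fun _ => ((1 - δ : ℝ) : ℂ) • 1)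
    (Z := fun _ => 1 + K) (fun _ => PosSemidef.one.smul (by exact_mod_cast h1))
    fun _ => hlo).submatrix g
  have hpsd : (1 + K).PosSemidef := by
    have := hlo.add (PosSemidef.one.smul (show (0 : ℂ) ≤ ((1 - δ : ℝ) : ℂ) by exact_mod_cast h1))
    simpa using this
  have hhi' := (piMat_mono (I := Fin b) (Y := fun _ => 1 + K)
    (Z := fun _ => ((1 + δ : ℝ) : ℂ) • 1) (fun _ => hpsd)
    fun _ => by convert hK.1 using 1; push_cast; module).submatrix g
  rw [Matrix.submatrix_sub, Pi.sub_apply, Pi.sub_apply, hscal] at hlo' hhi'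
  have hup : (1 + δ) ^ b ≤ 1 + 2 ^ b * δ := by
    suffices h : (1 + δ) ^ b ≤ 1 + ((2 : ℝ) ^ b - 1) * δ by nlinarith
    clear hlo' hhi' hcopy hscal hgi hg g ι
    induction b with
    | zero => simp
    | succ b ih =>
      have h2 : (1 : ℝ) ≤ 2 ^ b := one_le_pow₀ (by norm_num)
      calc (1 + δ) ^ (b + 1) ≤ (1 + ((2 : ℝ) ^ b - 1) * δ) * (1 + δ) := by
            rw [pow_succ]; exact mul_le_mul_of_nonneg_right ih (by linarith)
        _ ≤ 1 + ((2 : ℝ) ^ (b + 1) - 1) * δ := by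
            rw [pow_succ]
            nlinarith [mul_le_mul_of_nonneg_left hδ (mul_nonneg (sub_nonneg.2 h2) hδ0)]
  have hdn : 1 - 2 ^ b * δ ≤ (1 - δ) ^ b := by
    have := one_add_mul_le_pow (a := -δ) (by linarith) b
    have h2 : (b : ℝ) ≤ 2 ^ b := by exact_mod_cast Nat.lt_two_pow_self.le
    rw [← sub_eq_add_neg] at this
    nlinarith [mul_le_mul_of_nonneg_right h2 hδ0]
  have hup' : (0 : ℂ) ≤ ((1 + 2 ^ b * δ - (1 + δ) ^ b : ℝ) : ℂ) := by
    exact_mod_cast sub_nonneg.2 hup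
  have hdn' : (0 : ℂ) ≤ (((1 - δ) ^ b - (1 - 2 ^ b * δ) : ℝ) : ℂ) := by
    exact_mod_cast sub_nonneg.2 hdn
  constructor
  · convert hhi'.add (PosSemidef.one.smul hup') using 1; push_cast; module
  · convert hlo'.add (PosSemidef.one.smul hdn') using 1; push_cast; module

section
variable {A B R : Type} [Fintype A] [DecidableEq A] [Fintype B] [DecidableEq B] [Fintype R]
  [DecidableEq R]

/-- Eve can measure so that every outcome leaves a product on the restricted operators. -/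
theorem exists_eve {G : Matrix (A × B) R ℂ} {SA : Set (Matrix A A ℂ)} {SB : Set (Matrix B B ℂ)}
    (hpos : (G * Gᴴ).PosDef) (hs : Splits (G * Gᴴ) SA SB) :
    ∃ (J : ℕ) (E : Fin J → Matrix R R ℂ) (a : Fin J → Matrix A A ℂ) (b : Fin J → Matrix B B ℂ),
      (∀ j, (E j).PosSemidef) ∧ ∑ j, E j = 1 ∧
      ∀ j, ∀ X ∈ SA, ∀ Y ∈ SB, (E j * op G X Y).trace = (a j * X).trace * (b j * Y).trace := by
  obtain ⟨J, ω, a, b, hω, hσ, hf⟩ := hs
  set σ := G * Gᴴ with hσdef
  set S := σ⁻¹ * G with hS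
  have hu : IsUnit σ.det := (Matrix.isUnit_iff_isUnit_det _).1 hpos.isUnit
  have hGS : G * Sᴴ = 1 := by
    rw [hS, conjTranspose_mul, conjTranspose_nonsing_inv, hpos.1.eq, ← Matrix.mul_assoc,
      Matrix.mul_nonsing_inv _ hu]
  have hSG : S * Gᴴ = 1 := by rw [hS, Matrix.mul_assoc, Matrix.nonsing_inv_mul _ hu]
  set P := Gᴴ * S with hP'
  have hPσ : Sᴴ * σ * S = P := by
    rw [hP', hS, conjTranspose_mul, conjTranspose_nonsing_inv, hpos.1.eq,
      show Gᴴ * σ⁻¹ * σ * (σ⁻¹ * G) = Gᴴ * (σ⁻¹ * σ * (σ⁻¹ * G)) by simp only [Matrix.mul_assoc],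
      Matrix.nonsing_inv_mul _ hu, Matrix.one_mul]
  have hPh : P.IsHermitian := hPσ ▸ isHermitian_conjTranspose_mul_mul _ hpos.1
  have hPP : P * P = P := by
    rw [hP', show Gᴴ * S * (Gᴴ * S) = Gᴴ * (S * Gᴴ) * S by simp only [Matrix.mul_assoc], hSG,
      Matrix.mul_one]
  refine ⟨J + 1, Fin.cons (1 - P) fun j => Sᴴ * ω j * S, Fin.cons 0 a, Fin.cons 0 b,
    fun j => ?_, ?_, fun j X hX Y hY => ?_⟩
  · cases j using Fin.cases with
    | zero =>
      have h : (1 - P)ᴴ * (1 - P) = 1 - P := by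
        rw [conjTranspose_sub, conjTranspose_one, hPh.eq, Matrix.sub_mul, Matrix.mul_sub,
          Matrix.mul_sub, hPP]
        simp
      simp only [Fin.cons_zero]
      rw [← h]
      exact posSemidef_conjTranspose_mul_self _
    | succ j => exact (hω j).conjTranspose_mul_mul_same S
  · rw [Fin.sum_univ_succ]
    simp only [Fin.cons_zero, Fin.cons_succ]
    rw [← Matrix.sum_mul, ← Matrix.mul_sum, ← hσ, hPσ, sub_add_cancel]
  · have e : ∀ Z, (Z * op G X Y).trace = (G * Z * Gᴴ * (X ⊗ₖ Y)).trace := fun Z => by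
      rw [op, ← Matrix.mul_assoc, trace_mul_comm]
      simp only [Matrix.mul_assoc]
    rw [e]
    cases j using Fin.cases with
    | zero =>
      simp only [Fin.cons_zero, trace_zero, zero_mul]
      rw [Matrix.mul_sub, Matrix.sub_mul, Matrix.mul_one, hP',
        show G * (Gᴴ * S) * Gᴴ = G * Gᴴ * (S * Gᴴ) by simp only [Matrix.mul_assoc], hSG,
        Matrix.mul_one, sub_self, Matrix.zero_mul, trace_zero]
    | succ j =>
      simp only [Fin.cons_succ]
      rw [show G * (Sᴴ * ω j * S) * Gᴴ = (G * Sᴴ) * ω j * (S * Gᴴ) by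
        simp only [Matrix.mul_assoc], hGS, hSG, Matrix.one_mul, Matrix.mul_one, hf j X hX Y hY]

omit [Fintype R] [DecidableEq R] in
theorem psd_trace_mul {X Y : Matrix A A ℂ} (hX : X.PosSemidef) (hY : Y.PosSemidef) :
    0 ≤ (X * Y).trace := by
  obtain ⟨R, rfl⟩ := exists_factor hX
  rw [trace_mul_comm, ← Matrix.mul_assoc, trace_mul_comm, ← Matrix.mul_assoc]
  exact (hY.conjTranspose_mul_mul_same R).trace_nonneg

theorem povm_trace_le {J : Type} [Fintype J] {E : J → Matrix A A ℂ} (h : IsPOVM E)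
    (Δ : Matrix A A ℂ) : ∑ j, |(E j * Δ).trace.re| ≤ traceNorm Δ := by
  obtain ⟨L, u, v, hΔ, hc⟩ := bnd_traceNorm Δ
  refine le_trans ?_ hc
  calc ∑ j, |(E j * Δ).trace.re| ≤ ∑ j, ∑ l, ‖star (v l) ⬝ᵥ E j *ᵥ u l‖ :=
        Finset.sum_le_sum fun j _ => by
          refine (Complex.abs_re_le_norm _).trans ?_
          rw [hΔ, Finset.mul_sum, trace_sum]
          refine (norm_sum_le _ _).trans (le_of_eq (Finset.sum_congr rfl fun l _ => ?_))
          rw [mul_vecMulVec, trace_vecMulVec, dotProduct_comm]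
    _ ≤ _ := by
        rw [Finset.sum_comm]
        refine Finset.sum_le_sum fun l _ => ?_
        choose F hF using fun j => exists_factor (h.1 j)
        have hs : ∀ w, ∑ j, vsq ((F j)ᴴ *ᵥ w) = vsq w := fun w => by
          have e : ∀ j, ((vsq ((F j)ᴴ *ᵥ w) : ℝ) : ℂ) = star w ⬝ᵥ E j *ᵥ w := fun j => by
            rw [← dot_self, star_mulVec, conjTranspose_conjTranspose, ← dotProduct_mulVec,
              mulVec_mulVec, ← hF]
          have h0 : ((∑ j, vsq ((F j)ᴴ *ᵥ w) : ℝ) : ℂ) = vsq w := by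
            rw [Complex.ofReal_sum, Finset.sum_congr rfl fun j _ => e j, ← dotProduct_sum,
              ← Matrix.sum_mulVec, h.2, one_mulVec, dot_self]
          exact_mod_cast h0
        calc ∑ j, ‖star (v l) ⬝ᵥ E j *ᵥ u l‖ ≤ ∑ j, vn ((F j)ᴴ *ᵥ v l) * vn ((F j)ᴴ *ᵥ u l) :=
              Finset.sum_le_sum fun j _ => by
                refine le_trans (le_of_eq ?_) (norm_dot_le _ _)
                rw [star_mulVec, conjTranspose_conjTranspose, ← dotProduct_mulVec, mulVec_mulVec,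
                  ← hF]
          _ ≤ vn (u l) * vn (v l) := by
            refine (Real.sum_sqrt_mul_sqrt_le _ (fun j => vsq_nonneg _) fun j =>
              vsq_nonneg _).trans (le_of_eq ?_)
            rw [hs, hs, mul_comm]
            rfl

end

open Classical in
/-- Eve's key error for one transcript whose effects are simple on every block. -/
theorem simple_key {dA dB r b m n : ℕ} [Nonempty (Fin dA)] [Nonempty (Fin dB)]
    {ρb Kb : Matrix ((Fin b → Fin dA) × (Fin b → Fin dB)) ((Fin b → Fin dA) × (Fin b → Fin dB)) ℂ}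
    {Gb : Matrix ((Fin b → Fin dA) × (Fin b → Fin dB)) (Fin b → Fin r) ℂ} {cb δb : ℝ}
    (hcb : 0 < cb) (hρb : (cb : ℂ) • ρb = 1 + Kb) (hKb : OB Kb δb) (hδ : δb ≤ gap m)
    (hGb : Gb * Gbᴴ = ρb) (hpos : (Gb * Gbᴴ).PosDef)
    {MA : ZMod 2 → Matrix (Fin n → Fin b → Fin dA) (Fin n → Fin b → Fin dA) ℂ}
    {MB : ZMod 2 → Matrix (Fin n → Fin b → Fin dB) (Fin n → Fin b → Fin dB) ℂ}
    {σ : Matrix (Fin n → Fin b → Fin r) (Fin n → Fin b → Fin r) ℂ}
    (hMA : ∀ x, (MA x).PosSemidef) (hMB : ∀ y, (MB y).PosSemidef)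
    (hsimple : ∃ (SA : Fin n → Set (Matrix (Fin b → Fin dA) (Fin b → Fin dA) ℂ))
      (SB : Fin n → Set (Matrix (Fin b → Fin dB) (Fin b → Fin dB) ℂ)),
      (∀ t, IsSimple m (SA t) ∨ IsSimple m (SB t)) ∧
      (∀ x, InSpan SA (MA x)) ∧ ∀ y, InSpan SB (MB y)) :
    σ.trace.re / 5 ≤ ∑ x, ∑ y, traceNorm (eveOp (copies Gb n) (MA x) (MB y)
      - if x = y then (2 : ℂ)⁻¹ • σ else 0) := by
  set d : ZMod 2 → ZMod 2 → ℝ := fun x y => traceNorm (eveOp (copies Gb n) (MA x)
    (MB y) - if x = y then (2 : ℂ)⁻¹ • σ else 0) with hd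
  obtain ⟨SA, SB, hS, hSA, hSB⟩ := hsimple
  choose J E a bb hE hE1 hf using fun t =>
    exists_eve hpos (hGb ▸ splits_either hcb hρb hKb hδ (hS t))
  set EE : (∀ t, Fin (J t)) → Matrix (Fin n → Fin b → Fin r) (Fin n → Fin b → Fin r) ℂ :=
    fun f => piMat fun t => E t (f t) with hEE
  have hpovm : IsPOVM EE := by
    refine ⟨fun f => piMat_posSemidef fun t => hE t _, ?_⟩
    rw [hEE, ← piMat_sum]
    simp only [hE1, piMat_one]
  have hpovT : IsPOVM fun f => (EE f)ᵀ := by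
    refine ⟨fun f => (hpovm.1 f).transpose, ?_⟩
    rw [← transpose_sum, hpovm.2, transpose_one]
  have hfac : ∀ f x y, (EE f * op (piG Gb (Fin n)) (MA x) (MB y)).trace
      = (piMat (fun t => a t (f t)) * MA x).trace
        * (piMat (fun t => bb t (f t)) * MB y).trace := by
    intro f x y
    refine Submodule.span_induction (p := fun M _ => (EE f * op (piG Gb (Fin n)) M (MB y)).trace
      = (piMat (fun t => a t (f t)) * M).trace * (piMat (fun t => bb t (f t)) * MB y).trace)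
      ?_ ?_ ?_ ?_ (hSA x)
    · rintro M ⟨X, hX, rfl⟩
      refine Submodule.span_induction (p := fun N _ => (EE f * op (piG Gb (Fin n)) (piMat X) N).trace
        = (piMat (fun t => a t (f t)) * piMat X).trace
          * (piMat (fun t => bb t (f t)) * N).trace) ?_ ?_ ?_ ?_ (hSB y)
      · rintro N ⟨Y, hY, rfl⟩
        change (EE f * op (piG Gb (Fin n)) (piMat X) (piMat Y)).trace
          = (piMat (fun t => a t (f t)) * piMat X).trace
            * (piMat (fun t => bb t (f t)) * piMat Y).trace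
        rw [op_pi, hEE, piMat_mul, piMat_mul, piMat_mul, piMat_trace, piMat_trace, piMat_trace,
          ← Finset.prod_mul_distrib]
        exact Finset.prod_congr rfl fun t _ => hf t (f t) _ (hX t) _ (hY t)
      · simp [op_zero_right]
      · intro N N' _ _ h h'
        simp only [op_add_right, trace_add, h, h', mul_add]
      · intro r' N _ h
        simp only [op_smul_right, Matrix.mul_smul, trace_smul, h, smul_eq_mul]
        ring
    · simp [op_zero_left]
    · intro N N' _ _ h h'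
      simp only [op_add_left, Matrix.mul_add, trace_add, h, h', add_mul]
    · intro r' N _ h
      simp only [op_smul_left, Matrix.mul_smul, trace_smul, h, smul_eq_mul]
      ring
  set q : (∀ t, Fin (J t)) → ZMod 2 → ZMod 2 → ℝ := fun f x y =>
    ((EE f)ᵀ * eveOp (copies Gb n) (MA x) (MB y)).trace.re with hq
  set w : (∀ t, Fin (J t)) → ℝ := fun f => ((EE f)ᵀ * σ).trace.re with hw
  have htr : ∀ f x y, ((EE f)ᵀ * eveOp (copies Gb n) (MA x) (MB y)).trace
      = (EE f * op (piG Gb (Fin n)) (MA x) (MB y)).trace := fun f x y => by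
    change ((EE f)ᵀ * (op (piG Gb (Fin n)) (MA x) (MB y))ᵀ).trace = _
    rw [← transpose_mul, trace_transpose, trace_mul_comm]
  have hqn : ∀ f x y, 0 ≤ ((EE f)ᵀ * eveOp (copies Gb n) (MA x) (MB y)).trace :=
    fun f x y => by
      rw [htr]
      exact psd_trace_mul (hpovm.1 f) (op_posSemidef _ (hMA x) (hMB y))
  have hqc : ∀ f x y, ((q f x y : ℝ) : ℂ) = ((EE f)ᵀ * eveOp (copies Gb n) (MA x)
      (MB y)).trace := fun f x y =>
    Complex.ext (by simp [hq]) (by simp [← (Complex.le_def.1 (hqn f x y)).2])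
  have hex : ∀ f, q f 0 0 * q f 1 1 = q f 0 1 * q f 1 0 := fun f => by
    have : ((q f 0 0 * q f 1 1 : ℝ) : ℂ) = ((q f 0 1 * q f 1 0 : ℝ) : ℂ) := by
      push_cast
      rw [hqc, hqc, hqc, hqc, htr, htr, htr, htr, hfac, hfac, hfac, hfac]
      ring
    exact_mod_cast this
  have hdiff : ∀ x y, ∑ f, |q f x y - if x = y then w f / 2 else 0| ≤ d x y := fun x y => by
    refine le_trans (le_of_eq (Finset.sum_congr rfl fun f _ => ?_)) (povm_trace_le hpovT _)
    rw [Matrix.mul_sub, trace_sub, Complex.sub_re]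
    split_ifs
    · rw [Matrix.mul_smul, trace_smul, smul_eq_mul]
      simp [hq, hw, div_eq_inv_mul]
    · simp [hq]
  have hw1 : ∑ f, w f = σ.trace.re := by
    rw [← Complex.re_sum, ← trace_sum, ← Finset.sum_mul, hpovT.2, Matrix.one_mul]
  rw [← hw1, Finset.sum_div]
  have hpt : ∀ f, w f / 5 ≤ ∑ x, ∑ y, |q f x y - if x = y then w f / 2 else 0| := fun f => by
    have h00 := (Complex.le_def.1 (hqn f 0 0)).1
    have h01 := (Complex.le_def.1 (hqn f 0 1)).1
    have h10 := (Complex.le_def.1 (hqn f 1 0)).1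
    have h11 := (Complex.le_def.1 (hqn f 1 1)).1
    simp only [Complex.zero_re] at h00 h01 h10 h11
    rw [sum_zmod2]
    simp only [sum_zmod2, if_pos, if_neg (show (0 : ZMod 2) ≠ 1 by decide),
      if_neg (show (1 : ZMod 2) ≠ 0 by decide), sub_zero]
    by_contra hlt
    rw [not_le] at hlt
    have a1 := abs_le.1 (le_refl |q f 0 0 - w f / 2|)
    have a2 := abs_le.1 (le_refl |q f 1 1 - w f / 2|)
    have n1 := abs_nonneg (q f 0 0 - w f / 2)
    have n2 := abs_nonneg (q f 1 1 - w f / 2)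
    rw [abs_of_nonneg h01, abs_of_nonneg h10] at hlt
    have hw0 : 0 < w f := by nlinarith
    have p1 : 3 / 10 * w f * (3 / 10 * w f) ≤ q f 0 0 * q f 1 1 :=
      mul_le_mul (by linarith) (by linarith) (by positivity) h00
    nlinarith [hex f, sq_nonneg (q f 0 1 - q f 1 0)]
  refine (Finset.sum_le_sum fun f _ => hpt f).trans ?_
  rw [Finset.sum_comm]
  refine Finset.sum_le_sum fun x _ => ?_
  rw [Finset.sum_comm]
  exact Finset.sum_le_sum fun y _ => hdiff x y

/-- No key bit with error below one fifth. -/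
theorem no_bit {dA dB r b m n : ℕ} {ρ K : Matrix (Fin dA × Fin dB) (Fin dA × Fin dB) ℂ}
    {G : Matrix (Fin dA × Fin dB) (Fin r) ℂ} {c δ ε : ℝ} (hA : 0 < dA) (hB : 0 < dB) (hc : 0 < c)
    (hρ : (c : ℂ) • ρ = 1 + K) (hK : OB K δ) (hδ0 : 0 ≤ δ) (hδ : 2 ^ b * δ ≤ gap m)
    (hG : G * Gᴴ = ρ) (hε : ε < 1 / 5) : ¬OneSidedBit G b m n ε := by
  classical
  rintro ⟨s, MA, MB, σ, hMA, hMB, -, hσ, hσ1, hsimple, herr⟩
  have : Nonempty (Fin dA) := ⟨⟨0, hA⟩⟩
  have : Nonempty (Fin dB) := ⟨⟨0, hB⟩⟩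
  have hgap : gap m ≤ 1 / 3 := by
    rw [gap, one_div, inv_le_inv₀ (by positivity) (by norm_num)]
    have : (0 : ℝ) ≤ 16 * m * 9 ^ m := by positivity
    linarith
  have hb2 : (1 : ℝ) ≤ 2 ^ b := one_le_pow₀ (by norm_num)
  obtain ⟨Kb, hρb, hKb⟩ := block_bound hρ hK hδ0 (by nlinarith) b
  set Gb := copies G b with hGbdef
  have hGb : Gb * Gbᴴ = copiesState ρ b := by
    ext i j
    simp [← hG, Gb, copies, copiesState, Matrix.mul_apply, Fintype.prod_sum,
      Finset.prod_mul_distrib]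
  have hcb : 0 < c ^ b := pow_pos hc b
  have hpos : (Gb * Gbᴴ).PosDef := by
    rw [hGb]
    have h1 : (((c ^ b : ℝ) : ℂ) • copiesState ρ b).PosDef := by
      rw [hρb, show 1 + Kb = ((1 - 2 ^ b * δ : ℝ) : ℂ) • 1 + (((2 ^ b * δ : ℝ) : ℂ) • 1 + Kb) by
        push_cast; module]
      exact (PosDef.one.smul (Complex.zero_lt_real.2 (by linarith))).add_posSemidef hKb.2
    have h2 := h1.smul (show (0 : ℂ) < ((c ^ b)⁻¹ : ℝ) from Complex.zero_lt_real.2 (inv_pos.2 hcb))
    rwa [smul_smul, Complex.ofReal_inv, inv_mul_cancel₀ (by exact_mod_cast hcb.ne'), one_smul] at h2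
  set d : ZMod 2 → ZMod 2 → Fin s → ℝ := fun x y u => traceNorm (eveOp (copies Gb n) (MA u x)
    (MB u y) - if x = y then (2 : ℂ)⁻¹ • σ u else 0) with hd
  have hkey : ∀ u, (σ u).trace.re / 5 ≤ ∑ x, ∑ y, d x y u :=
    fun u => simple_key hcb hρb hKb hδ hGb hpos (hMA u) (hMB u) (hsimple u)
  have h1 := Finset.sum_le_sum fun u (_ : u ∈ Finset.univ) => hkey u
  rw [← Finset.sum_div, ← Complex.re_sum, hσ1, Complex.one_re, Finset.sum_comm] at h1
  rw [Finset.sum_congr rfl fun x _ => Finset.sum_comm] at h1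
  simp only [hd] at h1
  linarith

/-- Key from all entangled states would need unrestricted measurements on both sides. -/
theorem one_sided_no_key (b m : ℕ) :
    ∃ (dA dB : ℕ) (ρ : Matrix (Fin dA × Fin dB) (Fin dA × Fin dB) ℂ),
      IsState ρ ∧ (partialTranspose ρ).PosSemidef ∧ ¬IsSeparable ρ ∧
      (∃ (r : ℕ) (G : Matrix (Fin dA × Fin dB) (Fin r) ℂ), G * Gᴴ = ρ) ∧
      ∀ (r : ℕ) (G : Matrix (Fin dA × Fin dB) (Fin r) ℂ), G * Gᴴ = ρ →
        ∀ (n : ℕ) (ε : ℝ), ε < 1 / 5 → ¬OneSidedBit G b m n ε := by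
  have hδ : 0 < gap m / 2 ^ b := div_pos (gap_pos m) (by positivity)
  obtain ⟨dA, dB, ρ, K, c, hA, hB, hc, hρ, hK, hst, hpt, hns⟩ := exists_near_id hδ
  refine ⟨dA, dB, ρ, hst, hpt, hns, ?_, fun r G hG n ε hε =>
    no_bit hA hB hc hρ hK hδ.le (by rw [mul_div_cancel₀ _ (by positivity)]) hG hε⟩
  obtain ⟨R, hR⟩ := exists_factor hst.1
  refine ⟨dA * dB, R.submatrix (Equiv.refl _) finProdFinEquiv.symm, ?_⟩
  rw [conjTranspose_submatrix, submatrix_mul_equiv, ← hR]
  simp

end Vale.Agent.P372
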