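import Mathlib
import Vale.Agent.P372.OneSided

/-!
The restricted class contains every operation for the free party, and gives perfect key from a
maximally entangled pair.
-/

noncomputable section

open Matrix Finset
open scoped ComplexOrder Kronecker

namespace Vale.Agent.P372

/-- Without restriction every operator is allowed. -/
theorem inSpan_univ {A : Type} [Fintype A] [DecidableEq A] (n : ℕ)
    (M : Matrix (Fin n → A) (Fin n → A) ℂ) : InSpan (fun _ => Set.univ) M := by
  rw [InSpan, matrix_eq_sum_single M]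
  refine Submodule.sum_mem _ fun i _ => Submodule.sum_mem _ fun j _ => ?_
  rw [show Matrix.single i j (M i j) = M i j • Matrix.single i j (1 : ℂ) by
    rw [smul_single, smul_eq_mul, mul_one]]
  refine Submodule.smul_mem _ _ (Submodule.subset_span ⟨fun t => Matrix.single (i t) (j t) 1,
    fun _ => Set.mem_univ _, ?_⟩)
  ext p q
  simp only [Matrix.single_apply, Matrix.of_apply]
  by_cases h : i = p ∧ j = q
  · simp [h.1, h.2]
  · rw [if_neg h]
    obtain ⟨t, ht⟩ : ∃ t, ¬(i t = p t ∧ j t = q t) := by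
      by_contra hc
      push Not at hc
      exact h ⟨funext fun t => (hc t).1, funext fun t => (hc t).2⟩
    exact (Finset.prod_eq_zero (Finset.mem_univ t) (if_neg ht)).symm

/-- A maximally entangled pair gives a perfect bit inside the class. -/
theorem bell_bit : ∃ G : Matrix (Fin 2 × Fin 2) (Fin 1) ℂ, IsState (G * Gᴴ) ∧
    OneSidedBit G 1 0 1 0 := by
  set G : Matrix (Fin 2 × Fin 2) (Fin 1) ℂ :=
    Matrix.of fun i _ => if i.1 = i.2 then ((Real.sqrt 2)⁻¹ : ℝ) else 0 with hG
  have hs : ((Real.sqrt 2)⁻¹ : ℝ) * (Real.sqrt 2)⁻¹ = 2⁻¹ := by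
    rw [← mul_inv, Real.mul_self_sqrt (by norm_num)]
  have hsC : (((Real.sqrt 2)⁻¹ : ℝ) : ℂ) * (((Real.sqrt 2)⁻¹ : ℝ) : ℂ) = (2 : ℂ)⁻¹ := by
    rw [← Complex.ofReal_mul, hs]; simp
  refine ⟨G, ⟨posSemidef_self_mul_conjTranspose G, ?_⟩, ?_⟩
  · simp only [hG, Matrix.trace, Matrix.diag, Matrix.mul_apply, conjTranspose_apply, Matrix.of_apply,
      Fin.sum_univ_one, Fintype.sum_prod_type, Fin.sum_univ_two]
    simp only [Fin.isValue, if_true, zero_ne_one, one_ne_zero, if_false, Complex.star_def,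
      Complex.conj_ofReal, map_zero, mul_zero, hsC]
    norm_num
  set P : ZMod 2 → Matrix (Fin 1 → Fin 1 → Fin 2) (Fin 1 → Fin 1 → Fin 2) ℂ :=
    fun x => diagonal fun i => if (i 0 0 : ℕ) = x.val then 1 else 0 with hP
  refine ⟨1, fun _ => P, fun _ => P, fun _ => 1, fun _ x => ?_, fun _ y => ?_, ?_,
    fun _ => PosSemidef.one, by simp, fun _ => ⟨fun _ => Set.range diagonal, fun _ => Set.univ,
      fun _ => Or.inl ⟨1, Fin.elim0, by simp, ?_⟩, fun x => ?_, fun y => inSpan_univ 1 _⟩, ?_⟩
  · exact PosSemidef.diagonal fun i => by dsimp; split_ifs <;> norm_num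
  · exact PosSemidef.diagonal fun i => by dsimp; split_ifs <;> norm_num
  · have : ∑ x, P x = 1 := by
      rw [sum_zmod2, hP, diagonal_add, ← diagonal_one]
      congr 1
      funext i
      have := (i 0 0).isLt
      interval_cases h : (i 0 0 : ℕ) <;> simp [ZMod.val_one]
    simp [this]
  · rintro _ ⟨d, rfl⟩
    exact ⟨d, Fin.elim0, by simp⟩
  · refine Submodule.subset_span ⟨fun _ => diagonal fun w : Fin 1 → Fin 2 =>
      if (w 0 : ℕ) = x.val then 1 else 0, fun _ => ⟨_, rfl⟩, ?_⟩
    ext i j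
    simp only [hP, Matrix.of_apply, Fin.prod_univ_one, diagonal_apply]
    exact if_congr (by rw [funext_iff, Fin.forall_fin_one]) rfl rfl
  have key : ∀ x y, eveOp (copies (copies G 1) 1) (P x) (P y)
      = if x = y then (2 : ℂ)⁻¹ • 1 else 0 := by
    intro x y
    ext i j
    rw [Subsingleton.elim j i]
    set e : (Fin 1 → Fin 1 → Fin 2) ≃ Fin 2 :=
      (Equiv.funUnique (Fin 1) _).trans (Equiv.funUnique (Fin 1) _)
    simp only [eveOp, transpose_apply, Matrix.mul_apply, conjTranspose_apply, copies, hP, hG,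
      kroneckerMap_apply, Matrix.of_apply, Fin.prod_univ_one, Fintype.sum_prod_type]
    rw [← e.symm.sum_comp]
    simp only [← e.symm.sum_comp, Fin.sum_univ_two]
    obtain rfl | rfl : x = 0 ∨ x = 1 := by revert x; decide
    all_goals obtain rfl | rfl : y = 0 ∨ y = 1 := by revert y; decide
    all_goals simp [e, Equiv.funUnique, ZMod.val_one, Complex.conj_ofReal, funext_iff,
      ← Complex.ofReal_inv, ← Complex.ofReal_mul, hs]
    all_goals norm_num
  simp only [key, sub_self]
  simp [show traceNorm (0 : Matrix (Fin 1 → Fin 1 → Fin 1) (Fin 1 → Fin 1 → Fin 1) ℂ) = 0 from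
    le_antisymm (traceNorm_le bnd_zero) (traceNorm_nonneg 0)]

end Vale.Agent.P372
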