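import Mathlib
import Vale.Agent.P372.OneSidedClass

/-!
Bounded operator Schmidt rank at every block puts a collective operator in the restricted class,
and the no-bit statement holds near the maximally mixed state.
-/

noncomputable section

open Matrix Finset
open scoped ComplexOrder Kronecker

namespace Vale.Agent.P372

/-- For every block, all slices of `M` at that block lie in the span of `m` operators. -/
def SliceRankLE {A : Type} {n : ℕ} (M : Matrix (Fin n → A) (Fin n → A) ℂ) (m : ℕ) : Prop :=
  ∀ t, ∃ W : Fin m → Matrix A A ℂ, ∀ p q : Fin n → A,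
    (Matrix.of fun i j => M (Function.update p t i) (Function.update q t j))
      ∈ Submodule.span ℂ (Set.range W)

theorem inSpan_of_slices {A : Type} [Fintype A] [DecidableEq A] {n m : ℕ}
    {M : Matrix (Fin n → A) (Fin n → A) ℂ} {W : Fin n → Fin m → Matrix A A ℂ}
    (hW : ∀ t p q, (Matrix.of fun i j => M (Function.update p t i) (Function.update q t j))
      ∈ Submodule.span ℂ (Set.range (W t))) :
    InSpan (fun t => (Submodule.span ℂ (Set.range (W t)) : Set _)) M := by
  classical
  set V : Fin n → Submodule ℂ (Matrix A A ℂ) := fun t => Submodule.span ℂ (Set.range (W t))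
  suffices key : ∀ T : Finset (Fin n), InSpan (fun t => if t ∈ T then (V t : Set _) else Set.univ) M by
    simpa using key Finset.univ
  intro T
  induction T using Finset.induction with
  | empty => simpa using inSpan_univ n M
  | insert t T ht ih =>
    obtain ⟨Q, hQ⟩ := Submodule.exists_isCompl (V t)
    set P : Matrix A A ℂ →ₗ[ℂ] Matrix A A ℂ :=
      (V t).subtype ∘ₗ (V t).projectionOnto Q hQ
    have hPmem : ∀ X, P X ∈ V t := fun X => SetLike.coe_mem _
    have hPfix : ∀ X ∈ V t, P X = X := fun X hX =>
      congrArg Subtype.val (Submodule.projectionOnto_apply_left hQ ⟨X, hX⟩)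
    let Φ : Matrix (Fin n → A) (Fin n → A) ℂ →ₗ[ℂ] Matrix (Fin n → A) (Fin n → A) ℂ :=
      { toFun := fun N => Matrix.of fun p q =>
          P (Matrix.of fun i j => N (Function.update p t i) (Function.update q t j)) (p t) (q t)
        map_add' := fun N N' => by
          ext p q
          exact congrFun (congrFun (map_add P
            (Matrix.of fun i j => N (Function.update p t i) (Function.update q t j))
            (Matrix.of fun i j => N' (Function.update p t i) (Function.update q t j))) (p t)) (q t)
        map_smul' := fun r N => by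
          ext p q
          exact congrFun (congrFun (map_smul P r
            (Matrix.of fun i j => N (Function.update p t i) (Function.update q t j))) (p t)) (q t) }
    have hfix : Φ M = M := by
      ext p q
      change P _ (p t) (q t) = M p q
      rw [hPfix _ (hW t p q)]
      simp
    rw [InSpan, ← hfix]
    refine Submodule.span_induction (p := fun N _ => Φ N ∈ Submodule.span ℂ _) ?_ ?_ ?_ ?_ ih
    · rintro N ⟨X, hX, rfl⟩
      refine Submodule.subset_span ⟨Function.update X t (P (X t)), fun s => ?_, ?_⟩
      · by_cases hs : s = t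
        · subst hs
          simp [hPmem]
        · have := hX s
          simpa [hs] using this
      · ext p q
        have e : (Matrix.of fun i j => ∏ s, X s (Function.update p t i s) (Function.update q t j s))
            = (∏ s ∈ univ.erase t, X s (p s) (q s)) • X t := by
          ext i j
          rw [Matrix.of_apply, ← Finset.mul_prod_erase univ _ (mem_univ t), Matrix.smul_apply,
            smul_eq_mul, mul_comm]
          congr 1
          · exact Finset.prod_congr rfl fun s hs => by simp [(Finset.mem_erase.1 hs).1]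
          · simp
        change P (Matrix.of fun i j => ∏ s, X s (Function.update p t i s)
          (Function.update q t j s)) (p t) (q t) = _
        rw [e, map_smul, Matrix.of_apply, ← Finset.mul_prod_erase univ _ (mem_univ t),
          Matrix.smul_apply, smul_eq_mul, Function.update_self, mul_comm]
        congr 1
        exact Finset.prod_congr rfl fun s hs => by simp [(Finset.mem_erase.1 hs).1]
    · simp
    · intro N N' _ _ h h'
      rw [map_add]
      exact Submodule.add_mem _ h h'
    · intro r N _ h
      rw [map_smul]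
      exact Submodule.smul_mem _ _ h

/-- Two effects of rank at most `m` at every block lie in one restricted family. -/
theorem inSpan_of_rank {A : Type} [Fintype A] [DecidableEq A] {n m : ℕ}
    {M₀ M₁ : Matrix (Fin n → A) (Fin n → A) ℂ} (h₀ : SliceRankLE M₀ m) (h₁ : SliceRankLE M₁ m) :
    ∃ S : Fin n → Set (Matrix A A ℂ),
      (∀ t, IsSimple (m + m) (S t)) ∧ InSpan S M₀ ∧ InSpan S M₁ := by
  choose W₀ hW₀ using h₀
  choose W₁ hW₁ using h₁
  have hs : ∀ t, Submodule.span ℂ (Set.range (W₀ t))
        ≤ Submodule.span ℂ (Set.range (Fin.append (W₀ t) (W₁ t)))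
      ∧ Submodule.span ℂ (Set.range (W₁ t))
        ≤ Submodule.span ℂ (Set.range (Fin.append (W₀ t) (W₁ t))) := fun t =>
    ⟨Submodule.span_mono (by rintro _ ⟨i, rfl⟩; exact ⟨Fin.castAdd m i, Fin.append_left _ _ i⟩),
      Submodule.span_mono (by rintro _ ⟨i, rfl⟩; exact ⟨Fin.natAdd m i, Fin.append_right _ _ i⟩)⟩
  set W : Fin n → Fin (m + m) → Matrix A A ℂ := fun t => Fin.append (W₀ t) (W₁ t) with hW
  have k0 := inSpan_of_slices (M := M₀) (W := W) fun t p q => (hs t).1 (hW₀ t p q)
  have k1 := inSpan_of_slices (M := M₁) (W := W) fun t p q => (hs t).2 (hW₁ t p q)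
  clear_value W
  refine ⟨_, fun t => ⟨1, W t, by simp, fun X hX => ?_⟩, k0, k1⟩
  obtain ⟨c, hc⟩ := (Submodule.mem_span_range_iff_exists_fun ℂ).1 hX
  exact ⟨fun _ => 0, c, by rw [diagonal_zero, Matrix.mul_zero, Matrix.zero_mul, zero_add, hc]⟩

/-- The no-bit statement for all states near the maximally mixed one. -/
theorem one_sided_near (b m : ℕ) : ∃ δ : ℝ, 0 < δ ∧ ∀ (dA dB r : ℕ)
    (ρ : Matrix (Fin dA × Fin dB) (Fin dA × Fin dB) ℂ) (G : Matrix (Fin dA × Fin dB) (Fin r) ℂ),
    0 < dA → 0 < dB →
    ((((1 + δ) / (dA * dB) : ℝ) : ℂ) • 1 - ρ).PosSemidef →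
    (ρ - (((1 - δ) / (dA * dB) : ℝ) : ℂ) • 1).PosSemidef → G * Gᴴ = ρ →
    ∀ (n : ℕ) (ε : ℝ), ε < 1 / 5 → ¬OneSidedBit G b m n ε := by
  have hδ : 0 < gap m / 2 ^ b := div_pos (gap_pos m) (by positivity)
  refine ⟨_, hδ, fun dA dB r ρ G hA hB h1 h2 hG n ε hε => ?_⟩
  have hc : (0 : ℝ) < dA * dB := mul_pos (by exact_mod_cast hA) (by exact_mod_cast hB)
  have hc' : (0 : ℂ) ≤ ((dA * dB : ℝ) : ℂ) := Complex.zero_le_real.2 hc.le
  set c : ℝ := (dA : ℝ) * dB with hcdef
  refine no_bit (ρ := ρ) (K := (c : ℂ) • ρ - 1) (δ := gap m / 2 ^ b) hA hB hc (by abel) ?_ hδ.le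
    (by rw [mul_div_cancel₀ _ (by positivity)]) hG hε
  have e : ∀ x : ℝ, (c : ℂ) * ((x / c : ℝ) : ℂ) = (x : ℂ) := fun x => by
    rw [← Complex.ofReal_mul, mul_div_cancel₀ _ hc.ne']
  constructor
  · have := h1.smul hc'
    rw [smul_sub, smul_smul, e] at this
    convert this using 1
    push_cast
    module
  · have := h2.smul hc'
    rw [smul_sub, smul_smul, e] at this
    convert this using 1
    push_cast
    module

end Vale.Agent.P372
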