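import Mathlib
import Vale.Agent.P372.OneSidedRank
import Vale.Agent.P372.MixedDefs

/-!
States close to the identity have two-sided symmetric extensions, so mild filtering gives no key.
-/

noncomputable section

open Matrix Finset
open scoped ComplexOrder Kronecker MatrixOrder

namespace Vale.Agent.P372

section
variable {A B E : Type} [Fintype A] [DecidableEq A] [Fintype B] [DecidableEq B] [Fintype E]
  [DecidableEq E]

/-- `σ` lives on a copy of Alice's system, hers and Bob's, and both its marginals with Bob are `ρ`. -/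
def IsExt (σ : Matrix (A × A × B) (A × A × B) ℂ) (ρ : Matrix (A × B) (A × B) ℂ) : Prop :=
  σ.PosSemidef ∧ (∀ i j, ∑ a, σ (a, i) (a, j) = ρ i j) ∧
    ∀ a a' b b', ∑ x, σ (a, x, b) (a', x, b') = ρ (a, b) (a', b')

omit [DecidableEq A] [DecidableEq B] in
theorem isExt_pi {I : Type} [Fintype I] [DecidableEq I] [DecidableEq A] [DecidableEq B]
    {σ : Matrix (A × A × B) (A × A × B) ℂ} {ρ : Matrix (A × B) (A × B) ℂ} (h : IsExt σ ρ) :
    IsExt (Matrix.of fun i j : (I → A) × (I → A) × (I → B) =>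
        ∏ t, σ (i.1 t, i.2.1 t, i.2.2 t) (j.1 t, j.2.1 t, j.2.2 t))
      (Matrix.of fun i j : (I → A) × (I → B) => ∏ t, ρ (i.1 t, i.2 t) (j.1 t, j.2 t)) := by
  refine ⟨(piMat_posSemidef fun _ : I => h.1).submatrix
    (fun i : (I → A) × (I → A) × (I → B) => fun t => (i.1 t, i.2.1 t, i.2.2 t)),
    fun i j => ?_, fun a a' b b' => ?_⟩
  · simp only [Matrix.of_apply, ← h.2.1, Fintype.prod_sum]
  · simp only [Matrix.of_apply, ← h.2.2, Fintype.prod_sum]

/-- A state close to the identity has a symmetric extension. -/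
theorem exists_ext [Nonempty A] {ρ K : Matrix (A × B) (A × B) ℂ} {c δ : ℝ} (hc : 0 < c)
    (hρ : (c : ℂ) • ρ = 1 + K) (hK : OB K δ) (hδ : δ ≤ 1 / 3) : ∃ σ, IsExt σ ρ := by
  set g : ℂ := (((Fintype.card A : ℝ)⁻¹ : ℝ) : ℂ) with hg
  have hg0 : (0 : ℂ) ≤ g := Complex.zero_le_real.2 (by positivity)
  have hgA : (Fintype.card A : ℂ) * g = 1 := by
    rw [hg]; push_cast
    rw [mul_inv_cancel₀ (Nat.cast_ne_zero.2 Fintype.card_ne_zero)]
  have hci : (0 : ℂ) ≤ ((c⁻¹ : ℝ) : ℂ) := Complex.zero_le_real.2 (inv_pos.2 hc).le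
  have hρ' : ρ = ((c⁻¹ : ℝ) : ℂ) • (1 + K) := by
    rw [← hρ, smul_smul, ← Complex.ofReal_mul, inv_mul_cancel₀ hc.ne', Complex.ofReal_one, one_smul]
  have hlo : (ρ - (((1 - δ) / c : ℝ) : ℂ) • 1).PosSemidef := by
    have := hK.2.smul hci
    rw [hρ']
    convert this using 1
    rw [div_eq_inv_mul]
    push_cast
    module
  have hhi : ((((1 + δ) / c : ℝ) : ℂ) • 1 - ρ).PosSemidef := by
    have := hK.1.smul hci
    rw [hρ']
    convert this using 1
    rw [div_eq_inv_mul]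
    push_cast
    module
  set τ : Matrix B B ℂ := g • ∑ a, ρ.submatrix (fun b => (a, b)) fun b => (a, b) with hτ
  have hτhi : ((((1 + δ) / c : ℝ) : ℂ) • 1 - τ).PosSemidef := by
    have := (posSemidef_sum (Finset.univ : Finset A) fun a _ =>
      hhi.submatrix fun b : B => (a, b)).smul hg0
    convert this using 1
    simp only [Matrix.submatrix_sub, Pi.sub_apply, Matrix.submatrix_smul, Pi.smul_apply,
      Matrix.submatrix_one (fun b : B => ((_ : A), b)) (fun _ _ h => (Prod.mk.inj h).2),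
      Finset.sum_sub_distrib, Finset.sum_const, Finset.card_univ, smul_sub, hτ]
    rw [← Nat.cast_smul_eq_nsmul ℂ, smul_smul, mul_comm g, hgA, one_smul]
  set sw : A × A × B → A × A × B := fun i => (i.2.1, i.1, i.2.2) with hsw
  have hswi : Function.Injective sw := fun i j h => by
    simp only [hsw, Prod.mk.injEq] at h
    exact Prod.ext h.2.1 (Prod.ext h.1 h.2.2)
  set σ : Matrix (A × A × B) (A × A × B) ℂ := g • (((1 : Matrix A A ℂ) ⊗ₖ ρ)
    + ((1 : Matrix A A ℂ) ⊗ₖ ρ).submatrix sw sw - (1 : Matrix A A ℂ) ⊗ₖ ((1 : Matrix A A ℂ) ⊗ₖ τ))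
    with hσ
  have hgA' : ∀ z, g * ((Fintype.card A : ℂ) * z) = z := fun z => by
    rw [← mul_assoc, mul_comm g, hgA, one_mul]
  refine ⟨σ, ?_, fun i j => ?_, fun a a' b b' => ?_⟩
  · have h1 := (PosSemidef.one (n := A) (R := ℂ)).kronecker hlo
    have h2 := h1.submatrix sw
    have h3 := (PosSemidef.one (n := A) (R := ℂ)).kronecker
      ((PosSemidef.one (n := A) (R := ℂ)).kronecker hτhi)
    have h4 : (0 : ℂ) ≤ (((1 - 3 * δ) / c : ℝ) : ℂ) :=
      Complex.zero_le_real.2 (div_nonneg (by linarith) hc.le)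
    have e : σ = g • ((1 : Matrix A A ℂ) ⊗ₖ (ρ - (((1 - δ) / c : ℝ) : ℂ) • 1)
        + ((1 : Matrix A A ℂ) ⊗ₖ (ρ - (((1 - δ) / c : ℝ) : ℂ) • 1)).submatrix sw sw
        + (1 : Matrix A A ℂ) ⊗ₖ ((1 : Matrix A A ℂ) ⊗ₖ ((((1 + δ) / c : ℝ) : ℂ) • 1 - τ))
        + (((1 - 3 * δ) / c : ℝ) : ℂ) • 1) := by
      have ks : ∀ {D : Type} (X Y : Matrix D D ℂ),
          (1 : Matrix A A ℂ) ⊗ₖ (X - Y) = (1 : Matrix A A ℂ) ⊗ₖ X - (1 : Matrix A A ℂ) ⊗ₖ Y :=
        fun X Y => by ext i j; simp [mul_sub]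
      rw [hσ]
      simp only [ks, kronecker_smul, one_kronecker_one, Matrix.submatrix_sub, Pi.sub_apply,
        Matrix.submatrix_smul, Pi.smul_apply, Matrix.submatrix_one sw hswi]
      clear_value τ σ g
      push_cast
      module
    rw [e]
    exact (((h1.add h2).add h3).add (PosSemidef.one.smul h4)).smul hg0
  · obtain ⟨x, b⟩ := i
    obtain ⟨x', b'⟩ := j
    simp only [hσ, Matrix.smul_apply, Matrix.sub_apply, Matrix.add_apply, Matrix.submatrix_apply,
      hsw, kroneckerMap_apply, Matrix.one_apply, smul_eq_mul, if_true, one_mul, mul_sub, mul_add,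
      Finset.sum_sub_distrib, Finset.sum_add_distrib, Finset.sum_const, Finset.card_univ,
      nsmul_eq_mul, ← mul_assoc, hgA]
    by_cases h : x = x'
    · simp [h, hτ, Matrix.sum_apply, Finset.mul_sum]
    · simp [h]
  · simp only [hσ, Matrix.smul_apply, Matrix.sub_apply, Matrix.add_apply, Matrix.submatrix_apply,
      hsw, kroneckerMap_apply, Matrix.one_apply, smul_eq_mul, if_true, one_mul, mul_sub, mul_add,
      Finset.sum_sub_distrib, Finset.sum_add_distrib, Finset.sum_const, Finset.card_univ,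
      nsmul_eq_mul, ← mul_assoc, hgA]
    by_cases h : a = a'
    · simp [h, hτ, Matrix.sum_apply, Finset.mul_sum, mul_left_comm _ g, hgA']
    · simp [h]

/-- Eve can realise any effect on the extra system by an effect on her own. -/
theorem exists_effect {G : Matrix (A × B) E ℂ} {σ : Matrix (A × A × B) (A × A × B) ℂ}
    (hpos : (G * Gᴴ).PosDef) (hext : IsExt σ (G * Gᴴ)) {Z : Matrix A A ℂ} (hZ : Z.PosSemidef)
    (hZ1 : (1 - Z).PosSemidef) :
    ∃ Q : Matrix E E ℂ, Q.PosSemidef ∧ (1 - Q).PosSemidef ∧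
      ∀ X Y, (Q * op G X Y).trace = (σ * (Z ⊗ₖ (X ⊗ₖ Y))).trace := by
  set Ω : Matrix A A ℂ → Matrix (A × B) (A × B) ℂ := fun Z =>
    Matrix.of fun i j => ∑ a, ∑ a', σ (a, i) (a', j) * Z a' a with hΩ
  have hΩp : ∀ W : Matrix A A ℂ, W.PosSemidef → (Ω W).PosSemidef := fun W hW => by
    obtain ⟨R, hR⟩ := exists_factor hW
    have : Ω W = ∑ k, (Matrix.of fun (p : A × A × B) (j : A × B) =>
        if p.2 = j then R p.1 k else 0)ᴴ * σ *
        (Matrix.of fun (p : A × A × B) (j : A × B) => if p.2 = j then R p.1 k else 0) := by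
      ext i j
      simp only [hΩ, hR, Matrix.of_apply, Matrix.sum_apply, Matrix.mul_apply, conjTranspose_apply,
        Fintype.sum_prod_type (α₁ := A) (α₂ := A × B), apply_ite star, star_zero, ite_mul,
        zero_mul, mul_ite, mul_zero, Finset.sum_ite_eq', Finset.mem_univ, if_true, Finset.mul_sum,
        Finset.sum_mul]
      conv_lhs => enter [2, a]; rw [Finset.sum_comm]
      rw [Finset.sum_comm]
      refine Finset.sum_congr rfl fun k _ => ?_
      rw [Finset.sum_comm]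
      refine Finset.sum_congr rfl fun a _ => Finset.sum_congr rfl fun a' _ => ?_
      ring
    rw [this]
    exact posSemidef_sum _ fun k _ => hext.1.conjTranspose_mul_mul_same _
  have hsum : Ω Z + Ω (1 - Z) = G * Gᴴ := by
    ext i j
    simp only [hΩ, Matrix.add_apply, Matrix.of_apply, ← Finset.sum_add_distrib, ← mul_add,
      Matrix.sub_apply, add_sub_cancel, Matrix.one_apply, mul_ite, mul_one, mul_zero,
      Finset.sum_ite_eq', Finset.mem_univ, if_true]
    exact hext.2.1 i j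
  set P₀ := G * Gᴴ with hP₀
  set S := P₀⁻¹ * G with hS
  have hu : IsUnit P₀.det := (Matrix.isUnit_iff_isUnit_det _).1 hpos.isUnit
  have hGS : G * Sᴴ = 1 := by
    rw [hS, conjTranspose_mul, conjTranspose_nonsing_inv, hpos.1.eq, ← Matrix.mul_assoc,
      Matrix.mul_nonsing_inv _ hu]
  have hSG : S * Gᴴ = 1 := by rw [hS, Matrix.mul_assoc, Matrix.nonsing_inv_mul _ hu]
  set P := Gᴴ * S with hP
  have hPσ : Sᴴ * P₀ * S = P := by
    rw [hP, hS, conjTranspose_mul, conjTranspose_nonsing_inv, hpos.1.eq,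
      show Gᴴ * P₀⁻¹ * P₀ * (P₀⁻¹ * G) = Gᴴ * (P₀⁻¹ * P₀ * (P₀⁻¹ * G)) by
        simp only [Matrix.mul_assoc], Matrix.nonsing_inv_mul _ hu, Matrix.one_mul]
  have hPh : P.IsHermitian := hPσ ▸ isHermitian_conjTranspose_mul_mul _ hpos.1
  have hPP : P * P = P := by
    rw [hP, show Gᴴ * S * (Gᴴ * S) = Gᴴ * (S * Gᴴ) * S by simp only [Matrix.mul_assoc], hSG,
      Matrix.mul_one]
  refine ⟨Sᴴ * Ω Z * S, (hΩp Z hZ).conjTranspose_mul_mul_same S, ?_, fun X Y => ?_⟩
  · have h : (1 - P)ᴴ * (1 - P) = 1 - P := by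
      rw [conjTranspose_sub, conjTranspose_one, hPh.eq, Matrix.sub_mul, Matrix.mul_sub,
        Matrix.mul_sub, hPP]
      simp
    rw [show 1 - Sᴴ * Ω Z * S = (1 - P) + Sᴴ * Ω (1 - Z) * S by
      rw [← hPσ, ← hsum, Matrix.mul_add, Matrix.add_mul]; abel]
    exact (h ▸ posSemidef_conjTranspose_mul_self (1 - P)).add
      ((hΩp _ hZ1).conjTranspose_mul_mul_same S)
  · rw [op, ← Matrix.mul_assoc, trace_mul_comm]
    simp only [← Matrix.mul_assoc]
    rw [show G * Sᴴ * Ω Z * S * Gᴴ = (G * Sᴴ) * Ω Z * (S * Gᴴ) by simp only [Matrix.mul_assoc],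
      hGS, hSG, Matrix.one_mul, Matrix.mul_one]
    simp only [hΩ, Matrix.trace, Matrix.diag, Matrix.mul_apply, Matrix.of_apply,
      kroneckerMap_apply, Fintype.sum_prod_type (α₁ := A) (α₂ := A × B), Finset.sum_mul]
    conv_rhs => rw [Finset.sum_comm]
    refine Finset.sum_congr rfl fun i _ => ?_
    rw [Finset.sum_comm]
    refine Finset.sum_congr rfl fun a _ => ?_
    rw [Finset.sum_comm]
    refine Finset.sum_congr rfl fun a' _ => Finset.sum_congr rfl fun j _ => ?_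
    ring

/-- Eve's test for one transcript with mild filtering on the first side. -/
theorem mild_test {G : Matrix (A × B) E ℂ} {σe : Matrix (A × A × B) (A × A × B) ℂ}
    (hpos : (G * Gᴴ).PosDef) (hext : IsExt σe (G * Gᴴ)) {MA : ZMod 2 → Matrix A A ℂ}
    {MB : ZMod 2 → Matrix B B ℂ} (hMA : ∀ x, (MA x).PosSemidef)
    (hMB : ∀ y, (MB y).PosSemidef) {K : ℝ} (hK : 1 ≤ K) (hcond : CondLE K (∑ x, MA x)) :
    ∃ Q : Matrix E E ℂ, Q.PosSemidef ∧ (1 - Q).PosSemidef ∧
      (op G (MA 0) (MB 0)).trace.re / K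
        ≤ (Q * op G (MA 0) (MB 0)).trace.re + (op G (MA 1) (MB 0)).trace.re ∧
      (Q * op G (MA 1) (MB 1)).trace.re ≤ (op G (MA 0) (MB 1)).trace.re := by
  obtain ⟨t, ht, hlo, hhi⟩ := hcond
  set ρ := G * Gᴴ with hρ
  set w : ℝ := (K * t)⁻¹ with hw
  have hKt : 0 < K * t := mul_pos (by linarith) ht
  have hw0 : (0 : ℂ) ≤ (w : ℂ) := Complex.zero_le_real.2 (inv_pos.2 hKt).le
  rw [sum_zmod2] at hlo hhi
  set Z : ZMod 2 → Matrix A A ℂ := fun x => (w : ℂ) • MA x with hZ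
  have hZ0 : ∀ x, (Z x).PosSemidef := fun x => (hMA x).smul hw0
  have hwK : (w : ℂ) * ((K * t : ℝ) : ℂ) = 1 := by
    rw [hw, ← Complex.ofReal_mul, inv_mul_cancel₀ hKt.ne', Complex.ofReal_one]
  have hZ1 : (1 - Z 0).PosSemidef := by
    have := (hhi.add (hMA 1)).smul hw0
    convert this using 1
    rw [show ((K * t : ℝ) : ℂ) • (1 : Matrix A A ℂ) - (MA 0 + MA 1) + MA 1
      = ((K * t : ℝ) : ℂ) • 1 - MA 0 by abel, smul_sub, smul_smul, hwK, one_smul, hZ]
  obtain ⟨Q, hQ, hQ1, hQe⟩ := exists_effect hpos hext (hZ0 0) hZ1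
  set T : Matrix A A ℂ → Matrix A A ℂ → Matrix B B ℂ → ℝ := fun Z X Y =>
    (σe * (Z ⊗ₖ (X ⊗ₖ Y))).trace.re with hT
  have hTn : ∀ {Z X : Matrix A A ℂ} {Y : Matrix B B ℂ}, Z.PosSemidef → X.PosSemidef →
      Y.PosSemidef → 0 ≤ T Z X Y := fun hZ hX hY =>
    (Complex.le_def.1 (psd_trace_mul hext.1 (hZ.kronecker (hX.kronecker hY)))).1
  have hop : ∀ X Y, (op G X Y).trace = (ρ * (X ⊗ₖ Y)).trace := fun X Y => by
    rw [op, Matrix.mul_assoc, trace_mul_comm, Matrix.mul_assoc, trace_mul_comm]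
  have hTa : ∀ X Y, T 1 X Y = (op G X Y).trace.re := fun X Y => by
    rw [hop]
    simp only [hT]
    congr 1
    simp only [Matrix.trace, Matrix.diag, Matrix.mul_apply, kroneckerMap_apply, Matrix.one_apply,
      Fintype.sum_prod_type (α₁ := A) (α₂ := A × B), ite_mul, one_mul, zero_mul, mul_ite,
      mul_zero]
    rw [Finset.sum_comm]
    refine Finset.sum_congr rfl fun i _ => ?_
    simp only [Finset.sum_ite_irrel, Finset.sum_const_zero, Finset.sum_ite_eq', Finset.mem_univ,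
      if_true]
    rw [Finset.sum_comm]
    exact Finset.sum_congr rfl fun j _ => by rw [← hext.2.1 i j, Finset.sum_mul]
  have hTb : ∀ X Y, T X 1 Y = (op G X Y).trace.re := fun X Y => by
    rw [hop]
    simp only [hT]
    congr 1
    simp only [Matrix.trace, Matrix.diag, Matrix.mul_apply, kroneckerMap_apply, Matrix.one_apply,
      Fintype.sum_prod_type, ite_mul, one_mul, zero_mul, mul_ite, mul_zero,
      Finset.sum_ite_irrel, Finset.sum_const_zero, Finset.sum_ite_eq', Finset.mem_univ, if_true]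
    refine Finset.sum_congr rfl fun a _ => ?_
    rw [Finset.sum_comm]
    refine Finset.sum_congr rfl fun b _ => ?_
    rw [Finset.sum_comm]
    refine Finset.sum_congr rfl fun a' _ => ?_
    rw [Finset.sum_comm]
    exact Finset.sum_congr rfl fun b' _ => by rw [← hext.2.2 a a' b b', Finset.sum_mul]
  have hTadd₁ : ∀ Z Z' X Y, T (Z + Z') X Y = T Z X Y + T Z' X Y := fun Z Z' X Y => by
    simp [hT, add_kronecker, Matrix.mul_add]
  have hTadd₂ : ∀ Z X X' Y, T Z (X + X') Y = T Z X Y + T Z X' Y := fun Z X X' Y => by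
    simp [hT, add_kronecker, kronecker_add, Matrix.mul_add]
  have hTsm₁ : ∀ (r : ℝ) Z X Y, T ((r : ℂ) • Z) X Y = r * T Z X Y := fun r Z X Y => by
    simp [hT, smul_kronecker, Matrix.mul_smul]
  have hTsm₂ : ∀ (r : ℝ) Z X Y, T Z ((r : ℂ) • X) Y = r * T Z X Y := fun r Z X Y => by
    simp [hT, smul_kronecker, kronecker_smul, Matrix.mul_smul]
  set q : ZMod 2 → ZMod 2 → ℝ := fun x y => (op G (MA x) (MB y)).trace.re with hq
  -- the extra copy reproduces Bob's bit with the errors of the protocol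
  have hupper : ∀ z y, T (Z z) (MA 0 + MA 1) (MB y) ≤ q z y := fun z y => by
    have := hTn (hZ0 z) hhi (hMB y)
    rw [show ((K * t : ℝ) : ℂ) • (1 : Matrix A A ℂ) - (MA 0 + MA 1)
      = ((K * t : ℝ) : ℂ) • 1 + ((-1 : ℝ) : ℂ) • (MA 0 + MA 1) by push_cast; module,
      hTadd₂, hTsm₂, hTsm₂, hTb, hZ, op_smul_left, trace_smul, smul_eq_mul,
      Complex.re_ofReal_mul, hw, ← mul_assoc, mul_inv_cancel₀ hKt.ne', one_mul] at this
    simp only [hq, hZ] at *
    linarith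
  have hlower : q 0 0 / K ≤ T (Z 0) (MA 0) (MB 0) + T (Z 1) (MA 0) (MB 0) := by
    have := hTn (hlo.smul hw0) (hMA 0) (hMB 0)
    rw [show (w : ℂ) • (MA 0 + MA 1 - (t : ℂ) • 1)
      = Z 0 + Z 1 + ((-(w * t) : ℝ) : ℂ) • 1 by simp only [hZ]; push_cast; module,
      hTadd₁, hTadd₁, hTsm₁ (-(w * t)) 1, hTa] at this
    have hwt : w * t = K⁻¹ := by rw [hw]; field_simp
    rw [hwt] at this
    simp only [hq, div_eq_inv_mul] at *
    linarith
  have h10 : T (Z 1) (MA 0) (MB 0) ≤ q 1 0 := by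
    have := hupper 1 0
    rw [hTadd₂] at this
    linarith [hTn (hZ0 1) (hMA 1) (hMB 0)]
  have h01 : T (Z 0) (MA 1) (MB 1) ≤ q 0 1 := by
    have := hupper 0 1
    rw [hTadd₂] at this
    linarith [hTn (hZ0 0) (hMA 0) (hMB 1)]
  refine ⟨Q, hQ, hQ1, ?_, ?_⟩
  · rw [hQe]
    simp only [hT, hq] at *
    linarith
  · rw [hQe]
    simp only [hT, hq] at *
    linarith

omit [Fintype A] [DecidableEq A] [Fintype B] [DecidableEq B] in
/-- A test and the total weight are both bounded by the trace norm. -/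
theorem two_test {Q : Matrix E E ℂ} (hQ : Q.PosSemidef) (hQ1 : (1 - Q).PosSemidef)
    (D : Matrix E E ℂ) : |(Qᵀ * D).trace.re| ≤ traceNorm D ∧ |D.trace.re| ≤ traceNorm D := by
  have hP : IsPOVM fun f : Fin 2 => (![Qᵀ, (1 - Q)ᵀ] : Fin 2 → Matrix E E ℂ) f := by
    refine ⟨fun f => ?_, ?_⟩
    · fin_cases f
      · exact hQ.transpose
      · exact hQ1.transpose
    · simp [Fin.sum_univ_two, ← transpose_add]
  have h := povm_trace_le (A := E) hP D
  simp only [Fin.sum_univ_two, Matrix.cons_val_zero, Matrix.cons_val_one] at h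
  refine ⟨le_trans (le_add_of_nonneg_right (abs_nonneg _)) h, le_trans ?_ h⟩
  refine le_trans (le_of_eq ?_) (abs_add_le _ _)
  rw [← Complex.add_re, ← trace_add, ← Matrix.add_mul, ← transpose_add, add_sub_cancel,
    transpose_one, Matrix.one_mul]

/-- Eve's key error for one transcript with mild filtering on the first side. -/
theorem mild_key {G : Matrix (A × B) E ℂ} {σe : Matrix (A × A × B) (A × A × B) ℂ}
    (hpos : (G * Gᴴ).PosDef) (hext : IsExt σe (G * Gᴴ)) {MA : ZMod 2 → Matrix A A ℂ}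
    {MB : ZMod 2 → Matrix B B ℂ} {σ : Matrix E E ℂ} (hMA : ∀ x, (MA x).PosSemidef)
    (hMB : ∀ y, (MB y).PosSemidef) {K : ℝ} (hK : 1 ≤ K) (hcond : CondLE K (∑ x, MA x)) :
    σ.trace.re / (4 * K) ≤ ∑ x, ∑ y, traceNorm (eveOp G (MA x) (MB y)
      - if x = y then (2 : ℂ)⁻¹ • σ else 0) := by
  obtain ⟨Q, hQ, hQ1, hlow, hup⟩ := mild_test hpos hext hMA hMB hK hcond
  set q : ZMod 2 → ZMod 2 → ℝ := fun x y => (op G (MA x) (MB y)).trace.re with hq
  set Δ : ZMod 2 → ZMod 2 → Matrix E E ℂ := fun x y =>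
    eveOp G (MA x) (MB y) - if x = y then (2 : ℂ)⁻¹ • σ else 0 with hΔ
  have htest : ∀ x y, |(Qᵀ * Δ x y).trace.re| ≤ traceNorm (Δ x y) := fun x y =>
    (two_test hQ hQ1 (Δ x y)).1
  have hnorm : ∀ x y, |(Δ x y).trace.re| ≤ traceNorm (Δ x y) := fun x y =>
    (two_test hQ hQ1 (Δ x y)).2
  have htr : ∀ x y, (Qᵀ * eveOp G (MA x) (MB y)).trace.re = (Q * op G (MA x) (MB y)).trace.re :=
      fun x y => by
    change (Qᵀ * (op G (MA x) (MB y))ᵀ).trace.re = _
    rw [← transpose_mul, trace_transpose, trace_mul_comm]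
  have htr1 : ∀ x y, (eveOp G (MA x) (MB y)).trace.re = q x y := fun x y => by
    change (op G (MA x) (MB y))ᵀ.trace.re = _
    rw [trace_transpose]
  have e0 := htest 0 0
  have e1 := htest 1 1
  have n0 := hnorm 0 0
  have n01 := hnorm 0 1
  have n10 := hnorm 1 0
  simp only [hΔ, if_pos, if_neg (show (0 : ZMod 2) ≠ 1 by decide),
    if_neg (show (1 : ZMod 2) ≠ 0 by decide), sub_zero, Matrix.mul_sub, trace_sub, Complex.sub_re,
    Matrix.mul_smul, trace_smul, smul_eq_mul, htr, htr1] at e0 e1 n0 n01 n10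
  simp only [sum_zmod2, hΔ, if_pos, if_neg (show (0 : ZMod 2) ≠ 1 by decide),
    if_neg (show (1 : ZMod 2) ≠ 0 by decide), sub_zero]
  have hhalf : ((2 : ℂ)⁻¹ * σ.trace).re = σ.trace.re / 2 := by simp [div_eq_inv_mul]
  rw [hhalf] at n0
  obtain ⟨a0, b0⟩ := abs_le.1 e0
  obtain ⟨a1, b1⟩ := abs_le.1 e1
  obtain ⟨a2, b2⟩ := abs_le.1 n0
  obtain ⟨a3, b3⟩ := abs_le.1 n01
  obtain ⟨a4, b4⟩ := abs_le.1 n10
  have hd : (σ.trace.re / 2 - q 0 0) / K ≤ traceNorm (eveOp G (MA 0) (MB 0) - (2 : ℂ)⁻¹ • σ) := by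
    refine (div_le_iff₀ (by linarith)).2 ?_
    nlinarith [traceNorm_nonneg (eveOp G (MA 0) (MB 0) - (2 : ℂ)⁻¹ • σ)]
  simp only [hq] at *
  have e : σ.trace.re / (4 * K) = (σ.trace.re / 2 - (op G (MA 0) (MB 0)).trace.re) / K / 2
      + (op G (MA 0) (MB 0)).trace.re / K / 2 := by ring
  linarith [traceNorm_nonneg (eveOp G (MA 1) (MB 1) - (2 : ℂ)⁻¹ • σ)]

end

section
variable {A B E : Type} [Fintype A] [DecidableEq A] [Fintype B] [DecidableEq B] [Fintype E]
  [DecidableEq E]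

theorem eveOp_swap (G : Matrix (A × B) E ℂ) (M : Matrix A A ℂ) (N : Matrix B B ℂ) :
    eveOp (G.submatrix (Equiv.prodComm B A) (Equiv.refl E)) N M = eveOp G M N := by
  have hk : N ⊗ₖ M = (M ⊗ₖ N).submatrix (Equiv.prodComm B A) (Equiv.prodComm B A) := by
    ext i j
    simp [mul_comm]
  rw [eveOp, eveOp, hk, conjTranspose_submatrix, submatrix_mul_equiv, submatrix_mul_equiv,
    Equiv.coe_refl, submatrix_id_id]

/-- Eve's key error when either party filters mildly. -/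
theorem mild_key_either {G : Matrix (A × B) E ℂ} {σA : Matrix (A × A × B) (A × A × B) ℂ}
    {σB : Matrix (B × B × A) (B × B × A) ℂ} (hpos : (G * Gᴴ).PosDef) (hA : IsExt σA (G * Gᴴ))
    (hB : IsExt σB ((G * Gᴴ).submatrix Prod.swap Prod.swap)) {MA : ZMod 2 → Matrix A A ℂ}
    {MB : ZMod 2 → Matrix B B ℂ} {σ : Matrix E E ℂ} (hMA : ∀ x, (MA x).PosSemidef)
    (hMB : ∀ y, (MB y).PosSemidef) {K : ℝ} (hK : 1 ≤ K)
    (hcond : CondLE K (∑ x, MA x) ∨ CondLE K (∑ y, MB y)) :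
    σ.trace.re / (4 * K) ≤ ∑ x, ∑ y, traceNorm (eveOp G (MA x) (MB y)
      - if x = y then (2 : ℂ)⁻¹ • σ else 0) := by
  rcases hcond with h | h
  · exact mild_key hpos hA hMA hMB hK h
  set G' : Matrix (B × A) E ℂ := G.submatrix (Equiv.prodComm B A) (Equiv.refl E) with hG'
  have hg : G' * G'ᴴ = (G * Gᴴ).submatrix Prod.swap Prod.swap := by
    rw [hG', conjTranspose_submatrix, submatrix_mul_equiv, Equiv.coe_prodComm]
  have hpos' : (G' * G'ᴴ).PosDef := by
    rw [hg]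
    exact hpos.submatrix Prod.swap_injective
  have := mild_key hpos' (hg ▸ hB) hMB hMA hK h (σ := σ)
  rw [Finset.sum_comm] at this
  refine this.trans (le_of_eq (Finset.sum_congr rfl fun x _ => Finset.sum_congr rfl fun y _ => ?_))
  rw [hG', eveOp_swap]
  simp only [eq_comm]

end

theorem posDef_copies {I A B : Type} [Fintype I] [DecidableEq I] [Fintype A] [DecidableEq A]
    [Fintype B] [DecidableEq B] {ρ : Matrix (A × B) (A × B) ℂ} (h : ρ.PosDef) :
    (Matrix.of fun i j : (I → A) × (I → B) => ∏ t, ρ (i.1 t, i.2 t) (j.1 t, j.2 t)).PosDef := by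
  have hu : IsUnit ρ.det := (Matrix.isUnit_iff_isUnit_det _).1 h.isUnit
  have hp : (piMat fun _ : I => ρ).PosDef := by
    rw [(piMat_posSemidef fun _ => h.posSemidef).posDef_iff_isUnit]
    refine isUnit_iff_exists.2 ⟨piMat fun _ => ρ⁻¹, ?_, ?_⟩ <;> rw [piMat_mul]
    · simp [Matrix.mul_nonsing_inv _ hu, piMat_one]
    · simp [Matrix.nonsing_inv_mul _ hu, piMat_one]
  exact hp.submatrix (Equiv.arrowProdEquivProdArrow I (fun _ => A) (fun _ => B)).symm.injective

/-- No key bit when every transcript is simple on blocks or mildly filtered. -/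
theorem no_restricted {dA dB r b m n : ℕ} {ρ K : Matrix (Fin dA × Fin dB) (Fin dA × Fin dB) ℂ}
    {G : Matrix (Fin dA × Fin dB) (Fin r) ℂ} {c δ ε κ : ℝ} (hA : 0 < dA) (hB : 0 < dB)
    (hc : 0 < c) (hρ : (c : ℂ) • ρ = 1 + K) (hK : OB K δ) (hδ0 : 0 ≤ δ)
    (hδ : 2 ^ b * δ ≤ gap m) (hG : G * Gᴴ = ρ) (hκ : 1 ≤ κ) (hε : ε * (5 * κ) < 1) :
    ¬RestrictedBit G b m n κ ε := by
  classical
  rintro ⟨s, MA, MB, σ, hMA, hMB, -, -, hσ1, hres, herr⟩
  have : Nonempty (Fin dA) := ⟨⟨0, hA⟩⟩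
  have : Nonempty (Fin dB) := ⟨⟨0, hB⟩⟩
  have hgap : gap m ≤ 1 / 3 := by
    rw [gap, one_div, inv_le_inv₀ (by positivity) (by norm_num)]
    have : (0 : ℝ) ≤ 16 * m * 9 ^ m := by positivity
    linarith
  have hδ3 : δ ≤ 1 / 3 := by nlinarith [one_le_pow₀ (M₀ := ℝ) (a := 2) (by norm_num) (n := b)]
  obtain ⟨Kb, hρb, hKb⟩ := block_bound hρ hK hδ0 (by linarith) b
  have hρpd : ρ.PosDef := by
    have h1 : ((c : ℂ) • ρ).PosDef := by
      rw [hρ, show 1 + K = ((1 - δ : ℝ) : ℂ) • 1 + ((δ : ℂ) • 1 + K) by push_cast; module]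
      exact (PosDef.one.smul (Complex.zero_lt_real.2 (by linarith))).add_posSemidef hK.2
    have h2 := h1.smul (show (0 : ℂ) < (c⁻¹ : ℝ) from Complex.zero_lt_real.2 (inv_pos.2 hc))
    rwa [smul_smul, Complex.ofReal_inv, inv_mul_cancel₀ (by exact_mod_cast hc.ne'), one_smul] at h2
  have hGb : copies G b * (copies G b)ᴴ = copiesState ρ b := by
    rw [← hG]; exact piG_gram G b
  have hGn : copies (copies G b) n * (copies (copies G b) n)ᴴ
      = copiesState (copiesState ρ b) n := by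
    rw [← hGb]; exact piG_gram (copies G b) n
  have hpb : (copiesState ρ b).PosDef := posDef_copies hρpd
  have hpn : (copiesState (copiesState ρ b) n).PosDef := posDef_copies hpb
  obtain ⟨τA, hτA⟩ := exists_ext hc hρ hK hδ3
  obtain ⟨τB, hτB⟩ : ∃ τ, IsExt τ (ρ.submatrix Prod.swap Prod.swap) := by
    refine exists_ext (K := K.submatrix Prod.swap Prod.swap) hc ?_ ⟨?_, ?_⟩ hδ3
    · ext i j
      have := congrFun (congrFun hρ i.swap) j.swap
      simpa [Matrix.one_apply, Prod.swap_injective.eq_iff] using this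
    · have := hK.1.submatrix (Prod.swap : Fin dB × Fin dA → Fin dA × Fin dB)
      simpa only [Matrix.submatrix_sub, Pi.sub_apply, Matrix.submatrix_smul, Pi.smul_apply,
        Matrix.submatrix_one _ Prod.swap_injective] using this
    · have := hK.2.submatrix (Prod.swap : Fin dB × Fin dA → Fin dA × Fin dB)
      simpa only [Matrix.submatrix_add, Pi.add_apply, Matrix.submatrix_smul, Pi.smul_apply,
        Matrix.submatrix_one _ Prod.swap_injective] using this
  have hkey : ∀ u, (σ u).trace.re / (5 * κ) ≤ ∑ x, ∑ y, traceNorm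
      (eveOp (copies (copies G b) n) (MA u x) (MB u y)
        - if x = y then (2 : ℂ)⁻¹ • σ u else 0) := by
    intro u
    have h0 : 0 ≤ ∑ x, ∑ y, traceNorm (eveOp (copies (copies G b) n) (MA u x) (MB u y)
        - if x = y then (2 : ℂ)⁻¹ • σ u else 0) :=
      Finset.sum_nonneg fun _ _ => Finset.sum_nonneg fun _ _ => traceNorm_nonneg _
    rw [div_le_iff₀ (by linarith)]
    rcases hres u with h | h
    · have := simple_key (σ := σ u) (pow_pos hc b) hρb hKb hδ hGb (hGb ▸ hpb) (hMA u) (hMB u) h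
      nlinarith
    · have := mild_key_either (σ := σ u) (by rw [hGn]; exact hpn)
        (by rw [hGn]; exact isExt_pi (I := Fin n) (isExt_pi (I := Fin b) hτA))
        (by rw [hGn]; exact isExt_pi (I := Fin n) (isExt_pi (I := Fin b) hτB)) (hMA u) (hMB u) hκ h
      rw [div_le_iff₀ (by linarith)] at this
      nlinarith
  have h1 := Finset.sum_le_sum fun u (_ : u ∈ Finset.univ) => hkey u
  rw [← Finset.sum_div, ← Complex.re_sum, hσ1, Complex.one_re, Finset.sum_comm] at h1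
  rw [Finset.sum_congr rfl fun x _ => Finset.sum_comm] at h1
  rw [div_le_iff₀ (by linarith)] at h1
  nlinarith

/-- States near the maximally mixed one give no bit to restricted protocols. -/
theorem restricted_near (b m : ℕ) : ∃ δ : ℝ, 0 < δ ∧ ∀ (dA dB r : ℕ)
    (ρ : Matrix (Fin dA × Fin dB) (Fin dA × Fin dB) ℂ) (G : Matrix (Fin dA × Fin dB) (Fin r) ℂ),
    0 < dA → 0 < dB →
    ((((1 + δ) / (dA * dB) : ℝ) : ℂ) • 1 - ρ).PosSemidef →
    (ρ - (((1 - δ) / (dA * dB) : ℝ) : ℂ) • 1).PosSemidef → G * Gᴴ = ρ →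
    ∀ (n : ℕ) (K ε : ℝ), 1 ≤ K → ε * (5 * K) < 1 → ¬RestrictedBit G b m n K ε := by
  have hδ : 0 < gap m / 2 ^ b := div_pos (gap_pos m) (by positivity)
  refine ⟨_, hδ, fun dA dB r ρ G hA hB h1 h2 hG n K ε hK hε => ?_⟩
  have hc : (0 : ℝ) < dA * dB := mul_pos (by exact_mod_cast hA) (by exact_mod_cast hB)
  have hc' : (0 : ℂ) ≤ ((dA * dB : ℝ) : ℂ) := Complex.zero_le_real.2 hc.le
  set c : ℝ := (dA : ℝ) * dB with hcdef
  refine no_restricted (ρ := ρ) (K := (c : ℂ) • ρ - 1) (δ := gap m / 2 ^ b) hA hB hc (by abel) ?_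
    hδ.le (by rw [mul_div_cancel₀ _ (by positivity)]) hG hK hε
  have e : ∀ x : ℝ, (c : ℂ) * ((x / c : ℝ) : ℂ) = (x : ℂ) := fun x => by
    rw [← Complex.ofReal_mul, mul_div_cancel₀ _ hc.ne']
  constructor
  · have := h1.smul hc'
    rw [smul_sub, smul_smul, e] at this
    convert this using 1
    push_cast
    module
  · have := h2.smul hc'
    rw [smul_sub, smul_smul, e] at this
    convert this using 1
    push_cast
    module

/-- Some entangled state gives no bit to restricted protocols. -/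
theorem restricted_no_key (b m : ℕ) :
    ∃ (dA dB : ℕ) (ρ : Matrix (Fin dA × Fin dB) (Fin dA × Fin dB) ℂ),
      IsState ρ ∧ (partialTranspose ρ).PosSemidef ∧ ¬IsSeparable ρ ∧
      (∃ (r : ℕ) (G : Matrix (Fin dA × Fin dB) (Fin r) ℂ), G * Gᴴ = ρ) ∧
      ∀ (r : ℕ) (G : Matrix (Fin dA × Fin dB) (Fin r) ℂ), G * Gᴴ = ρ →
        ∀ (n : ℕ) (K ε : ℝ), 1 ≤ K → ε * (5 * K) < 1 → ¬RestrictedBit G b m n K ε := by
  have hδ : 0 < gap m / 2 ^ b := div_pos (gap_pos m) (by positivity)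
  obtain ⟨dA, dB, ρ, K, c, hA, hB, hc, hρ, hK, hst, hpt, hns⟩ := exists_near_id hδ
  refine ⟨dA, dB, ρ, hst, hpt, hns, ?_, fun r G hG n κ ε hκ hε =>
    no_restricted hA hB hc hρ hK hδ.le (by rw [mul_div_cancel₀ _ (by positivity)]) hG hκ hε⟩
  obtain ⟨R, hR⟩ := exists_factor hst.1
  refine ⟨dA * dB, R.submatrix (Equiv.refl _) finProdFinEquiv.symm, ?_⟩
  rw [conjTranspose_submatrix, submatrix_mul_equiv, ← hR]
  simp

/-- A maximally entangled pair gives a perfect bit inside the class. -/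
theorem bell_restricted : ∃ G : Matrix (Fin 2 × Fin 2) (Fin 1) ℂ, IsState (G * Gᴴ) ∧
    RestrictedBit G 1 0 1 1 0 := by
  obtain ⟨G, hs, s, MA, MB, σ, h1, h2, h3, h4, h5, h6, h7⟩ := bell_bit
  exact ⟨G, hs, s, MA, MB, σ, h1, h2, h3, h4, h5, fun u => Or.inl (h6 u), h7⟩

end Vale.Agent.P372
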