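import Mathlib
import Vale.Agent.P372.Distill

/-!
Secret key when a collective observable fluctuates coherently beyond its local variances.
-/

noncomputable section

open Matrix Finset Filter
open scoped ComplexOrder Kronecker MatrixOrder Topology

namespace Vale.Agent.P372

section
variable {ι : Type} [Fintype ι] [DecidableEq ι]

/-- The real part of an expectation value. -/
def ev (ρ N : Matrix ι ι ℂ) : ℝ := (ρ * N).trace.re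

omit [DecidableEq ι] in
theorem ev_add (ρ N N' : Matrix ι ι ℂ) : ev ρ (N + N') = ev ρ N + ev ρ N' := by
  simp [ev, Matrix.mul_add, trace_add]

omit [DecidableEq ι] in
theorem ev_sub (ρ N N' : Matrix ι ι ℂ) : ev ρ (N - N') = ev ρ N - ev ρ N' := by
  simp [ev, Matrix.mul_sub, trace_sub]

omit [DecidableEq ι] in
theorem ev_smul (ρ : Matrix ι ι ℂ) (s : ℝ) (N : Matrix ι ι ℂ) :
    ev ρ ((s : ℂ) • N) = s * ev ρ N := by
  rw [ev, Matrix.mul_smul, trace_smul, smul_eq_mul, Complex.re_ofReal_mul]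
  rfl

theorem ev_one {ρ : Matrix ι ι ℂ} (h : ρ.trace = 1) : ev ρ 1 = 1 := by
  simp [ev, h]

omit [DecidableEq ι] in
theorem ev_I_smul {ρ H : Matrix ι ι ℂ} (hρ : ρ.IsHermitian) (hH : H.IsHermitian) :
    ev ρ (Complex.I • H) = 0 := by
  have h : star (ρ * H).trace = (ρ * H).trace := by
    rw [← trace_conjTranspose, conjTranspose_mul, hρ.eq, hH.eq, trace_mul_comm]
  rw [ev, Matrix.mul_smul, trace_smul, smul_eq_mul, Complex.mul_re, Complex.I_re, Complex.I_im,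
    Complex.conj_eq_iff_im.1 h]
  ring

theorem ev_sq_nonneg {ρ H : Matrix ι ι ℂ} (hρ : ρ.PosSemidef) (hH : H.IsHermitian) :
    0 ≤ ev ρ (H * H) := by
  obtain ⟨R, rfl⟩ := exists_factor hρ
  have e : (R * Rᴴ * (H * H)).trace = (H * R * (H * R)ᴴ).trace := by
    rw [trace_mul_comm (R * Rᴴ), conjTranspose_mul, hH.eq,
      show H * R * (Rᴴ * H) = H * (R * Rᴴ * H) by simp only [Matrix.mul_assoc],
      trace_mul_comm H (R * Rᴴ * H), trace_mul_comm (H * H)]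
    simp only [Matrix.mul_assoc]
  rw [ev, e, trace_mul_conjTranspose_self, Complex.ofReal_re]
  exact fsq_nonneg _

theorem prod_expand (e : ℂ) (M N J L : Matrix ι ι ℂ) :
    (1 + e • M + e ^ 2 • N) * (1 + e • J + e ^ 2 • L) * (1 - e • M + e ^ 2 • N)
      = 1 + e • J + e ^ 2 • (N + N + M * J + L - (M + J) * M)
        + e ^ 3 • ((M * L + N * J) - (N + M * J + L) * M + (M + J) * N)
        + e ^ 4 • (N * L - (M * L + N * J) * M + (N + M * J + L) * N)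
        + e ^ 5 • ((M * L + N * J) * N - N * L * M) + e ^ 6 • (N * L * N) := by
  simp only [Matrix.mul_add, Matrix.add_mul, Matrix.mul_sub, Matrix.sub_mul, Matrix.mul_smul,
    Matrix.smul_mul, Matrix.one_mul, Matrix.mul_one, Matrix.mul_assoc, smul_smul, smul_add,
    smul_sub]
  module

theorem exists_phase_gate {H : Matrix ι ι ℂ} (hH : H.IsHermitian) :
    ∃ K : ℝ, 0 < K ∧ ∀ e : ℝ, (1 - (((Real.sqrt (1 + K * e ^ 4))⁻¹ : ℝ) : ℂ) •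
        (1 + (e : ℂ) • (Complex.I • H) + (e : ℂ) ^ 2 • (((-1 / 2 : ℝ) : ℂ) • (H * H)))
      * ((((Real.sqrt (1 + K * e ^ 4))⁻¹ : ℝ) : ℂ) •
        (1 + (e : ℂ) • (Complex.I • H) + (e : ℂ) ^ 2 • (((-1 / 2 : ℝ) : ℂ) • (H * H))))ᴴ).PosSemidef := by
  have hH2 : (H * H).IsHermitian := by
    rw [IsHermitian, conjTranspose_mul, hH.eq]
  have hH4 : (H * H * (H * H)).IsHermitian := by
    rw [IsHermitian, conjTranspose_mul, hH2.eq]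
  obtain ⟨d, hd, hd1⟩ := exists_scale hH4
  refine ⟨1 / (4 * d), by positivity, fun e => ?_⟩
  set K := 1 / (4 * d) with hK
  set r := (Real.sqrt (1 + K * e ^ 4))⁻¹ with hr
  have hr2 : r * r = (1 + K * e ^ 4)⁻¹ := by
    rw [hr, ← mul_inv, Real.mul_self_sqrt (by positivity)]
  have hW : (1 + (e : ℂ) • (Complex.I • H) + (e : ℂ) ^ 2 • (((-1 / 2 : ℝ) : ℂ) • (H * H)))
      * (1 + (e : ℂ) • (Complex.I • H) + (e : ℂ) ^ 2 • (((-1 / 2 : ℝ) : ℂ) • (H * H)))ᴴ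
      = 1 + ((e ^ 4 / 4 : ℝ) : ℂ) • (H * H * (H * H)) := by
    simp only [conjTranspose_add, conjTranspose_smul, conjTranspose_one, hH.eq, hH2.eq,
      RCLike.star_def, map_pow, map_mul, Complex.conj_ofReal,
      Complex.conj_I, Matrix.mul_add, Matrix.add_mul, Matrix.mul_smul, Matrix.smul_mul,
      Matrix.one_mul, Matrix.mul_one, Matrix.mul_assoc, smul_smul, smul_add]
    push_cast
    match_scalars <;> (try simp only [map_ofNat, mul_one, one_mul]) <;> ring_nf <;>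
      simp [Complex.I_sq] <;> ring
  have key : 1 - (r : ℂ) • (1 + (e : ℂ) • (Complex.I • H)
        + (e : ℂ) ^ 2 • (((-1 / 2 : ℝ) : ℂ) • (H * H)))
      * ((r : ℂ) • (1 + (e : ℂ) • (Complex.I • H)
        + (e : ℂ) ^ 2 • (((-1 / 2 : ℝ) : ℂ) • (H * H))))ᴴ
      = ((r * r * (K * e ^ 4) : ℝ) : ℂ) • (1 + ((-d : ℝ) : ℂ) • (H * H * (H * H))) := by
    rw [conjTranspose_smul, RCLike.star_def, Complex.conj_ofReal, Matrix.smul_mul, Matrix.mul_smul,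
      smul_smul, hW, ← Complex.ofReal_mul]
    have h1 : r * r + r * r * (K * e ^ 4) = 1 := by
      rw [hr2, ← mul_one_add, inv_mul_cancel₀ (by positivity : (1 + K * e ^ 4) ≠ 0)]
    have h2 : K * d = 1 / 4 := by rw [hK]; field_simp
    match_scalars
    · simp only [mul_one]
      rw [eq_comm, ← sub_eq_zero]
      have : (((r * r + r * r * (K * e ^ 4)) : ℝ) : ℂ) = 1 := by rw [h1]; simp
      push_cast at this ⊢
      linear_combination this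
    · have : ((K * d : ℝ) : ℂ) = 1 / 4 := by rw [h2]; norm_num
      push_cast at this ⊢
      linear_combination (r : ℂ) * r * (e : ℂ) ^ 4 * this
  rw [key]
  exact (hd1 (-d) (by rw [abs_neg, abs_of_pos hd])).smul (Complex.zero_le_real.2
    (mul_nonneg (mul_self_nonneg r) (by positivity)))

end

section
variable {A B : Type} [Fintype A] [Fintype B] [DecidableEq A] [DecidableEq B]

theorem effect_ev {ρ : Matrix (A × B) (A × B) ℂ} (hρ : ρ.trace = 1) {X : Matrix A A ℂ}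
    {Y : Matrix B B ℂ} (hX : X.IsHermitian) (hY : Y.IsHermitian)
    (hx : ev ρ (X ⊗ₖ 1) = 0) (hy : ev ρ (1 ⊗ₖ Y) = 0) (s t : ℝ) :
    ev ρ (((1 + (s : ℂ) • X)ᴴ * (1 + (s : ℂ) • X)) ⊗ₖ ((1 + (t : ℂ) • Y)ᴴ * (1 + (t : ℂ) • Y)))
      = 1 + s ^ 2 * ev ρ ((X * X) ⊗ₖ 1) + t ^ 2 * ev ρ (1 ⊗ₖ (Y * Y))
        + 4 * (s * t) * ev ρ (X ⊗ₖ Y) + 2 * s ^ 2 * t * ev ρ ((X * X) ⊗ₖ Y)
        + 2 * s * t ^ 2 * ev ρ (X ⊗ₖ (Y * Y)) + s ^ 2 * t ^ 2 * ev ρ ((X * X) ⊗ₖ (Y * Y)) := by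
  simp only [conjTranspose_add, conjTranspose_smul, conjTranspose_one, hX.eq, hY.eq,
    RCLike.star_def, Complex.conj_ofReal, Matrix.mul_add, Matrix.add_mul, Matrix.mul_smul,
    Matrix.smul_mul, Matrix.one_mul, Matrix.mul_one, add_kronecker, kronecker_add,
    smul_kronecker, kronecker_smul, smul_add, smul_smul, ← Complex.ofReal_mul, one_kronecker_one,
    ev_add, ev_smul, ev_one hρ, hx, hy]
  ring

end

theorem sub_kronecker' {A B : Type} (X X' : Matrix A A ℂ) (Y : Matrix B B ℂ) :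
    (X - X') ⊗ₖ Y = X ⊗ₖ Y - X' ⊗ₖ Y := by
  ext i j; simp [sub_mul]

theorem kronecker_sub' {A B : Type} (X : Matrix A A ℂ) (Y Y' : Matrix B B ℂ) :
    X ⊗ₖ (Y - Y') = X ⊗ₖ Y - X ⊗ₖ Y' := by
  ext i j; simp [mul_sub]

theorem gain_expand {ι : Type} [Fintype ι] [DecidableEq ι] {ρ H : Matrix ι ι ℂ}
    (hρ : ρ.IsHermitian) (hρ1 : ρ.trace = 1) (hH : H.IsHermitian) (M N : Matrix ι ι ℂ) :
    ∃ g : ℝ → ℝ, Continuous g ∧
      g 0 = 2 * ev ρ N - ev ρ (M * M) + ev ρ (Complex.I • (M * H - H * M)) - ev ρ (H * H) / 2 ∧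
      ∀ e : ℝ, ev ρ ((1 + (e : ℂ) • M + (e : ℂ) ^ 2 • N)
          * (1 + (e : ℂ) • (Complex.I • H) + (e : ℂ) ^ 2 • (((-1 / 2 : ℝ) : ℂ) • (H * H)))
          * (1 - (e : ℂ) • M + (e : ℂ) ^ 2 • N)) = 1 + e ^ 2 * g e := by
  set J : Matrix ι ι ℂ := Complex.I • H with hJ
  set L : Matrix ι ι ℂ := ((-1 / 2 : ℝ) : ℂ) • (H * H) with hL
  refine ⟨fun e => ev ρ (N + N + M * J + L - (M + J) * M)
    + e * ev ρ ((M * L + N * J) - (N + M * J + L) * M + (M + J) * N)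
    + e ^ 2 * ev ρ (N * L - (M * L + N * J) * M + (N + M * J + L) * N)
    + e ^ 3 * ev ρ ((M * L + N * J) * N - N * L * M) + e ^ 4 * ev ρ (N * L * N),
    by fun_prop, ?_, fun e => ?_⟩
  · have e1 : N + N + M * J + L - (M + J) * M
        = ((2 : ℝ) : ℂ) • N - M * M + Complex.I • (M * H - H * M)
          + ((-1 / 2 : ℝ) : ℂ) • (H * H) := by
      simp only [hJ, hL, Matrix.mul_smul, Matrix.smul_mul, Matrix.add_mul, smul_sub]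
      push_cast
      module
    simp only [e1, ev_add, ev_sub, ev_smul]
    ring
  · have hJ0 : ev ρ J = 0 := ev_I_smul hρ hH
    rw [prod_expand]
    simp only [← Complex.ofReal_pow, ev_smul, ev_add, ev_one hρ1, hJ0]
    ring

theorem product_lt {f₀ f₁ f₂ f₃ g : ℝ → ℝ} (hf₀ : Continuous f₀) (hf₁ : Continuous f₁)
    (hf₂ : Continuous f₂) (hf₃ : Continuous f₃) (hg : Continuous g) {K : ℝ} (hK : 0 < K)
    (h : f₀ 0 + f₁ 0 + f₂ 0 + f₃ 0 < 4 * g 0) :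
    ∃ e : ℝ, 0 < 1 + e ^ 2 * g e ∧
      (1 + e ^ 2 * f₀ e) * (1 + e ^ 2 * f₁ e) * (1 + e ^ 2 * f₂ e) * (1 + e ^ 2 * f₃ e)
        < ((Real.sqrt (1 + K * e ^ 4))⁻¹ * (1 + e ^ 2 * g e)) ^ 4 := by
  set Φ : ℝ → ℝ := fun e => f₀ e + f₁ e + f₂ e + f₃ e
    + e ^ 2 * (f₀ e * f₁ e + f₀ e * f₂ e + f₀ e * f₃ e + f₁ e * f₂ e + f₁ e * f₃ e + f₂ e * f₃ e)
    + e ^ 4 * (f₀ e * f₁ e * f₂ e + f₀ e * f₁ e * f₃ e + f₀ e * f₂ e * f₃ e + f₁ e * f₂ e * f₃ e)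
    + e ^ 6 * (f₀ e * f₁ e * f₂ e * f₃ e) with hΦ
  set Ψ : ℝ → ℝ := fun e => Φ e + (1 + e ^ 2 * Φ e) * (2 * K * e ^ 2 + K ^ 2 * e ^ 6)
    - (4 * g e + 6 * e ^ 2 * g e ^ 2 + 4 * e ^ 4 * g e ^ 3 + e ^ 6 * g e ^ 4) with hΨ
  have hΦc : Continuous Φ := by rw [hΦ]; fun_prop
  have hΨc : Continuous Ψ := by rw [hΨ]; fun_prop
  have hΨ0 : Ψ 0 < 0 := by simp [hΨ, hΦ]; linarith
  have h1 : ∀ᶠ e in 𝓝 (0 : ℝ), Ψ e < 0 :=
    hΨc.continuousAt.eventually_lt continuousAt_const hΨ0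
  have h2 : ∀ᶠ e in 𝓝 (0 : ℝ), 0 < 1 + e ^ 2 * g e :=
    continuousAt_const.eventually_lt (by fun_prop) (by simp)
  obtain ⟨e, ⟨heΨ, heg⟩, he⟩ :=
    (((h1.and h2).filter_mono nhdsWithin_le_nhds).and
      (eventually_mem_nhdsWithin (a := (0 : ℝ)) (s := {0}ᶜ))).exists
  refine ⟨e, heg, ?_⟩
  have hq : 0 < 1 + K * e ^ 4 := by positivity
  have hr : ((Real.sqrt (1 + K * e ^ 4))⁻¹ * (1 + e ^ 2 * g e)) ^ 4
      = (1 + e ^ 2 * g e) ^ 4 / (1 + K * e ^ 4) ^ 2 := by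
    have hs := Real.sq_sqrt hq.le
    calc _ = (1 + e ^ 2 * g e) ^ 4 / (Real.sqrt (1 + K * e ^ 4) ^ 2) ^ 2 := by
          rw [div_eq_mul_inv]; ring
      _ = _ := by rw [hs]
  rw [hr, lt_div_iff₀ (by positivity), ← sub_neg]
  have he2 : 0 < e ^ 2 := by
    have : e ≠ 0 := he
    positivity
  calc _ = e ^ 2 * Ψ e := by simp only [hΨ, hΦ]; ring
    _ < 0 := mul_neg_of_pos_of_neg he2 heΨ

theorem qfi_centred {dA dB : ℕ} {ρ : Matrix (Fin dA × Fin dB) (Fin dA × Fin dB) ℂ}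
    (hρ : IsState ρ) {X : Matrix (Fin dA) (Fin dA) ℂ} {Y : Matrix (Fin dB) (Fin dB) ℂ}
    {H : Matrix (Fin dA × Fin dB) (Fin dA × Fin dB) ℂ}
    (hX : X.IsHermitian) (hY : Y.IsHermitian) (hH : H.IsHermitian)
    (hx : ev ρ (X ⊗ₖ 1) = 0) (hy : ev ρ (1 ⊗ₖ Y) = 0)
    (h : 2 * (ev ρ ((X * X) ⊗ₖ 1) + ev ρ (1 ⊗ₖ (Y * Y))) + ev ρ (H * H) / 2
      < ev ρ (Complex.I • ((X ⊗ₖ 1 + 1 ⊗ₖ Y) * H - H * (X ⊗ₖ 1 + 1 ⊗ₖ Y)))) :
    HasPositiveKey ρ := by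
  obtain ⟨K, hK, hW⟩ := exists_phase_gate hH
  obtain ⟨g, hgc, hg0, hge⟩ := gain_expand hρ.1.1 hρ.2 hH (X ⊗ₖ 1 + 1 ⊗ₖ Y) (X ⊗ₖ Y)
  set v := ev ρ ((X * X) ⊗ₖ (1 : Matrix (Fin dB) (Fin dB) ℂ))
    + ev ρ ((1 : Matrix (Fin dA) (Fin dA) ℂ) ⊗ₖ (Y * Y)) with hv
  set f : ℝ → ℝ → ℝ → ℝ := fun σ τ e => v + 4 * (σ * τ) * ev ρ (X ⊗ₖ Y)
    + e * (2 * τ * ev ρ ((X * X) ⊗ₖ Y) + 2 * σ * ev ρ (X ⊗ₖ (Y * Y)))
    + e ^ 2 * ev ρ ((X * X) ⊗ₖ (Y * Y)) with hf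
  have hg0' : ev ρ ((X ⊗ₖ 1 + 1 ⊗ₖ Y) * (X ⊗ₖ 1 + 1 ⊗ₖ Y)) = v + 2 * ev ρ (X ⊗ₖ Y) := by
    simp only [hv, Matrix.mul_add, Matrix.add_mul, ← mul_kronecker_mul, Matrix.one_mul,
      Matrix.mul_one, ev_add]
    ring
  obtain ⟨e, heg, he⟩ := product_lt (f₀ := f 1 1) (f₁ := f 1 (-1)) (f₂ := f (-1) 1)
    (f₃ := f (-1) (-1)) (g := g) (by simp only [hf]; fun_prop) (by simp only [hf]; fun_prop)
    (by simp only [hf]; fun_prop) (by simp only [hf]; fun_prop) hgc hK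
    (by rw [hg0, hg0']; simp only [hf]; linarith)
  have hp : ∀ σ τ : ℝ, σ ^ 2 = 1 → τ ^ 2 = 1 →
      ev ρ (((1 + ((σ * e : ℝ) : ℂ) • X)ᴴ * (1 + ((σ * e : ℝ) : ℂ) • X))
        ⊗ₖ ((1 + ((τ * e : ℝ) : ℂ) • Y)ᴴ * (1 + ((τ * e : ℝ) : ℂ) • Y)))
        = 1 + e ^ 2 * f σ τ e := by
    intro σ τ hσ hτ
    rw [effect_ev hρ.2 hX hY hx hy]
    simp only [hf, hv, mul_pow, hσ, hτ]
    ring
  have ha : ((1 + ((1 * e : ℝ) : ℂ) • X) ⊗ₖ (1 + ((1 * e : ℝ) : ℂ) • Y))ᴴ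
      = 1 + (e : ℂ) • (X ⊗ₖ 1 + 1 ⊗ₖ Y) + (e : ℂ) ^ 2 • (X ⊗ₖ Y) := by
    simp only [conjTranspose_kronecker, conjTranspose_add, conjTranspose_smul, conjTranspose_one,
      hX.eq, hY.eq, RCLike.star_def, map_mul, Complex.conj_ofReal, add_kronecker, kronecker_add,
      smul_kronecker, kronecker_smul, smul_smul, one_mul, one_kronecker_one, smul_add]
    module
  have hb : (1 + ((-1 * e : ℝ) : ℂ) • X) ⊗ₖ (1 + ((-1 * e : ℝ) : ℂ) • Y)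
      = 1 - (e : ℂ) • (X ⊗ₖ 1 + 1 ⊗ₖ Y) + (e : ℂ) ^ 2 • (X ⊗ₖ Y) := by
    simp only [add_kronecker, kronecker_add, smul_kronecker, kronecker_smul, smul_smul,
      one_kronecker_one, smul_add, neg_mul, one_mul, Complex.ofReal_neg]
    module
  refine distill hρ (1 + ((1 * e : ℝ) : ℂ) • X) (1 + ((-1 * e : ℝ) : ℂ) • X)
    (1 + ((1 * e : ℝ) : ℂ) • Y) (1 + ((-1 * e : ℝ) : ℂ) • Y) _ (hW e) ?_
  simp only [ev] at hp hge
  rw [hp 1 1 (by norm_num) (by norm_num), hp 1 (-1) (by norm_num) (by norm_num),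
    hp (-1) 1 (by norm_num) (by norm_num), hp (-1) (-1) (by norm_num) (by norm_num), ha, hb]
  refine he.trans_le (pow_le_pow_left₀ (mul_nonneg (inv_nonneg.2 (Real.sqrt_nonneg _)) heg.le)
    (le_trans (le_of_eq ?_) (Complex.re_le_norm _)) 4)
  rw [Matrix.mul_smul, Matrix.smul_mul, Matrix.mul_smul, trace_smul, smul_eq_mul,
    Complex.re_ofReal_mul, hge]

theorem qfi {dA dB : ℕ} {ρ : Matrix (Fin dA × Fin dB) (Fin dA × Fin dB) ℂ} (hρ : IsState ρ)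
    {X : Matrix (Fin dA) (Fin dA) ℂ} {Y : Matrix (Fin dB) (Fin dB) ℂ}
    {H : Matrix (Fin dA × Fin dB) (Fin dA × Fin dB) ℂ}
    (hX : X.IsHermitian) (hY : Y.IsHermitian) (hH : H.IsHermitian)
    (h : 4 * (ρ * (H * H)).trace.re
        * (((ρ * ((X * X) ⊗ₖ 1)).trace.re - (ρ * (X ⊗ₖ 1)).trace.re ^ 2)
          + ((ρ * (1 ⊗ₖ (Y * Y))).trace.re - (ρ * (1 ⊗ₖ Y)).trace.re ^ 2))
      < (ρ * (Complex.I • ((X ⊗ₖ 1 + 1 ⊗ₖ Y) * H - H * (X ⊗ₖ 1 + 1 ⊗ₖ Y)))).trace.re ^ 2) :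
    HasPositiveKey ρ := by
  set x := ev ρ (X ⊗ₖ 1) with hx
  set y := ev ρ ((1 : Matrix (Fin dA) (Fin dA) ℂ) ⊗ₖ Y) with hy
  set X' := X - (x : ℂ) • (1 : Matrix (Fin dA) (Fin dA) ℂ) with hX'
  set Y' := Y - (y : ℂ) • (1 : Matrix (Fin dB) (Fin dB) ℂ) with hY'
  change 4 * ev ρ (H * H) * ((ev ρ _ - x ^ 2) + (ev ρ _ - y ^ 2)) < ev ρ _ ^ 2 at h
  have hX'h : X'.IsHermitian := hX.sub (isHermitian_one.smul (Complex.conj_ofReal x))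
  have hY'h : Y'.IsHermitian := hY.sub (isHermitian_one.smul (Complex.conj_ofReal y))
  have ex : X' ⊗ₖ (1 : Matrix (Fin dB) (Fin dB) ℂ) = X ⊗ₖ 1 - (x : ℂ) • 1 := by
    rw [hX', sub_kronecker', smul_kronecker, one_kronecker_one]
  have ey : (1 : Matrix (Fin dA) (Fin dA) ℂ) ⊗ₖ Y' = 1 ⊗ₖ Y - (y : ℂ) • 1 := by
    rw [hY', kronecker_sub', kronecker_smul, one_kronecker_one]
  have exx : (X' * X') ⊗ₖ (1 : Matrix (Fin dB) (Fin dB) ℂ)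
      = (X * X) ⊗ₖ 1 - ((2 * x : ℝ) : ℂ) • (X ⊗ₖ 1) + ((x * x : ℝ) : ℂ) • 1 := by
    simp only [hX', Matrix.sub_mul, Matrix.mul_sub, Matrix.smul_mul, Matrix.mul_smul,
      Matrix.one_mul, Matrix.mul_one, sub_kronecker', smul_kronecker, one_kronecker_one, smul_sub,
      smul_smul, ← Complex.ofReal_mul]
    push_cast
    module
  have eyy : (1 : Matrix (Fin dA) (Fin dA) ℂ) ⊗ₖ (Y' * Y')
      = 1 ⊗ₖ (Y * Y) - ((2 * y : ℝ) : ℂ) • (1 ⊗ₖ Y) + ((y * y : ℝ) : ℂ) • 1 := by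
    simp only [hY', Matrix.sub_mul, Matrix.mul_sub, Matrix.smul_mul, Matrix.mul_smul,
      Matrix.one_mul, Matrix.mul_one, kronecker_sub', kronecker_smul, one_kronecker_one, smul_sub,
      smul_smul, ← Complex.ofReal_mul]
    push_cast
    module
  set c := ev ρ (Complex.I • ((X ⊗ₖ 1 + 1 ⊗ₖ Y) * H - H * (X ⊗ₖ 1 + 1 ⊗ₖ Y))) with hc
  set q := ev ρ (H * H) with hq
  set v := (ev ρ ((X * X) ⊗ₖ (1 : Matrix (Fin dB) (Fin dB) ℂ)) - x ^ 2)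
    + (ev ρ ((1 : Matrix (Fin dA) (Fin dA) ℂ) ⊗ₖ (Y * Y)) - y ^ 2) with hv
  have hq0 : 0 ≤ q := ev_sq_nonneg hρ.1 hH
  obtain ⟨lam, hlam⟩ : ∃ lam : ℝ, 2 * v + lam ^ 2 * q / 2 < lam * c := by
    rcases eq_or_lt_of_le hq0 with h0 | h0
    · have hc0 : c ≠ 0 := by
        intro hz
        rw [← h0, hz] at h
        simp at h
      exact ⟨(2 * v + 1) / c, by rw [← h0, div_mul_cancel₀ _ hc0]; linarith⟩
    · refine ⟨c / q, ?_⟩
      have e1 : c / q * c - (c / q) ^ 2 * q / 2 = c ^ 2 / (2 * q) := by field_simp; ring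
      have e2 : 2 * v < c ^ 2 / (2 * q) := by
        rw [lt_div_iff₀ (by positivity)]
        linarith
      linarith
  refine qfi_centred hρ hX'h hY'h (H := (lam : ℂ) • H) (hH.smul (Complex.conj_ofReal lam)) ?_ ?_ ?_
  · rw [ex, ev_sub, ev_smul, ev_one hρ.2, ← hx]; ring
  · rw [ey, ev_sub, ev_smul, ev_one hρ.2, ← hy]; ring
  · have ec : Complex.I • ((X' ⊗ₖ 1 + 1 ⊗ₖ Y') * ((lam : ℂ) • H)
        - ((lam : ℂ) • H) * (X' ⊗ₖ 1 + 1 ⊗ₖ Y'))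
        = (lam : ℂ) • (Complex.I • ((X ⊗ₖ 1 + 1 ⊗ₖ Y) * H - H * (X ⊗ₖ 1 + 1 ⊗ₖ Y))) := by
      rw [ex, ey]
      simp only [Matrix.mul_add, Matrix.add_mul, Matrix.mul_sub, Matrix.sub_mul, Matrix.mul_smul,
        Matrix.smul_mul, Matrix.one_mul, Matrix.mul_one, smul_sub, smul_add, smul_smul]
      module
    rw [ec, exx, eyy, Matrix.smul_mul, Matrix.mul_smul, smul_smul, ← Complex.ofReal_mul]
    simp only [ev_add, ev_sub, ev_smul, ev_one hρ.2, ← hx, ← hy, ← hc, ← hq]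
    linarith

end Vale.Agent.P372
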